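import Vale.Agent.P226.Crit

/-! Three vectors; perimeter inequality for four. PLAN: max - min of three reals = half the sum of the |differences|; em = -E min by map_neg_std; E|⟪u,x⟫| = 2‖u‖/√(2π)
(integral_inner, int_abs). bound3: pad with zero vectors (em_mono), Cauchy-Schwarz, Σ_{i<j}‖v i - v j‖² ≤ 3Σ‖v i‖².
per4: for m ∈ {i,j,l}, em (rest z m) = em of the three others (em_mono both ways) = perimeter/(2√(2π)). Σ_{big-small}ℓ² = F + 4x, Σ_{big-big}ℓ² = 3F - 4x (from sum0),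
ℓ ≤ 3ℓ²/(2τ) + τ/6. -/
namespace Vale.Agent.P226
open MeasureTheory ProbabilityTheory Real Finset Filter Topology
open scoped RealInnerProductSpace

variable {E : Type} [NormedAddCommGroup E] [InnerProductSpace ℝ E] [FiniteDimensional ℝ E]
  [MeasurableSpace E] [BorelSpace E] {ι : Type}

lemma Base_sup (f : Fin 3 → ℝ) : ⨆ i, f i = max (f 0) (max (f 1) (f 2)) := by
  have h := fun i => le_ciSup (f := f) (Set.finite_range _).bddAbove i
  refine le_antisymm (ciSup_le fun i => ?_) (max_le (h 0) (max_le (h 1) (h 2)))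
  fin_cases i <;> simp

lemma Base_abs (u : E) : ∫ x, |⟪u, x⟫| ∂(stdGaussian E) = ‖u‖ * (2 * (√(2 * π))⁻¹) := by
  rw [integral_inner u (fun t => |t|) (by fun_prop), ← int_abs, ← integral_const_mul]
  simp only [abs_mul, abs_norm]

lemma Base_max (a b c : ℝ) : max a (max b c) + max (-a) (max (-b) (-c)) =
    (|a - b| + |a - c| + |b - c|) / 2 := by
  have p : ∀ x y : ℝ, x ≤ y → max x y = y ∧ max (-x) (-y) = -x ∧ |x - y| = y - x ∧
      max y x = y ∧ max (-y) (-x) = -x ∧ |y - x| = y - x := fun x y h =>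
    ⟨max_eq_right h, max_eq_left (neg_le_neg h), by rw [abs_sub_comm, abs_of_nonneg (sub_nonneg.2 h)],
      max_eq_left h, max_eq_right (neg_le_neg h), abs_of_nonneg (sub_nonneg.2 h)⟩
  rcases le_total b c with h3 | h3 <;> rcases le_total a b with h1 | h1 <;>
    rcases le_total a c with h2 | h2 <;>
    simp only [p _ _ h1, p _ _ h2, p _ _ h3] <;> linarith

lemma em3 (a b c : E) : em ![a, b, c] = (‖a - b‖ + ‖a - c‖ + ‖b - c‖) / (2 * √(2 * π)) := by
  have hi := integrable_sup ![a, b, c]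
  have hm : AEMeasurable (fun x : E => -x) (stdGaussian E) := by fun_prop
  have hi' : Integrable (fun x => ⨆ i, ⟪![a, b, c] i, x⟫) ((stdGaussian E).map fun x => -x) := by
    rwa [map_neg_std]
  have h1 : em ![a, b, c] = ∫ x, (⨆ i, ⟪![a, b, c] i, -x⟫) ∂(stdGaussian E) := by
    rw [← integral_map hm hi'.aestronglyMeasurable, map_neg_std, em]
  have h2 : Integrable (fun x => ⨆ i, ⟪![a, b, c] i, -x⟫) (stdGaussian E) :=
    (integrable_map_measure hi'.aestronglyMeasurable hm).1 hi'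
  have h5 : Integrable (fun x => |⟪a - b, x⟫| + |⟪a - c, x⟫|) (stdGaussian E) :=
    (integrable_inner _).abs.add (integrable_inner _).abs
  have h3 : em ![a, b, c] + em ![a, b, c] =
      ∫ x, (|⟪a - b, x⟫| + |⟪a - c, x⟫| + |⟪b - c, x⟫|) / 2 ∂(stdGaussian E) := by
    nth_rewrite 2 [h1]
    rw [em, ← integral_add hi h2]
    refine integral_congr_ae (ae_of_all _ fun x => ?_)
    simp only [Base_sup, inner_neg_right, inner_sub_left]
    exact Base_max _ _ _
  rw [integral_div, integral_add h5 (integrable_inner _).abs,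
    integral_add (integrable_inner _).abs (integrable_inner _).abs,
    Base_abs, Base_abs, Base_abs] at h3
  have h4 : 0 < √(2 * π) := by positivity
  field_simp at h3 ⊢
  linarith

theorem bound3 : Bound E 3 := by
  intro ι _ _ hc v
  obtain ⟨e⟩ := Function.Embedding.nonempty_of_card_le (α := ι) (β := Fin 3) (by simpa using hc)
  set w : Fin 3 → E := Function.extend e v 0 with hw
  have h0 : ∀ i, w (e i) = v i := fun i => e.injective.extend_apply v 0 i
  have h1 : ∑ i, ‖v i‖ ^ 2 = ∑ j, ‖w j‖ ^ 2 := by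
    rw [← sum_subset (subset_univ (univ.map e)) fun j _ hj => ?_, sum_map]
    · simp only [h0]
    · rw [hw, Function.extend_apply' _ _ _ fun ⟨i, hi⟩ => hj (mem_map.2 ⟨i, mem_univ i, hi⟩)]
      simp
  have h2 : em v ≤ em ![w 0, w 1, w 2] := em_mono v _ fun i => ⟨e i, by
    rw [← h0]
    generalize e i = j
    fin_cases j <;> rfl⟩
  rw [h1, Fin.sum_univ_three]
  refine (pow_le_pow_left₀ (em_nonneg v) h2 2).trans ?_
  rw [em3, div_pow, mul_pow, Real.sq_sqrt (by positivity), F0, div_mul_eq_mul_div,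
    show (2 : ℝ) ^ 2 * (2 * π) = 8 * π by ring]
  refine div_le_div_of_nonneg_right ?_ (by positivity)
  have h3 := norm_sub_sq_real (w 0) (w 1)
  have h4 := norm_sub_sq_real (w 0) (w 2)
  have h5 := norm_sub_sq_real (w 1) (w 2)
  have h6 := sq_nonneg ‖w 0 + w 1 + w 2‖
  rw [norm_add_sq_real, norm_add_sq_real, inner_add_left] at h6
  nlinarith [sq_nonneg (‖w 0 - w 1‖ - ‖w 0 - w 2‖), sq_nonneg (‖w 0 - w 1‖ - ‖w 1 - w 2‖),
    sq_nonneg (‖w 0 - w 2‖ - ‖w 1 - w 2‖)]

lemma Base_rest [Fintype ι] (z : ι → E) {m a b c : ι} (ha : a ≠ m)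
    (h : ∀ d, d ≠ m → d = a ∨ d = b ∨ d = c) :
    2 * √(2 * π) * em (rest z m) ≤ ‖z a - z b‖ + ‖z a - z c‖ + ‖z b - z c‖ := by
  classical
  have : Nonempty {j // j ≠ m} := ⟨⟨a, ha⟩⟩
  have h1 : em (rest z m) ≤ em ![z a, z b, z c] := em_mono _ _ fun d => by
    rcases h d.1 d.2 with e | e | e
    exacts [⟨0, congrArg z e⟩, ⟨1, congrArg z e⟩, ⟨2, congrArg z e⟩]
  rwa [em3, le_div_iff₀' (by positivity)] at h1

lemma Base_am (l : ℝ) {τ : ℝ} (h : 0 < τ) : l ≤ 3 * l ^ 2 / (2 * τ) + τ / 6 := by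
  have e : 3 * l ^ 2 / (2 * τ) + τ / 6 - l = (3 * l - τ) ^ 2 / (6 * τ) := by
    field_simp
    ring
  have : 0 ≤ (3 * l - τ) ^ 2 / (6 * τ) := by positivity
  linarith

theorem per4 [Fintype ι] {z : ι → E} (hs : ∑ a, z a = 0) {i j l n : ι} (hij : i ≠ j) (hil : i ≠ l) (hin : i ≠ n)
    (hjl : j ≠ l) (hjn : j ≠ n) (hln : l ≠ n) (hall : ∀ a, a = i ∨ a = j ∨ a = l ∨ a = n)
    {τ1 τ2 : ℝ} (h1 : 0 < τ1) (h2 : 0 < τ2) :
    2 * √(2 * π) * (em (rest z i) + em (rest z j) + em (rest z l)) ≤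
      (9 * (∑ a, ‖z a‖ ^ 2) - 12 * ‖z n‖ ^ 2) / (2 * τ1) + τ1 / 2 +
        (3 * (∑ a, ‖z a‖ ^ 2) + 12 * ‖z n‖ ^ 2) / τ2 + τ2 := by
  classical
  have hu : (univ : Finset ι) = {i, j, l, n} := by
    ext a
    simpa using hall a
  have hsum : ∀ {G : Type} [AddCommMonoid G] (f : ι → G), ∑ a, f a = f i + f j + f l + f n := by
    intro G _ f
    rw [hu, sum_insert (by simp [hij, hil, hin]), sum_insert (by simp [hjl, hjn]), sum_pair hln,
      add_assoc, add_assoc]
  have a1 := Base_rest z (b := l) (c := n) hij.symm fun d hd => by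
    rcases hall d with e | e
    exacts [absurd e hd, e]
  have a2 := Base_rest z (b := l) (c := n) hij fun d hd => by
    rcases hall d with e | e | e
    exacts [.inl e, absurd e hd, .inr e]
  have a3 := Base_rest z (b := j) (c := n) hil fun d hd => by
    rcases hall d with e | e | e | e
    exacts [.inl e, .inr (.inl e), absurd e hd, .inr (.inr e)]
  rw [hsum] at hs
  have s1 : ‖z i + z j + z l‖ ^ 2 = ‖z n‖ ^ 2 := by rw [eq_neg_of_add_eq_zero_left hs, norm_neg]
  have s2 : ⟪z i + z j + z l, z n⟫ = -‖z n‖ ^ 2 := by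
    rw [eq_neg_of_add_eq_zero_left hs, inner_neg_left, real_inner_self_eq_norm_sq]
  rw [norm_add_sq_real, norm_add_sq_real, inner_add_left] at s1
  rw [inner_add_left, inner_add_left] at s2
  have e1 : 9 * (∑ a, ‖z a‖ ^ 2) - 12 * ‖z n‖ ^ 2 =
      3 * ‖z i - z j‖ ^ 2 + 3 * ‖z i - z l‖ ^ 2 + 3 * ‖z j - z l‖ ^ 2 := by
    simp only [hsum, norm_sub_sq_real]
    linarith
  have e2 : (3 * (∑ a, ‖z a‖ ^ 2) + 12 * ‖z n‖ ^ 2) / τ2 = 2 * ((3 * ‖z i - z n‖ ^ 2 +
      3 * ‖z j - z n‖ ^ 2 + 3 * ‖z l - z n‖ ^ 2) / (2 * τ2)) := by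
    simp only [hsum, norm_sub_sq_real]
    field_simp
    linarith
  rw [e1, e2, add_div, add_div, add_div, add_div]
  have b1 := Base_am ‖z i - z j‖ h1
  have b2 := Base_am ‖z i - z l‖ h1
  have b3 := Base_am ‖z j - z l‖ h1
  have b4 := Base_am ‖z i - z n‖ h2
  have b5 := Base_am ‖z j - z n‖ h2
  have b6 := Base_am ‖z l - z n‖ h2
  linarith

end Vale.Agent.P226
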