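import Vale.Agent.P226.Orth

/-! Orthant bound for a small cell against three cells. PLAN: T={i,j,l}, R = complement of T ∪ {m}, zR = Σ_R z, zS = z m + zR = -(z i+z j+z l), w_ab = -⟪z a,z b⟫ ≥ 0.
a_b = z b + zS/3 (b ∈ T, sum 0), u = z m + zS/3 = (4 z m + zR)/3. ‖zR‖² ≤ FR, ζ = ‖zS‖² ≤ x_m + FR =: FS (obtuse sums), ζ = Σ_T ω'_b with ω'_b = -⟪z b,zS⟫ ≥ 0,
y_b = ‖a_b‖² = x_b - (2/3)ω'_b + ζ/9 ∈ [x_b - 5FS/9, x_b + FS/9], Σ y = Σ_T x - ζ/3; 4δ² = (Σy)² - 2Σy² for δ² = det Gram(a_i,a_j). 9‖u‖² ≤ 16 x_m + FR.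
Solve G l = (⟪u,a_i⟫,⟪u,a_j⟫) (Cramer), e = u - l1 a_i - l2 a_j. μ = (2l1-l2, 2l2-l1, -l1-l2), ν = Σμ², Σ μ_b a_b = 3(l1 a_i + l2 a_j), 9‖u‖² = 9‖e‖² + ‖Σμa‖².
‖Σμa‖² ≥ lam ν (2x2 form, det = 3(lam² - s lam + 3δ²) ≥ 0, trace ≥ 0). b_b = ⟪u,a_b⟫ = Ω/3 - ω_b, ω_b = (4w_mb + w_bR)/3 ≥ 0, Ω = Σω ≤ Q, Σb² ≤ (2/3)Q²,
‖Σμa‖² = 3 Σ μ_b b_b ≤ 3 √ν |b|  ⇒ lam² ν ≤ 6Q². Π(1+μ) = 1 - ν/2 + μμμ ≥ 1 - .575ν for ν ≤ .3 (54(μμμ)² ≤ ν³). cell z m ⊆ event of `orth` with τ = 1. -/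
namespace Vale.Agent.P226
open MeasureTheory ProbabilityTheory Real Finset Filter Topology
open scoped RealInnerProductSpace

variable {E : Type} [NormedAddCommGroup E] [InnerProductSpace ℝ E] [FiniteDimensional ℝ E]
  [MeasurableSpace E] [BorelSpace E] {ι : Type}

lemma geo3_form {p q r a b : ℝ} (hd : q ^ 2 ≤ p * r) (ht : 0 ≤ p + r + q) :
    0 ≤ p * a ^ 2 + 2 * q * a * b + r * b ^ 2 := by
  have key : ∀ p r : ℝ, q ^ 2 ≤ p * r → 0 ≤ p + r + q → 0 ≤ p := by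
    intro p r hd ht
    by_contra hp
    push Not at hp
    have hr : r ≤ 0 := by
      by_contra hr
      push Not at hr
      have := mul_neg_of_neg_of_pos hp hr
      nlinarith [sq_nonneg q]
    have h1 : -(p + r) ≤ q := by linarith
    have h2 : 0 ≤ -(p + r) := by linarith
    have h3 : (-(p + r)) ^ 2 ≤ q ^ 2 := pow_le_pow_left₀ h2 h1 2
    have h4 : 0 ≤ p * r := mul_nonneg_of_nonpos_of_nonpos hp.le hr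
    have h5 : 0 < p * p := mul_pos_of_neg_of_neg hp hp
    nlinarith [sq_nonneg r]
  have hp : 0 ≤ p := key p r hd ht
  have hr : 0 ≤ r := key r p (by linarith) (by linarith)
  rcases hp.eq_or_lt with h0 | h0
  · subst h0
    have hq : q = 0 := by
      have : q ^ 2 = 0 := le_antisymm (by linarith) (sq_nonneg q)
      exact pow_eq_zero_iff (two_ne_zero) |>.1 this
    subst hq
    have := mul_nonneg hr (sq_nonneg b)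
    linarith
  · have h1 : 0 ≤ p * (p * a ^ 2 + 2 * q * a * b + r * b ^ 2) := by
      have h2 := mul_nonneg (sub_nonneg.2 hd) (sq_nonneg b)
      have h3 := sq_nonneg (p * a + q * b)
      have : p * (p * a ^ 2 + 2 * q * a * b + r * b ^ 2) = (p * a + q * b) ^ 2 + (p * r - q ^ 2) * b ^ 2 := by ring
      rw [this]; linarith
    exact nonneg_of_mul_nonneg_right h1 h0 |> fun h => h

lemma geo3_cubic {l1 l2 : ℝ} (h : 6 * (l1 ^ 2 + l2 ^ 2 - l1 * l2) ≤ 3 / 10) :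
    0 < 1 - l1 - l2 ∧ 0 < 1 + (1 + 1) * l1 - l2 ∧ 0 < 1 - l1 + (1 + 1) * l2 ∧
    1 - 23 / 40 * (6 * (l1 ^ 2 + l2 ^ 2 - l1 * l2)) ≤
      (1 - l1 - l2) * (1 + (1 + 1) * l1 - l2) * (1 - l1 + (1 + 1) * l2) := by
  have hs : 6 * (l1 ^ 2 + l2 ^ 2 - l1 * l2) = (2 * l1 - l2) ^ 2 + (2 * l2 - l1) ^ 2 + (l1 + l2) ^ 2 := by ring
  refine ⟨?_, ?_, ?_, ?_⟩
  · nlinarith [sq_nonneg (2 * l1 - l2), sq_nonneg (2 * l2 - l1), sq_nonneg (l1 + l2 - 1)]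
  · nlinarith [sq_nonneg (2 * l1 - l2 + 1), sq_nonneg (2 * l2 - l1), sq_nonneg (l1 + l2)]
  · nlinarith [sq_nonneg (2 * l1 - l2), sq_nonneg (2 * l2 - l1 + 1), sq_nonneg (l1 + l2)]
  · set D := l1 ^ 2 + l2 ^ 2 - l1 * l2 with hD
    set e := (2 * l1 - l2) * (2 * l2 - l1) * (-l1 - l2) with he
    have hD0 : 0 ≤ D := by nlinarith [sq_nonneg (l1 - l2), sq_nonneg l1, sq_nonneg l2]
    have h1 : 4 * D ^ 3 - e ^ 2 = 27 * (l1 * l2 * (l1 - l2)) ^ 2 := by rw [hD, he]; ring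
    have h2 : e ^ 2 ≤ (9 / 20 * D) ^ 2 := by
      have h3 : D ^ 2 * D ≤ D ^ 2 * (1 / 20) := mul_le_mul_of_nonneg_left (by linarith) (sq_nonneg D)
      nlinarith [sq_nonneg (l1 * l2 * (l1 - l2)), sq_nonneg D]
    have h4 : -(9 / 20 * D) ≤ e := (abs_le_of_sq_le_sq' h2 (by positivity)).1
    have h5 : (1 - l1 - l2) * (1 + (1 + 1) * l1 - l2) * (1 - l1 + (1 + 1) * l2) = 1 - 3 * D + e := by
      rw [hD, he]; ring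
    rw [h5]; linarith

lemma geo3_real {y1 y2 g b1 b2 l1 l2 lam Q : ℝ} (hl : 0 < lam) (e1 : l1 * y1 + l2 * g = b1)
    (e2 : l1 * g + l2 * y2 = b2) (hdet : 0 ≤ lam ^ 2 - 2 * (y1 + y2 + g) * lam + 3 * (y1 * y2 - g ^ 2))
    (hs : lam ≤ y1 + y2 + g) (hb : b1 ^ 2 + b2 ^ 2 + (b1 + b2) ^ 2 ≤ 2 / 3 * Q ^ 2) :
    0 ≤ 6 * (l1 ^ 2 + l2 ^ 2 - l1 * l2) ∧ lam * (6 * (l1 ^ 2 + l2 ^ 2 - l1 * l2)) ≤ 9 * (l1 * b1 + l2 * b2) ∧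
      lam ^ 2 * (6 * (l1 ^ 2 + l2 ^ 2 - l1 * l2)) ≤ 6 * Q ^ 2 := by
  obtain ⟨ν, hνd⟩ : ∃ ν, ν = 6 * (l1 ^ 2 + l2 ^ 2 - l1 * l2) := ⟨_, rfl⟩
  rw [← hνd]
  have hν0 : 0 ≤ ν := by rw [hνd]; nlinarith [sq_nonneg (l1 - l2), sq_nonneg l1, sq_nonneg l2]
  have hf : lam * ν ≤ 9 * (l1 * b1 + l2 * b2) := by
    have h0 : (9 * y1 - 6 * lam) * (9 * y2 - 6 * lam) - (9 * g + 3 * lam) ^ 2 =
      27 * (lam ^ 2 - 2 * (y1 + y2 + g) * lam + 3 * (y1 * y2 - g ^ 2)) := by ring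
    have := geo3_form (p := 9 * y1 - 6 * lam) (q := 9 * g + 3 * lam) (r := 9 * y2 - 6 * lam) (a := l1) (b := l2)
      (by linarith) (by linarith)
    have h1 : 9 * (l1 * b1 + l2 * b2) - lam * ν = (9 * y1 - 6 * lam) * l1 ^ 2 + 2 * (9 * g + 3 * lam) * l1 * l2 +
      (9 * y2 - 6 * lam) * l2 ^ 2 := by rw [← e1, ← e2, hνd]; ring
    linarith
  have hcs : (9 * (l1 * b1 + l2 * b2)) ^ 2 ≤ 9 * (ν * (b1 ^ 2 + b2 ^ 2 + (b1 + b2) ^ 2)) := by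
    have : 9 * (ν * (b1 ^ 2 + b2 ^ 2 + (b1 + b2) ^ 2)) - (9 * (l1 * b1 + l2 * b2)) ^ 2 =
      27 * ((2 * l1 - l2) * b2 - (2 * l2 - l1) * b1) ^ 2 := by rw [hνd]; ring
    have h1 := sq_nonneg ((2 * l1 - l2) * b2 - (2 * l2 - l1) * b1)
    linarith
  refine ⟨hν0, hf, ?_⟩
  rcases hν0.eq_or_lt with h0 | h0
  · rw [← h0, mul_zero]; positivity
  · have h3 : (lam * ν) ^ 2 ≤ (9 * (l1 * b1 + l2 * b2)) ^ 2 :=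
      pow_le_pow_left₀ (by positivity) hf 2
    have h4 : ν * (b1 ^ 2 + b2 ^ 2 + (b1 + b2) ^ 2) ≤ ν * (2 / 3 * Q ^ 2) :=
      mul_le_mul_of_nonneg_left hb hν0
    have h5 : ν * (lam ^ 2 * ν) ≤ ν * (6 * Q ^ 2) := by
      have h6 : ν * (lam ^ 2 * ν) = (lam * ν) ^ 2 := by ring
      have h7 : ν * (6 * Q ^ 2) = 9 * (ν * (2 / 3 * Q ^ 2)) := by ring
      linarith
    exact le_of_mul_le_mul_left h5 h0

lemma geo3_core {a1 a2 u : E} {p δ0 lam Q U : ℝ} (hp0 : 0 ≤ p) (hp1 : p ≤ 1)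
    (hp : p ≤ (stdGaussian E).real {x | ⟪a1, x⟫ ≤ ⟪u, x⟫ ∧ ⟪a2, x⟫ ≤ ⟪u, x⟫ ∧
      -1 * ⟪u, x⟫ ≤ ⟪a1, x⟫ + ⟪a2, x⟫}) (hδ : 0 < δ0) (hl : 0 < lam)
    (hd : δ0 ^ 2 ≤ ‖a1‖ ^ 2 * ‖a2‖ ^ 2 - ⟪a1, a2⟫ ^ 2)
    (hdet : 0 ≤ lam ^ 2 - 2 * (‖a1‖ ^ 2 + ‖a2‖ ^ 2 + ⟪a1, a2⟫) * lam +
      3 * (‖a1‖ ^ 2 * ‖a2‖ ^ 2 - ⟪a1, a2⟫ ^ 2))
    (hs : lam ≤ ‖a1‖ ^ 2 + ‖a2‖ ^ 2 + ⟪a1, a2⟫)
    (hb : ⟪u, a1⟫ ^ 2 + ⟪u, a2⟫ ^ 2 + (⟪u, a1⟫ + ⟪u, a2⟫) ^ 2 ≤ 2 / 3 * Q ^ 2)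
    (hν : 6 * Q ^ 2 ≤ 3 / 10 * lam ^ 2) (hU : 9 * ‖u‖ ^ 2 ≤ U) :
    ∃ ν, 0 ≤ ν ∧ lam ^ 2 * ν ≤ 6 * Q ^ 2 ∧ p * (1 - p) * (8 * π * δ0 * (1 - 23 / 40 * ν)) ≤
      (U - lam * ν) * (1 - 2 * p) ^ 2 := by
  set y1 := ‖a1‖ ^ 2 with hy1
  set y2 := ‖a2‖ ^ 2 with hy2
  set g := ⟪a1, a2⟫ with hg
  set b1 := ⟪u, a1⟫ with hb1
  set b2 := ⟪u, a2⟫ with hb2
  have hD : 0 < y1 * y2 - g ^ 2 := lt_of_lt_of_le (by positivity) hd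
  obtain ⟨l1, l2, e1, e2⟩ : ∃ l1 l2 : ℝ, l1 * y1 + l2 * g = b1 ∧ l1 * g + l2 * y2 = b2 := by
    refine ⟨(y2 * b1 - g * b2) / (y1 * y2 - g ^ 2), (y1 * b2 - g * b1) / (y1 * y2 - g ^ 2), ?_, ?_⟩
    · rw [div_mul_eq_mul_div, div_mul_eq_mul_div, ← add_div, div_eq_iff hD.ne']; ring
    · rw [div_mul_eq_mul_div, div_mul_eq_mul_div, ← add_div, div_eq_iff hD.ne']; ring
  obtain ⟨e, he⟩ : ∃ e : E, u = e + l1 • a1 + l2 • a2 := ⟨u - l1 • a1 - l2 • a2, by abel⟩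
  have g21 : ⟪a2, a1⟫ = g := by rw [hg, real_inner_comm]
  have h1 : ⟪e, a1⟫ = 0 := by
    have : b1 = ⟪e, a1⟫ + l1 * y1 + l2 * g := by
      rw [hb1, he, inner_add_left, inner_add_left, real_inner_smul_left, real_inner_smul_left,
        real_inner_self_eq_norm_sq, g21]
    linarith
  have h2 : ⟪e, a2⟫ = 0 := by
    have : b2 = ⟪e, a2⟫ + l1 * g + l2 * y2 := by
      rw [hb2, he, inner_add_left, inner_add_left, real_inner_smul_left, real_inner_smul_left,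
        real_inner_self_eq_norm_sq]
    linarith
  have hue : ‖u‖ ^ 2 = ‖e‖ ^ 2 + (l1 * b1 + l2 * b2) := by
    have h3 : ⟪u, u⟫ = ⟪u, e⟫ + l1 * b1 + l2 * b2 := by
      conv_lhs => rw [show ⟪u, u⟫ = ⟪u, e + l1 • a1 + l2 • a2⟫ from by rw [← he]]
      rw [inner_add_right, inner_add_right, real_inner_smul_right, real_inner_smul_right]
    have h4 : ⟪u, e⟫ = ‖e‖ ^ 2 := by
      have h5 : ⟪a1, e⟫ = 0 := by rw [real_inner_comm]; exact h1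
      have h6 : ⟪a2, e⟫ = 0 := by rw [real_inner_comm]; exact h2
      conv_lhs => rw [he]
      rw [inner_add_left, inner_add_left, real_inner_smul_left, real_inner_smul_left, h5, h6,
        real_inner_self_eq_norm_sq]
      ring
    rw [← real_inner_self_eq_norm_sq, h3, h4]; ring
  set ν := 6 * (l1 ^ 2 + l2 ^ 2 - l1 * l2) with hνd
  obtain ⟨hν0, hf, hA⟩ := geo3_real (Q := Q) hl e1 e2 hdet hs hb
  rw [← hνd] at hν0 hf hA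
  have hν3 : ν ≤ 3 / 10 := by
    have h3 : lam ^ 2 * ν ≤ lam ^ 2 * (3 / 10) := by linarith
    exact le_of_mul_le_mul_left h3 (by positivity)
  obtain ⟨c0, c1, c2, c3⟩ := geo3_cubic (l1 := l1) (l2 := l2) hν3
  have hδ' : δ0 ≤ √(y1 * y2 - g ^ 2) := Real.le_sqrt_of_sq_le hd
  have ho := orth (τ := 1) (δ := √(y1 * y2 - g ^ 2)) (p := p) he h1 h2 one_pos (lt_of_lt_of_le hδ hδ')
    (by rw [Real.sq_sqrt hD.le]) c0 c1 c2 hp0 hp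
  refine ⟨ν, hν0, hA, ?_⟩
  have hq : 0 ≤ p * (1 - p) := mul_nonneg hp0 (by linarith)
  have hm : 8 * π * δ0 * (1 - 23 / 40 * ν) ≤ 8 * π * √(y1 * y2 - g ^ 2) *
      ((1 - l1 - l2) * (1 + (1 + 1) * l1 - l2) * (1 - l1 + (1 + 1) * l2)) := by
    apply mul_le_mul _ c3 (by linarith) (by positivity)
    exact mul_le_mul_of_nonneg_left hδ' (by positivity)
  refine le_trans (mul_le_mul_of_nonneg_left hm hq) (le_trans ho ?_)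
  apply mul_le_mul_of_nonneg_right _ (sq_nonneg _)
  linarith

lemma geo3_normsq_le {z : ι → E} [DecidableEq ι] (R : Finset ι) (ho : ∀ i j, i ≠ j → ⟪z i, z j⟫ < 0) :
    ‖∑ a ∈ R, z a‖ ^ 2 ≤ ∑ a ∈ R, ‖z a‖ ^ 2 := by
  rw [← real_inner_self_eq_norm_sq, sum_inner]
  apply Finset.sum_le_sum
  intro a ha
  rw [inner_sum, ← Finset.add_sum_erase _ _ ha, real_inner_self_eq_norm_sq]
  have : ∑ b ∈ R.erase a, ⟪z a, z b⟫ ≤ 0 :=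
    Finset.sum_nonpos fun b hb => (ho a b (Finset.ne_of_mem_erase hb).symm).le
  linarith

lemma geo3_inner_le {z : ι → E} (R : Finset ι) (ho : ∀ i j, i ≠ j → ⟪z i, z j⟫ < 0) {a : ι} (ha : a ∉ R) :
    ⟪z a, ∑ b ∈ R, z b⟫ ≤ 0 := by
  rw [inner_sum]
  exact Finset.sum_nonpos fun b hb => (ho a b (fun h => ha (h ▸ hb))).le

lemma geo3_b {w1 w2 w3 b1 b2 Q : ℝ} (h1 : 0 ≤ w1) (h2 : 0 ≤ w2) (h3 : 0 ≤ w3) (hQ : w1 + w2 + w3 ≤ Q)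
    (e1 : b1 = (w1 + w2 + w3) / 3 - w1) (e2 : b2 = (w1 + w2 + w3) / 3 - w2) :
    b1 ^ 2 + b2 ^ 2 + (b1 + b2) ^ 2 ≤ 2 / 3 * Q ^ 2 := by
  have h4 : (w1 + w2 + w3) ^ 2 ≤ Q ^ 2 := pow_le_pow_left₀ (by positivity) hQ 2
  have h5 : b1 ^ 2 + b2 ^ 2 + (b1 + b2) ^ 2 = 2 / 3 * (w1 + w2 + w3) ^ 2 - 2 * (w1 * w2 + w1 * w3 + w2 * w3) := by
    rw [e1, e2]; ring
  have h6 : 0 ≤ w1 * w2 + w1 * w3 + w2 * w3 := by positivity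
  linarith

theorem geo3 [Fintype ι] [DecidableEq ι] {z : ι → E} (h : Crit z) {i j l m : ι} (hij : i ≠ j) (hil : i ≠ l)
    (hjl : j ≠ l) (hmi : m ≠ i) (hmj : m ≠ j) (hml : m ≠ l) {FR lo hi s0 δ0 lam Q : ℝ}
    (hFR : ∑ a, ‖z a‖ ^ 2 = ‖z i‖ ^ 2 + ‖z j‖ ^ 2 + ‖z l‖ ^ 2 + ‖z m‖ ^ 2 + FR)
    (hlo : ∀ a, a = i ∨ a = j ∨ a = l → lo ≤ ‖z a‖ ^ 2 - 5 / 9 * (‖z m‖ ^ 2 + FR) ∧
      ‖z a‖ ^ 2 + (‖z m‖ ^ 2 + FR) / 9 ≤ hi)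
    (hs : s0 ≤ ‖z i‖ ^ 2 + ‖z j‖ ^ 2 + ‖z l‖ ^ 2 - (‖z m‖ ^ 2 + FR) / 3)
    (hδ : 0 < δ0) (hl : 0 < lam) (hl2 : 2 * lam ≤ s0) (hQ : 4 * ‖z m‖ ^ 2 + FR ≤ 3 * Q)
    (hν : 6 * Q ^ 2 ≤ 3 / 10 * lam ^ 2)
    (hnum : ∀ y1 y2 y3 : ℝ, lo ≤ y1 → y1 ≤ hi → lo ≤ y2 → y2 ≤ hi → lo ≤ y3 → y3 ≤ hi → s0 ≤ y1 + y2 + y3 →
      4 * δ0 ^ 2 ≤ (y1 + y2 + y3) ^ 2 - 2 * (y1 ^ 2 + y2 ^ 2 + y3 ^ 2) ∧
      0 ≤ lam ^ 2 - (y1 + y2 + y3) * lam + 3 / 4 * ((y1 + y2 + y3) ^ 2 - 2 * (y1 ^ 2 + y2 ^ 2 + y3 ^ 2))) :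
    ∃ ν, 0 ≤ ν ∧ lam ^ 2 * ν ≤ 6 * Q ^ 2 ∧ pc z m * (1 - pc z m) * (8 * π * δ0 * (1 - 23 / 40 * ν)) ≤
      (16 * ‖z m‖ ^ 2 + FR - lam * ν) * (1 - 2 * pc z m) ^ 2 := by
  obtain ⟨R, hR⟩ : ∃ R : Finset ι, R = (((Finset.univ.erase i).erase j).erase l).erase m := ⟨_, rfl⟩
  have hsum : ∀ {M : Type} [AddCommMonoid M] (f : ι → M), ∑ a, f a = f i + f j + f l + f m + ∑ a ∈ R, f a := by
    intro M _ f
    have m1 : j ∈ Finset.univ.erase i := by simp [hij.symm]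
    have m2 : l ∈ (Finset.univ.erase i).erase j := by simp [hil.symm, hjl.symm]
    have m3 : m ∈ ((Finset.univ.erase i).erase j).erase l := by simp [hmi, hmj, hml]
    rw [← Finset.add_sum_erase _ f (Finset.mem_univ i), ← Finset.add_sum_erase _ f m1,
      ← Finset.add_sum_erase _ f m2, ← Finset.add_sum_erase _ f m3, hR]
    simp only [add_assoc]
  have hFR' : FR = ∑ a ∈ R, ‖z a‖ ^ 2 := by
    have := hsum (fun a => ‖z a‖ ^ 2)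
    linarith
  have hr : ‖∑ a ∈ R, z a‖ ^ 2 ≤ FR := by rw [hFR']; exact geo3_normsq_le R h.obt
  have ri : ⟪z i, ∑ a ∈ R, z a⟫ ≤ 0 := geo3_inner_le R h.obt (by simp [hR])
  have rj : ⟪z j, ∑ a ∈ R, z a⟫ ≤ 0 := geo3_inner_le R h.obt (by simp [hR])
  have rl : ⟪z l, ∑ a ∈ R, z a⟫ ≤ 0 := geo3_inner_le R h.obt (by simp [hR])
  have rm : ⟪z m, ∑ a ∈ R, z a⟫ ≤ 0 := geo3_inner_le R h.obt (by simp [hR])
  have h0 : z i + z j + z l + z m + ∑ a ∈ R, z a = 0 := by rw [← hsum z, h.sum0]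
  generalize ∑ a ∈ R, z a = r at hr ri rj rl rm h0
  have mi := (h.obt i m hmi.symm).le
  have mj := (h.obt j m hmj.symm).le
  have ml := (h.obt l m hml.symm).le
  obtain ⟨S, hS⟩ : ∃ S : E, S = z m + r := ⟨_, rfl⟩
  have hS' : z i + z j + z l = -S := by
    rw [hS]; apply eq_neg_of_add_eq_zero_left; rw [← h0]; abel
  have wi : ⟪z i, S⟫ = ⟪z i, z m⟫ + ⟪z i, r⟫ := by rw [hS, inner_add_right]
  have wj : ⟪z j, S⟫ = ⟪z j, z m⟫ + ⟪z j, r⟫ := by rw [hS, inner_add_right]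
  have wl : ⟪z l, S⟫ = ⟪z l, z m⟫ + ⟪z l, r⟫ := by rw [hS, inner_add_right]
  have wm : ⟪z m, S⟫ = ‖z m‖ ^ 2 + ⟪z m, r⟫ := by rw [hS, inner_add_right, real_inner_self_eq_norm_sq]
  have hζ : ‖S‖ ^ 2 = ‖z m‖ ^ 2 + 2 * ⟪z m, r⟫ + ‖r‖ ^ 2 := by rw [hS, norm_add_sq_real]
  have hsumv : ∀ v : E, ⟪z i, v⟫ + ⟪z j, v⟫ + ⟪z l, v⟫ = -⟪S, v⟫ := by
    intro v; rw [← inner_add_left, ← inner_add_left, hS', inner_neg_left]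
  have hζ' := hsumv S
  rw [real_inner_self_eq_norm_sq] at hζ'
  have hn : ∀ v : E, ‖v + (1 / 3 : ℝ) • S‖ ^ 2 = ‖v‖ ^ 2 + 2 / 3 * ⟪v, S⟫ + ‖S‖ ^ 2 / 9 := by
    intro v
    rw [norm_add_sq_real, real_inner_smul_right, norm_smul, mul_pow, Real.norm_eq_abs, sq_abs]; ring
  have hi : ∀ v x : E, ⟪v + (1 / 3 : ℝ) • S, x⟫ = ⟪v, x⟫ + ⟪S, x⟫ / 3 := by
    intro v x; rw [inner_add_left, real_inner_smul_left]; ring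
  have h3 : z l + (1 / 3 : ℝ) • S = -((z i + (1 / 3 : ℝ) • S) + (z j + (1 / 3 : ℝ) • S)) := by
    have : z l = -S - z i - z j := by rw [← hS']; abel
    rw [this]; module
  have h4 : ‖z l + (1 / 3 : ℝ) • S‖ ^ 2 = ‖z i + (1 / 3 : ℝ) • S‖ ^ 2 +
      2 * ⟪z i + (1 / 3 : ℝ) • S, z j + (1 / 3 : ℝ) • S⟫ + ‖z j + (1 / 3 : ℝ) • S‖ ^ 2 := by
    rw [h3, norm_neg, norm_add_sq_real]
  have ni := hn (z i)
  have nj := hn (z j)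
  have nl := hn (z l)
  have nm := hn (z m)
  obtain ⟨li, ui⟩ := hlo i (Or.inl rfl)
  obtain ⟨lj, uj⟩ := hlo j (Or.inr (Or.inl rfl))
  obtain ⟨ll, ul⟩ := hlo l (Or.inr (Or.inr rfl))
  obtain ⟨n1, n2⟩ := hnum (‖z i + (1 / 3 : ℝ) • S‖ ^ 2) (‖z j + (1 / 3 : ℝ) • S‖ ^ 2)
    (‖z l + (1 / 3 : ℝ) • S‖ ^ 2) (by linarith) (by linarith) (by linarith) (by linarith) (by linarith)
    (by linarith) (by linarith)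
  have hs' : s0 ≤ ‖z i + (1 / 3 : ℝ) • S‖ ^ 2 + ‖z j + (1 / 3 : ℝ) • S‖ ^ 2 + ‖z l + (1 / 3 : ℝ) • S‖ ^ 2 := by
    linarith
  have hb : ∀ v : E, ⟪z m + (1 / 3 : ℝ) • S, v + (1 / 3 : ℝ) • S⟫ =
      (⟪v, z m⟫ + ⟪v, S⟫ / 3) + (⟪z m, S⟫ + ‖S‖ ^ 2 / 3) / 3 := by
    intro v
    rw [real_inner_comm, hi, inner_add_right, inner_add_right, real_inner_smul_right, real_inner_smul_right,
      real_inner_self_eq_norm_sq, real_inner_comm (z m) S]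
    ring
  have hm' := hsumv (z m)
  rw [real_inner_comm (z m) S] at hm'
  apply geo3_core (a1 := z i + (1 / 3 : ℝ) • S) (a2 := z j + (1 / 3 : ℝ) • S) (u := z m + (1 / 3 : ℝ) • S)
    measureReal_nonneg measureReal_le_one ?_ hδ hl ?_ ?_ ?_ ?_ hν ?_
  · refine measureReal_mono ?_ (measure_ne_top _ _)
    intro x hx
    have xi := hx i
    have xj := hx j
    have xl := hx l
    have xs := hsumv x
    simp only [Set.mem_setOf_eq, hi]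
    refine ⟨by linarith, by linarith, by linarith⟩
  · rw [h4] at n1
    generalize ‖z i + (1 / 3 : ℝ) • S‖ ^ 2 = y1 at n1 ⊢
    generalize ‖z j + (1 / 3 : ℝ) • S‖ ^ 2 = y2 at n1 ⊢
    generalize ⟪z i + (1 / 3 : ℝ) • S, z j + (1 / 3 : ℝ) • S⟫ = g at n1 ⊢
    have : (y1 + y2 + (y1 + 2 * g + y2)) ^ 2 - 2 * (y1 ^ 2 + y2 ^ 2 + (y1 + 2 * g + y2) ^ 2) =
      4 * (y1 * y2 - g ^ 2) := by ring
    linarith
  · rw [h4] at n2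
    generalize ‖z i + (1 / 3 : ℝ) • S‖ ^ 2 = y1 at n2 ⊢
    generalize ‖z j + (1 / 3 : ℝ) • S‖ ^ 2 = y2 at n2 ⊢
    generalize ⟪z i + (1 / 3 : ℝ) • S, z j + (1 / 3 : ℝ) • S⟫ = g at n2 ⊢
    have : lam ^ 2 - (y1 + y2 + (y1 + 2 * g + y2)) * lam + 3 / 4 * ((y1 + y2 + (y1 + 2 * g + y2)) ^ 2 -
      2 * (y1 ^ 2 + y2 ^ 2 + (y1 + 2 * g + y2) ^ 2)) = lam ^ 2 - 2 * (y1 + y2 + g) * lam +
      3 * (y1 * y2 - g ^ 2) := by ring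
    linarith
  · linarith
  · rw [hb, hb]
    apply geo3_b (w1 := -(⟪z i, z m⟫ + ⟪z i, S⟫ / 3)) (w2 := -(⟪z j, z m⟫ + ⟪z j, S⟫ / 3))
      (w3 := -(⟪z l, z m⟫ + ⟪z l, S⟫ / 3)) <;> linarith
  · linarith

end Vale.Agent.P226
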