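import Vale.Agent.P226.Orth

/-! Orthant bound for a tiny cell against four cells. PLAN: T={i,j,l,n}, R = complement of T ∪ {m}, zR = Σ_R z, zS = z m + zR = -Σ_T z, FS = x_m + FR, ζ = ‖zS‖² ≤ FS,
ω'_b = -⟪z b,zS⟫ ≥ 0 (b∈T), Σ_T ω' = ζ. a_b = z b + zS/4, u = z m + zS/4 = (5 z m + zR)/4, 16‖u‖² ≤ 25x_m + FR. G_bb = x_b - ω'_b/2 + ζ/16 ∈ [x_b - FS/2, x_b + FS/16],
G_ij = ⟪z i,z j⟫ - (ω'_i+ω'_j)/4 + ζ/16, |G_ij| ≤ x_i/2 + FS/4. So δ² = det G ≥ δ0². b_b = ⟪u,a_b⟫ = Ω/4 - ω_b, ω_b = -⟪z b, 5 z m + zR⟫/4 ≥ 0, Ω = Σ_T ω ≤ Q,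
b_i²+b_j² ≤ (5/8)Q². l = adj(G) b/δ², |adj(G) b|² ≤ tr(G)²|b|² (G psd) so l1²+l2² ≤ ε². e = u - l1 a_i - l2 a_j, ‖e‖ ≤ ‖u‖. With τ=2:
(1-l1-l2)(1+3l1-l2)(1-l1+3l2) = 1 + (l1+l2) + (6 l1 l2 - 5(l1²+l2²)) + μ0μ1μ2 ≥ 1 - 1.42ε - 8ε² - 12ε³, each factor > 0. On cell z m: ⟪a_b,x⟫ ≤ ⟪u,x⟫ for b∈T and
a_i + a_j = -(a_l + a_n). -/
namespace Vale.Agent.P226
open MeasureTheory ProbabilityTheory Real Finset Filter Topology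
open scoped RealInnerProductSpace

variable {E : Type} [NormedAddCommGroup E] [InnerProductSpace ℝ E] [FiniteDimensional ℝ E]
  [MeasurableSpace E] [BorelSpace E] {ι : Type}

omit [FiniteDimensional ℝ E] [MeasurableSpace E] [BorelSpace E] in
lemma Geo4_sum [DecidableEq ι] (z : ι → E) (R : Finset ι) (h : ∀ a b, a ≠ b → ⟪z a, z b⟫ < 0) :
    ‖∑ a ∈ R, z a‖ ^ 2 ≤ ∑ a ∈ R, ‖z a‖ ^ 2 := by
  induction R using Finset.induction_on with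
  | empty => simp
  | insert a s ha ih =>
    rw [sum_insert ha, sum_insert ha, norm_add_sq_real, inner_sum]
    have : ∑ b ∈ s, ⟪z a, z b⟫ ≤ 0 := sum_nonpos fun b hb => (h a b (fun e => ha (e ▸ hb))).le
    linarith

lemma Geo4_poly {l1 l2 ε : ℝ} (h0 : 0 ≤ ε) (h1 : ε ≤ 1 / 10) (h : l1 ^ 2 + l2 ^ 2 ≤ ε ^ 2) :
    0 < 1 - l1 - l2 ∧ 0 < 1 + (2 + 1) * l1 - l2 ∧ 0 < 1 - l1 + (2 + 1) * l2 ∧
    1 - 71 / 50 * ε - 8 * ε ^ 2 - 12 * ε ^ 3 ≤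
      (1 - l1 - l2) * (1 + (2 + 1) * l1 - l2) * (1 - l1 + (2 + 1) * l2) := by
  have a1 : |l1| ≤ ε := abs_le_of_sq_le_sq' (by nlinarith [sq_nonneg l2]) h0 |> abs_le.2
  have a2 : |l2| ≤ ε := abs_le_of_sq_le_sq' (by nlinarith [sq_nonneg l1]) h0 |> abs_le.2
  have a3 : |l1 + l2| ≤ 71 / 50 * ε :=
    abs_le_of_sq_le_sq' (by nlinarith [sq_nonneg (l1 - l2), sq_nonneg ε]) (by positivity) |> abs_le.2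
  have a4 : |10 * l1 * l2 - 3 * (l1 ^ 2 + l2 ^ 2)| ≤ 8 * ε ^ 2 :=
    abs_le.2 ⟨by nlinarith [sq_nonneg (l1 + l2)], by nlinarith [sq_nonneg (l1 - l2), sq_nonneg ε]⟩
  have a5 : |(l1 + l2) * (10 * l1 * l2 - 3 * (l1 ^ 2 + l2 ^ 2))| ≤ 71 / 50 * ε * (8 * ε ^ 2) := by
    rw [abs_mul]; exact mul_le_mul a3 a4 (abs_nonneg _) (by positivity)
  obtain ⟨b1, b2⟩ := abs_le.1 a1
  obtain ⟨b3, b4⟩ := abs_le.1 a2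
  obtain ⟨b5, b6⟩ := abs_le.1 a3
  obtain ⟨b7, b8⟩ := abs_le.1 a5
  refine ⟨by linarith, by linarith, by linarith, ?_⟩
  have e : (1 - l1 - l2) * (1 + (2 + 1) * l1 - l2) * (1 - l1 + (2 + 1) * l2) =
      1 + (l1 + l2) + (6 * l1 * l2 - 5 * (l1 ^ 2 + l2 ^ 2)) -
        (l1 + l2) * (10 * l1 * l2 - 3 * (l1 ^ 2 + l2 ^ 2)) := by ring
  rw [e]
  have : 0 ≤ ε ^ 3 := by positivity
  nlinarith [sq_nonneg (l1 + l2)]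

lemma Geo4_l {g1 g2 g b1 b2 δ δ0 Tr Q ε : ℝ} (hδ0 : 0 < δ0) (hδ : δ0 ≤ δ) (hd : δ ^ 2 = g1 * g2 - g ^ 2)
    (h1 : 0 ≤ g1) (h2 : 0 ≤ g2) (hT : g1 + g2 ≤ Tr) (hb : b1 ^ 2 + b2 ^ 2 ≤ 5 / 8 * Q ^ 2)
    (hε : 5 / 8 * Q ^ 2 * Tr ^ 2 ≤ ε ^ 2 * δ0 ^ 4) :
    ((g2 * b1 - g * b2) / δ ^ 2) ^ 2 + ((g1 * b2 - g * b1) / δ ^ 2) ^ 2 ≤ ε ^ 2 := by
  have hp : 0 < δ := by linarith
  rw [div_pow, div_pow, ← add_div, div_le_iff₀ (by positivity)]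
  have c1 : (g2 * b1 - g * b2) ^ 2 ≤ (g2 ^ 2 + g ^ 2) * (b1 ^ 2 + b2 ^ 2) := by
    nlinarith [sq_nonneg (g2 * b2 + g * b1)]
  have c2 : (g1 * b2 - g * b1) ^ 2 ≤ (g1 ^ 2 + g ^ 2) * (b1 ^ 2 + b2 ^ 2) := by
    nlinarith [sq_nonneg (g1 * b1 + g * b2)]
  have c3 : g2 ^ 2 + g ^ 2 + (g1 ^ 2 + g ^ 2) ≤ Tr ^ 2 := by
    have : (g1 + g2) ^ 2 ≤ Tr ^ 2 := pow_le_pow_left₀ (by positivity) hT 2
    nlinarith [sq_nonneg δ]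
  have c4 : (g2 ^ 2 + g ^ 2 + (g1 ^ 2 + g ^ 2)) * (b1 ^ 2 + b2 ^ 2) ≤ Tr ^ 2 * (5 / 8 * Q ^ 2) :=
    mul_le_mul c3 hb (by positivity) (by positivity)
  have c5 : ε ^ 2 * δ0 ^ 4 ≤ ε ^ 2 * δ ^ 4 :=
    mul_le_mul_of_nonneg_left (pow_le_pow_left₀ hδ0.le hδ 4) (by positivity)
  nlinarith

lemma Geo4_A {a1 a2 u : E} {δ0 Tr Q ε p X : ℝ} (hδ : 0 < δ0)
    (d4 : δ0 ^ 2 ≤ ‖a1‖ ^ 2 * ‖a2‖ ^ 2 - ⟪a1, a2⟫ ^ 2) (hT : ‖a1‖ ^ 2 + ‖a2‖ ^ 2 ≤ Tr)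
    (bb : ⟪a1, u⟫ ^ 2 + ⟪a2, u⟫ ^ 2 ≤ 5 / 8 * Q ^ 2) (hε0 : 0 ≤ ε) (hε1 : ε ≤ 1 / 10)
    (hε : 5 / 8 * Q ^ 2 * Tr ^ 2 ≤ ε ^ 2 * δ0 ^ 4) (hX : 16 * ‖u‖ ^ 2 ≤ X) (p0 : 0 ≤ p) (p1 : p ≤ 1)
    (hp : p ≤ (stdGaussian E).real {x | ⟪a1, x⟫ ≤ ⟪u, x⟫ ∧ ⟪a2, x⟫ ≤ ⟪u, x⟫ ∧
      -2 * ⟪u, x⟫ ≤ ⟪a1, x⟫ + ⟪a2, x⟫}) :
    p * (1 - p) * (8 * π * δ0 * (1 - 71 / 50 * ε - 8 * ε ^ 2 - 12 * ε ^ 3)) ≤ X * (1 - 2 * p) ^ 2 := by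
  set δ := √(‖a1‖ ^ 2 * ‖a2‖ ^ 2 - ⟪a1, a2⟫ ^ 2) with hδ'
  have e1 : δ ^ 2 = ‖a1‖ ^ 2 * ‖a2‖ ^ 2 - ⟪a1, a2⟫ ^ 2 := Real.sq_sqrt (le_trans (by positivity) d4)
  have e2 : δ0 ≤ δ := Real.le_sqrt_of_sq_le d4
  have e3 : 0 < δ := by linarith
  have hl := Geo4_l hδ e2 e1 (by positivity) (by positivity) hT bb hε
  set l1 := (‖a2‖ ^ 2 * ⟪a1, u⟫ - ⟪a1, a2⟫ * ⟪a2, u⟫) / δ ^ 2 with hl1
  set l2 := (‖a1‖ ^ 2 * ⟪a2, u⟫ - ⟪a1, a2⟫ * ⟪a1, u⟫) / δ ^ 2 with hl2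
  obtain ⟨f0, f1, f2, f3⟩ := Geo4_poly hε0 hε1 hl
  set e := u - l1 • a1 - l2 • a2 with he
  have e4 : δ ^ 2 ≠ 0 := by positivity
  have o1 : ⟪e, a1⟫ = 0 := by
    rw [he, inner_sub_left, inner_sub_left, real_inner_smul_left, real_inner_smul_left,
      real_inner_self_eq_norm_sq, real_inner_comm a1 u, real_inner_comm a1 a2, hl1, hl2]
    field_simp
    rw [e1]; ring
  have o2 : ⟪e, a2⟫ = 0 := by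
    rw [he, inner_sub_left, inner_sub_left, real_inner_smul_left, real_inner_smul_left,
      real_inner_self_eq_norm_sq, real_inner_comm a2 u, hl1, hl2]
    field_simp
    rw [e1]; ring
  have hue : u = e + l1 • a1 + l2 • a2 := by rw [he]; abel
  have ne : ‖e‖ ^ 2 ≤ ‖u‖ ^ 2 := by
    have q : u = e + (l1 • a1 + l2 • a2) := by rw [he]; abel
    rw [q, norm_add_sq_real, inner_add_right, real_inner_smul_right, real_inner_smul_right, o1, o2]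
    nlinarith [sq_nonneg ‖l1 • a1 + l2 • a2‖]
  have key := orth (τ := 2) hue o1 o2 (by norm_num) e3 e1 f0 f1 f2 p0 hp
  set K := (1 - l1 - l2) * (1 + (2 + 1) * l1 - l2) * (1 - l1 + (2 + 1) * l2) with hK
  have K0 : 0 < K := by positivity
  have m1 : δ0 * (1 - 71 / 50 * ε - 8 * ε ^ 2 - 12 * ε ^ 3) ≤ δ * K :=
    (mul_le_mul_of_nonneg_left f3 hδ.le).trans (mul_le_mul_of_nonneg_right e2 K0.le)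
  have m2 : 8 * π * δ0 * (1 - 71 / 50 * ε - 8 * ε ^ 2 - 12 * ε ^ 3) ≤ 8 * π * δ * K := by
    have := mul_le_mul_of_nonneg_left m1 (show 0 ≤ 8 * π by positivity)
    linarith
  have m3 := mul_le_mul_of_nonneg_left m2 (mul_nonneg p0 (sub_nonneg.2 p1))
  have m4 : (2 + 2) ^ 2 * ‖e‖ ^ 2 ≤ X := by linarith
  have m5 := mul_le_mul_of_nonneg_right m4 (sq_nonneg (1 - 2 * p))
  linarith

lemma Geo4_bb {o1 o2 O Q : ℝ} (p3 : 0 ≤ o1) (p4 : 0 ≤ o2) (p5 : o1 + o2 ≤ O) (p6 : O ≤ Q) :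
    (O / 4 - o1) ^ 2 + (O / 4 - o2) ^ 2 ≤ 5 / 8 * Q ^ 2 := by
  have p7 : O ^ 2 ≤ Q ^ 2 := pow_le_pow_left₀ (by linarith) p6 2
  nlinarith [mul_nonneg p3 p4, mul_nonneg (add_nonneg p3 p4) (sub_nonneg.2 p5),
    mul_nonneg (le_trans (add_nonneg p3 p4) p5) (sub_nonneg.2 p5)]

theorem geo4 [Fintype ι] [DecidableEq ι] {z : ι → E} (h : Crit z) {i j l n m : ι} (hij : i ≠ j) (hil : i ≠ l)
    (hin : i ≠ n) (hjl : j ≠ l) (hjn : j ≠ n) (hln : l ≠ n) (hmi : m ≠ i) (hmj : m ≠ j) (hml : m ≠ l)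
    (hmn : m ≠ n) {FR δ0 Tr Q ε : ℝ}
    (hFR : ∑ a, ‖z a‖ ^ 2 = ‖z i‖ ^ 2 + ‖z j‖ ^ 2 + ‖z l‖ ^ 2 + ‖z n‖ ^ 2 + ‖z m‖ ^ 2 + FR)
    (hw : -⟪z i, z j⟫ ≤ ‖z i‖ ^ 2 / 2) (hδ : 0 < δ0)
    (hi : (‖z m‖ ^ 2 + FR) / 2 ≤ ‖z i‖ ^ 2) (hj : (‖z m‖ ^ 2 + FR) / 2 ≤ ‖z j‖ ^ 2)
    (hd : δ0 ^ 2 ≤ (‖z i‖ ^ 2 - (‖z m‖ ^ 2 + FR) / 2) * (‖z j‖ ^ 2 - (‖z m‖ ^ 2 + FR) / 2) -
      (‖z i‖ ^ 2 / 2 + (‖z m‖ ^ 2 + FR) / 4) ^ 2)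
    (hT : ‖z i‖ ^ 2 + ‖z j‖ ^ 2 + (‖z m‖ ^ 2 + FR) / 8 ≤ Tr) (hQ : 5 * ‖z m‖ ^ 2 + FR ≤ 4 * Q)
    (hε0 : 0 ≤ ε) (hε1 : ε ≤ 1 / 10) (hε : 5 / 8 * Q ^ 2 * Tr ^ 2 ≤ ε ^ 2 * δ0 ^ 4) :
    pc z m * (1 - pc z m) * (8 * π * δ0 * (1 - 71 / 50 * ε - 8 * ε ^ 2 - 12 * ε ^ 3)) ≤
      (25 * ‖z m‖ ^ 2 + FR) * (1 - 2 * pc z m) ^ 2 := by
  classical
  set R : Finset ι := univ \ {i, j, l, n, m} with hR
  have hsplit : ∀ {G : Type} [AddCommMonoid G] (f : ι → G),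
      ∑ a, f a = f i + f j + f l + f n + f m + ∑ a ∈ R, f a := by
    intro G _ f
    rw [hR, ← sum_sdiff (subset_univ ({i, j, l, n, m} : Finset ι)), add_comm,
      sum_insert (by simp [hij, hil, hin, hmi.symm]), sum_insert (by simp [hjl, hjn, hmj.symm]),
      sum_insert (by simp [hln, hml.symm]), sum_insert (by simp [hmn.symm]), sum_singleton]
    simp only [add_assoc]
  have hF : FR = ∑ a ∈ R, ‖z a‖ ^ 2 := by have := hsplit (fun a => ‖z a‖ ^ 2); linarith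
  set w : E := ∑ a ∈ R, z a with hw'
  have k0 : ‖w‖ ^ 2 ≤ FR := hF ▸ Geo4_sum z R h.obt
  have kR : ∀ b, b ∉ R → ⟪z b, w⟫ ≤ 0 := fun b hb => by
    rw [hw', inner_sum]
    exact sum_nonpos fun c hc => (h.obt b c (fun e => hb (e ▸ hc))).le
  have ri := kR i (by simp [hR])
  have rj := kR j (by simp [hR])
  have rl := kR l (by simp [hR])
  have rn := kR n (by simp [hR])
  have rm := kR m (by simp [hR])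
  have s0 : z i + z j + z l + z n + z m + w = 0 := by rw [← hsplit z]; exact h.sum0
  have oim := (h.obt i m hmi.symm).le
  have ojm := (h.obt j m hmj.symm).le
  have olm := (h.obt l m hml.symm).le
  have onm := (h.obt n m hmn.symm).le
  have oij := (h.obt i j hij).le
  have sm : ⟪z i, z m⟫ + ⟪z j, z m⟫ + ⟪z l, z m⟫ + ⟪z n, z m⟫ + ‖z m‖ ^ 2 + ⟪z m, w⟫ = 0 := by
    have := congrArg (fun y => ⟪y, z m⟫) s0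
    simpa only [inner_add_left, inner_zero_left, real_inner_self_eq_norm_sq, real_inner_comm (z m) w] using this
  have sw : ⟪z i, w⟫ + ⟪z j, w⟫ + ⟪z l, w⟫ + ⟪z n, w⟫ + ⟪z m, w⟫ + ‖w‖ ^ 2 = 0 := by
    have := congrArg (fun y => ⟪y, w⟫) s0
    simpa only [inner_add_left, inner_zero_left, real_inner_self_eq_norm_sq] using this
  set t : E := (1 / 4 : ℝ) • (z m + w) with ht
  have it : ∀ y : E, ⟪y, t⟫ = (⟪y, z m⟫ + ⟪y, w⟫) / 4 := fun y => by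
    rw [ht, real_inner_smul_right, inner_add_right]; ring
  have tt : ‖t‖ ^ 2 = (‖z m‖ ^ 2 + 2 * ⟪z m, w⟫ + ‖w‖ ^ 2) / 16 := by
    rw [ht, norm_smul, mul_pow, norm_add_sq_real]; norm_num; ring
  have ip : ∀ y y' : E, ⟪y + t, y' + t⟫ = ⟪y, y'⟫ + ⟪y, t⟫ + ⟪y', t⟫ + ‖t‖ ^ 2 := fun y y' => by
    rw [inner_add_left, inner_add_right, inner_add_right, real_inner_self_eq_norm_sq, real_inner_comm y' t]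
    ring
  have np : ∀ y : E, ‖y + t‖ ^ 2 = ‖y‖ ^ 2 + 2 * ⟪y, t⟫ + ‖t‖ ^ 2 := fun y => norm_add_sq_real y t
  have g1 := np (z i)
  have g2 := np (z j)
  have g3 := ip (z i) (z j)
  have gu := np (z m)
  have b1 := ip (z i) (z m)
  have b2 := ip (z j) (z m)
  rw [it, tt] at g1 g2 gu
  rw [it, it, tt] at g3 b1 b2
  rw [real_inner_self_eq_norm_sq] at gu b1 b2
  set a1 := z i + t with ha1
  set a2 := z j + t with ha2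
  set u := z m + t with hu
  have xm : 0 ≤ ‖z m‖ ^ 2 := by positivity
  have xw : 0 ≤ ‖w‖ ^ 2 := by positivity
  have d1 : ‖z i‖ ^ 2 - (‖z m‖ ^ 2 + FR) / 2 ≤ ‖a1‖ ^ 2 := by linarith
  have d2 : ‖z j‖ ^ 2 - (‖z m‖ ^ 2 + FR) / 2 ≤ ‖a2‖ ^ 2 := by linarith
  have d3 : ⟪a1, a2⟫ ^ 2 ≤ (‖z i‖ ^ 2 / 2 + (‖z m‖ ^ 2 + FR) / 4) ^ 2 :=
    sq_le_sq' (by linarith) (by linarith)
  have d4 : δ0 ^ 2 ≤ ‖a1‖ ^ 2 * ‖a2‖ ^ 2 - ⟪a1, a2⟫ ^ 2 := by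
    have := mul_le_mul d1 d2 (by linarith) (by positivity)
    linarith
  have bb : ⟪a1, u⟫ ^ 2 + ⟪a2, u⟫ ^ 2 ≤ 5 / 8 * Q ^ 2 := by
    obtain ⟨o1, q1⟩ : ∃ o1, o1 = -(5 * ⟪z i, z m⟫ + ⟪z i, w⟫) / 4 := ⟨_, rfl⟩
    obtain ⟨o2, q2⟩ : ∃ o2, o2 = -(5 * ⟪z j, z m⟫ + ⟪z j, w⟫) / 4 := ⟨_, rfl⟩
    obtain ⟨O, q3⟩ : ∃ O, O = (5 * ‖z m‖ ^ 2 + 6 * ⟪z m, w⟫ + ‖w‖ ^ 2) / 4 := ⟨_, rfl⟩
    have p1 : ⟪a1, u⟫ = O / 4 - o1 := by rw [b1, q1, q3]; ring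
    have p2 : ⟪a2, u⟫ = O / 4 - o2 := by rw [b2, q2, q3]; ring
    rw [p1, p2]
    exact Geo4_bb (by linarith) (by linarith) (by linarith) (by linarith)
  refine Geo4_A hδ d4 (by linarith) bb hε0 hε1 hε (by linarith) measureReal_nonneg measureReal_le_one ?_
  refine measureReal_mono (fun x hx => ?_)
  have c1 := hx i
  have c2 := hx j
  have c3 := hx l
  have c4 := hx n
  have c5 := congrArg (fun y => ⟪y, x⟫) s0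
  have c6 : ⟪t, x⟫ = (⟪z m, x⟫ + ⟪w, x⟫) / 4 := by
    rw [ht, real_inner_smul_left, inner_add_left]; ring
  simp only [inner_add_left, inner_zero_left] at c5
  simp only [Set.mem_setOf_eq, ha1, ha2, hu, inner_add_left]
  refine ⟨by linarith, by linarith, by linarith⟩

end Vale.Agent.P226
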