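import Vale.Agent.P226.Lines
import Vale.Agent.P226.Geo3
import Vale.Agent.P226.Geo4
import Vale.Agent.P226.Base

namespace Vale.Agent.P226
open MeasureTheory ProbabilityTheory Real Finset
open scoped RealInnerProductSpace

lemma ssq0 {lo hi a b c : ℝ} (ha : a ≤ hi) (hc : lo ≤ c) (hab : b ≤ a) (hbc : c ≤ b)
    (hm : a + b + c ≤ 2 * hi + lo) (hm' : hi + 2 * lo ≤ a + b + c) :
    a ^ 2 + b ^ 2 + c ^ 2 ≤ hi ^ 2 + lo ^ 2 + (a + b + c - hi - lo) ^ 2 := by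
  have h1 : 0 ≤ (hi - a) * ((2 * hi + lo - (a + b + c)) + (a - b)) := mul_nonneg (by linarith) (by linarith)
  have h2 : 0 ≤ (c - lo) * ((a + b + c - hi - 2 * lo) + (b - c)) := mul_nonneg (by linarith) (by linarith)
  nlinarith

lemma ssq {lo hi a b c : ℝ} (a1 : lo ≤ a) (a2 : a ≤ hi) (b1 : lo ≤ b) (b2 : b ≤ hi) (c1 : lo ≤ c) (c2 : c ≤ hi)
    (hm : a + b + c ≤ 2 * hi + lo) (hm' : hi + 2 * lo ≤ a + b + c) :
    a ^ 2 + b ^ 2 + c ^ 2 ≤ hi ^ 2 + lo ^ 2 + (a + b + c - hi - lo) ^ 2 := by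
  rcases le_total a b with h1 | h1 <;> rcases le_total b c with h2 | h2 <;> rcases le_total a c with h3 | h3
  · have := ssq0 c2 a1 h2 h1 (by linarith) (by linarith); linarith
  · have := ssq0 c2 a1 h2 h1 (by linarith) (by linarith); linarith
  · have := ssq0 b2 a1 h2 h3 (by linarith) (by linarith); linarith
  · have := ssq0 b2 c1 h1 h3 (by linarith) (by linarith); linarith
  · have := ssq0 c2 b1 h3 h1 (by linarith) (by linarith); linarith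
  · have := ssq0 a2 b1 h3 h2 (by linarith) (by linarith); linarith
  · have := ssq0 a2 c1 h1 h2 (by linarith) (by linarith); linarith
  · have := ssq0 a2 c1 h1 h2 (by linarith) (by linarith); linarith

lemma concq {k b c s s0 s1 : ℝ} (hk : 0 ≤ k) (h0 : 0 ≤ -k * s0 ^ 2 + b * s0 + c)
    (h1 : 0 ≤ -k * s1 ^ 2 + b * s1 + c) (e0 : s0 ≤ s) (e1 : s ≤ s1) : 0 ≤ -k * s ^ 2 + b * s + c := by
  rcases le_total 0 (b - k * (s + s0)) with h | h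
  · nlinarith [mul_nonneg (sub_nonneg.2 e0) h]
  · have : b - k * (s + s1) ≤ 0 := by nlinarith [mul_nonneg hk (sub_nonneg.2 (e0.trans e1))]
    nlinarith [mul_nonneg (sub_nonneg.2 e1) (neg_nonneg.2 this)]

lemma hnum_of {lo hi s0 δ0 lam : ℝ} (h0 : hi + 2 * lo ≤ s0) (hl : lam ≤ 3 / 2 * hi) (hh : 0 ≤ hi)
    (f0 : 4 * δ0 ^ 2 ≤ s0 ^ 2 - 2 * (hi ^ 2 + lo ^ 2 + (s0 - hi - lo) ^ 2))
    (f1 : 4 * δ0 ^ 2 ≤ (2 * hi + lo) ^ 2 - 2 * (2 * hi ^ 2 + lo ^ 2))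
    (g0 : 0 ≤ lam ^ 2 - s0 * lam + 3 / 4 * (s0 ^ 2 - 2 * (hi ^ 2 + lo ^ 2 + (s0 - hi - lo) ^ 2)))
    (g1 : 0 ≤ lam ^ 2 - (2 * hi + lo) * lam + 3 / 4 * ((2 * hi + lo) ^ 2 - 2 * (2 * hi ^ 2 + lo ^ 2))) :
    ∀ y1 y2 y3 : ℝ, lo ≤ y1 → y1 ≤ hi → lo ≤ y2 → y2 ≤ hi → lo ≤ y3 → y3 ≤ hi → s0 ≤ y1 + y2 + y3 →
      4 * δ0 ^ 2 ≤ (y1 + y2 + y3) ^ 2 - 2 * (y1 ^ 2 + y2 ^ 2 + y3 ^ 2) ∧
      0 ≤ lam ^ 2 - (y1 + y2 + y3) * lam + 3 / 4 * ((y1 + y2 + y3) ^ 2 - 2 * (y1 ^ 2 + y2 ^ 2 + y3 ^ 2)) := by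
  intro a b c a1 a2 b1 b2 c1 c2 hs
  rcases le_total (a + b + c) (2 * hi + lo) with h | h
  · have k := ssq a1 a2 b1 b2 c1 c2 h (by linarith)
    have u := concq (k := 1) (b := 4 * (hi + lo)) (c := -2 * (hi ^ 2 + lo ^ 2 + (hi + lo) ^ 2) - 4 * δ0 ^ 2)
      zero_le_one (by linarith) (by linarith) hs h
    have v := concq (k := 3 / 4) (b := 3 * (hi + lo) - lam)
      (c := -3 / 2 * (hi ^ 2 + lo ^ 2 + (hi + lo) ^ 2) + lam ^ 2) (by norm_num) (by linarith) (by linarith) hs h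
    constructor <;> linarith
  · have k1 := mul_nonneg (sub_nonneg.2 a1) (sub_nonneg.2 a2)
    have k2 := mul_nonneg (sub_nonneg.2 b1) (sub_nonneg.2 b2)
    have k3 := mul_nonneg (sub_nonneg.2 c1) (sub_nonneg.2 c2)
    have k4 := mul_nonneg (sub_nonneg.2 h) hh
    have k5 := sq_nonneg (a + b + c - (2 * hi + lo))
    have k6 := mul_nonneg (sub_nonneg.2 h) (sub_nonneg.2 hl)
    constructor <;> linarith

variable {E : Type} [NormedAddCommGroup E] [InnerProductSpace ℝ E] [FiniteDimensional ℝ E]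
  [MeasurableSpace E] [BorelSpace E] {ι : Type}

theorem geo3' [Fintype ι] {z : ι → E} (h : Crit z) {i j l m : ι} (hij : i ≠ j) (hil : i ≠ l)
    (hjl : j ≠ l) (hmi : m ≠ i) (hmj : m ≠ j) (hml : m ≠ l) {FR : ℝ} (lo hi s0 δ0 lam Q νm c : ℝ)
    (hFR : ∑ a, ‖z a‖ ^ 2 = ‖z i‖ ^ 2 + ‖z j‖ ^ 2 + ‖z l‖ ^ 2 + ‖z m‖ ^ 2 + FR)
    (hlo : ∀ a, a = i ∨ a = j ∨ a = l → lo ≤ ‖z a‖ ^ 2 - 5 / 9 * (‖z m‖ ^ 2 + FR) ∧
      ‖z a‖ ^ 2 + (‖z m‖ ^ 2 + FR) / 9 ≤ hi)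
    (hs : s0 ≤ ‖z i‖ ^ 2 + ‖z j‖ ^ 2 + ‖z l‖ ^ 2 - (‖z m‖ ^ 2 + FR) / 3)
    (hQ : 4 * ‖z m‖ ^ 2 + FR ≤ 3 * Q) (hp0 : 0 ≤ pc z m) (hp1 : pc z m ≤ 1)
    (num : 0 < δ0 ∧ 0 < lam ∧ 2 * lam ≤ s0 ∧ νm ≤ 3 / 10 ∧ 6 * Q ^ 2 ≤ lam ^ 2 * νm ∧
      c ≤ 8 * 3.14159 * δ0 * (1 - 23 / 40 * νm) ∧ hi + 2 * lo ≤ s0 ∧ lam ≤ 3 / 2 * hi ∧ 0 ≤ hi ∧
      4 * δ0 ^ 2 ≤ s0 ^ 2 - 2 * (hi ^ 2 + lo ^ 2 + (s0 - hi - lo) ^ 2) ∧
      4 * δ0 ^ 2 ≤ (2 * hi + lo) ^ 2 - 2 * (2 * hi ^ 2 + lo ^ 2) ∧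
      0 ≤ lam ^ 2 - s0 * lam + 3 / 4 * (s0 ^ 2 - 2 * (hi ^ 2 + lo ^ 2 + (s0 - hi - lo) ^ 2)) ∧
      0 ≤ lam ^ 2 - (2 * hi + lo) * lam + 3 / 4 * ((2 * hi + lo) ^ 2 - 2 * (2 * hi ^ 2 + lo ^ 2))) :
    pc z m * (1 - pc z m) * c ≤ (16 * ‖z m‖ ^ 2 + FR) * (1 - 2 * pc z m) ^ 2 := by
  classical
  obtain ⟨n1, n2, n3, n4, n5, n6, n7, n8, n9, n10, n11, n12, n13⟩ := num
  have hl2 : 0 < lam ^ 2 := by positivity
  obtain ⟨ν, v0, v1, v2⟩ := geo3 h hij hil hjl hmi hmj hml hFR hlo hs n1 n2 n3 hQ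
    (by nlinarith [mul_le_mul_of_nonneg_left n4 hl2.le]) (hnum_of n7 n8 n9 n10 n11 n12 n13)
  have v3 : ν ≤ νm := le_of_mul_le_mul_left (v1.trans n5) hl2
  have hpi : (3.14159 : ℝ) ≤ π := by linarith [pi_gt_d6]
  have c1 : c ≤ 8 * π * δ0 * (1 - 23 / 40 * ν) := by
    refine n6.trans ?_
    have : (0 : ℝ) ≤ 1 - 23 / 40 * νm := by linarith
    gcongr
  have c2 := mul_le_mul_of_nonneg_left c1 (mul_nonneg hp0 (sub_nonneg.2 hp1))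
  have c3 := mul_nonneg (mul_nonneg n2.le v0) (sq_nonneg (1 - 2 * pc z m))
  linarith

lemma fin3 {p W a b c lo hi : ℝ} (t : ℝ) (h1 : lo ≤ p) (h2 : p ≤ hi) (W0 : 0 ≤ W) (hW : W ≤ a + b * p)
    (h : p * (1 - p) * c ≤ W * (1 - 2 * p) ^ 2)
    (hq : ∀ p, lo ≤ p → p ≤ hi → 0 ≤ (p - t) ^ 2 → (a + b * p) * (1 - 4 * lo * hi - (4 - 4 * (lo + hi)) * p) <
      p * (1 - p) * c) : False := by
  have k := mul_nonneg (sub_nonneg.2 h1) (sub_nonneg.2 h2)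
  have e : (1 - 2 * p) ^ 2 ≤ 1 - 4 * lo * hi - (4 - 4 * (lo + hi)) * p := by linarith
  have := mul_le_mul hW e (sq_nonneg _) (W0.trans hW)
  linarith [hq p h1 h2 (sq_nonneg _)]

lemma aux_m {p q c r y : ℝ} (hq : p ≤ q) (hr : 0 ≤ r) (hy : y ≤ 2 * p * r) (hc : 2 * q ≤ c) : y ≤ c * r :=
  hy.trans (mul_le_mul_of_nonneg_right (by linarith) hr)

lemma finIa {p x FR PR : ℝ} (p0 : 0 < p) (hC : p ≤ 0.050504) (x0 : 0 ≤ x) (hx : x ≤ 2 * p * p)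
    (hR : FR ≤ 2 * p * PR) (x3 : PR ≤ 0.1283) (g : p * (1 - p) * 1.999 ≤ (16 * x + FR) * (1 - 2 * p) ^ 2) :
    False := by
  have w : 16 * x + FR ≤ 1.873 * p := by nlinarith
  have e : (1 - 2 * p) ^ 2 ≤ 1 - p := by nlinarith
  have := mul_le_mul w e (sq_nonneg _) (by linarith)
  nlinarith [mul_pos p0 (show 0 < 1 - p by linarith)]

lemma detT4 {u v f : ℝ} (f0 : 0 ≤ f) (k5 : f ≤ 0.00241) (k1 : 0.0522 ≤ u) (k2 : 0.1509 ≤ u + v) (m1 : u ≤ v) :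
    (0.0635 : ℝ) ^ 2 ≤ (u - f / 2) * (v - f / 2) - (u / 2 + f / 4) ^ 2 := by
  have a1 : (u - 0.001205) * (v - 0.001205) ≤ (u - f / 2) * (v - f / 2) :=
    mul_le_mul (by linarith) (by linarith) (by linarith) (by linarith)
  have a2 : (u / 2 + f / 4) ^ 2 ≤ (u / 2 + 0.0006025) ^ 2 := pow_le_pow_left₀ (by linarith) (by linarith) 2
  rcases le_total u 0.07545 with a | a
  · have a3 : (u - 0.001205) * (0.1509 - u - 0.001205) ≤ (u - 0.001205) * (v - 0.001205) :=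
      mul_le_mul_of_nonneg_left (by linarith) (by linarith)
    have a4 := mul_nonneg (sub_nonneg.2 k1) (sub_nonneg.2 a)
    linarith
  · have a3 : (u - 0.001205) * (u - 0.001205) ≤ (u - 0.001205) * (v - 0.001205) :=
      mul_le_mul_of_nonneg_left (by linarith) (by linarith)
    have a4 := sq_nonneg (u - 0.07545)
    linarith

lemma finT4 {p x FR PR : ℝ} (p0 : 0 < p) (hC : p ≤ 0.024999) (hx : x ≤ 2 * p * p)
    (hR : FR ≤ 2 * p * PR) (k3 : p + PR ≤ 0.0482)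
    (g : p * (1 - p) * (8 * π * 0.0635 * (1 - 71 / 50 * 0.0915 - 8 * 0.0915 ^ 2 - 12 * 0.0915 ^ 3)) ≤
      (25 * x + FR) * (1 - 2 * p) ^ 2) : False := by
  have hpi : (3.14159 : ℝ) ≤ π := by linarith [pi_gt_d6]
  have w : 25 * x + FR ≤ p * (48 * p + 0.0964) := by nlinarith
  have e : (1 - 2 * p) ^ 2 ≤ (1 - p) * (1 - 3 * p + 0.001) := by nlinarith
  have a1 := mul_le_mul w e (sq_nonneg _) (by positivity)
  have a2 : (1.26 : ℝ) ≤ 8 * π * 0.0635 * (1 - 71 / 50 * 0.0915 - 8 * 0.0915 ^ 2 - 12 * 0.0915 ^ 3) := by linarith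
  have a0 : 0 < p * (1 - p) := mul_pos p0 (by linarith)
  have a3 := mul_le_mul_of_nonneg_left a2 a0.le
  have a4 : (48 * p + 0.0964) * (1 - 3 * p + 0.001) < 1.26 := by nlinarith
  have a5 := mul_lt_mul_of_pos_left a4 a0
  linarith

section
variable [Fintype ι] {z : ι → E} (h : Crit z) {i j l m : ι} (hij : i ≠ j) (hil : i ≠ l)
  (hjl : j ≠ l) (hmi : m ≠ i) (hmj : m ≠ j) (hml : m ≠ l)
  (bi : Big (pc z i) (‖z i‖ ^ 2)) (bj : Big (pc z j) (‖z j‖ ^ 2)) (bl : Big (pc z l) (‖z l‖ ^ 2))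
include h hij hil hjl hmi hmj hml bi bj bl

set_option maxHeartbeats 800000 in
lemma caseIa {FR PR : ℝ} (hFR : ∑ a, ‖z a‖ ^ 2 = ‖z i‖ ^ 2 + ‖z j‖ ^ 2 + ‖z l‖ ^ 2 + ‖z m‖ ^ 2 + FR)
    (hP : pc z i + pc z j + pc z l + pc z m + PR = 1) (p0 : 0 < pc z m) (hC : pc z m ≤ 0.050504)
    (hx : ‖z m‖ ^ 2 ≤ 2 * pc z m * pc z m) (FR0 : 0 ≤ FR) (PR0 : 0 ≤ PR) (hR : FR ≤ 2 * pc z m * PR) : False := by
  have F := h.big
  have F1 := F0_bd.1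
  obtain ⟨i1, i2, i3, i4, i5, i6, i7, i8⟩ := bi
  obtain ⟨j1, j2, j3, j4, j5, j6, j7, j8⟩ := bj
  obtain ⟨l1, l2, l3, l4, l5, l6, l7, l8⟩ := bl
  have x0 := sq_nonneg ‖z m‖
  have x1 : ‖z m‖ ^ 2 ≤ 0.101008 * pc z m := aux_m hC p0.le hx (by norm_num)
  have x2 : FR ≤ 0.101008 * PR := aux_m hC PR0 hR (by norm_num)
  have x3 : PR ≤ 0.1283 := by linarith
  refine finIa p0 hC x0 hx hR x3 ?_
  clear hx hR
  exact geo3' h hij hil hjl hmi hmj hml 0.0575 0.1594 0.3407 0.0836 0.0807 0.0095 0.084 1.999 hFR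
    (by rintro a (rfl | rfl | rfl) <;> constructor <;> linarith) (by linarith) (by linarith) p0.le (by linarith)
    (by norm_num)

set_option maxHeartbeats 800000 in
lemma caseIb {FR PR : ℝ} (hFR : ∑ a, ‖z a‖ ^ 2 = ‖z i‖ ^ 2 + ‖z j‖ ^ 2 + ‖z l‖ ^ 2 + ‖z m‖ ^ 2 + FR)
    (hP : pc z i + pc z j + pc z l + pc z m + PR = 1) (p0 : 0.050501 ≤ pc z m) (hC : pc z m ≤ 0.080758)
    (hx : ‖z m‖ ^ 2 ≤ -0.00646 + 0.2152 * pc z m) (FR0 : 0 ≤ FR) (PR0 : 0 ≤ PR) (hR : FR ≤ 0.1353 * PR) :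
    False := by
  have F := h.big
  have F1 := F0_bd.1
  obtain ⟨i1, i2, i3, i4, i5, i6, i7, i8⟩ := bi
  obtain ⟨j1, j2, j3, j4, j5, j6, j7, j8⟩ := bj
  obtain ⟨l1, l2, l3, l4, l5, l6, l7, l8⟩ := bl
  have x0 := sq_nonneg ‖z m‖
  have x3 : FR ≤ 0.0112 := by linarith
  have g := geo3' h hij hil hjl hmi hmj hml 0.0656 0.153 0.3331 0.0855 0.0906 0.0172 0.217 1.88 hFR
    (by rintro a (rfl | rfl | rfl) <;> constructor <;> linarith) (by linarith) (by linarith) (by linarith)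
    (by linarith) (by norm_num)
  exact fin3 (a := 16 * -0.00646 + 0.0112) (b := 16 * 0.2152) 0.080758 p0 hC (by linarith) (by linarith) g
    (fun p a b c => by linarith)

set_option maxHeartbeats 800000 in
lemma caseII5 {FR PR x4 p4 : ℝ}
    (hFR : ∑ a, ‖z a‖ ^ 2 = ‖z i‖ ^ 2 + ‖z j‖ ^ 2 + ‖z l‖ ^ 2 + ‖z m‖ ^ 2 + (x4 + FR))
    (hP : pc z i + pc z j + pc z l + p4 + pc z m + PR = 1) (p0 : 0.024997 ≤ pc z m) (hC : pc z m ≤ 0.060572)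
    (hx : ‖z m‖ ^ 2 ≤ -0.00249 + 0.1445 * pc z m) (FR0 : 0 ≤ FR) (PR0 : 0 ≤ PR) (hR : FR ≤ 0.1035 * PR)
    (x40 : 0 ≤ x4)
    (h4 : (0.080756 ≤ p4 ∧ p4 ≤ 0.105651 ∧ x4 ≤ -0.01289 + 0.2949 * p4) ∨
      (0.105649 ≤ p4 ∧ p4 ≤ 0.140072 ∧ x4 ≤ -0.02106 + 0.3725 * p4)) : False := by
  have F := h.big
  have F1 := F0_bd.1
  obtain ⟨i1, i2, i3, i4, i5, i6, i7, i8⟩ := bi
  obtain ⟨j1, j2, j3, j4, j5, j6, j7, j8⟩ := bj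
  obtain ⟨l1, l2, l3, l4, l5, l6, l7, l8⟩ := bl
  have x0 := sq_nonneg ‖z m‖
  rcases h4 with ⟨q1, q2, q3⟩ | ⟨q1, q2, q3⟩
  · have x3 : x4 + FR ≤ 0.0194 := by linarith
    have g := geo3' h hij hil hjl hmi hmj hml 0.0771 0.1386 0.33 0.09 0.1113 0.0106 0.055 2.19 hFR
      (by rintro a (rfl | rfl | rfl) <;> constructor <;> linarith) (by linarith) (by linarith) (by linarith)
      (by linarith) (by norm_num)
    exact fin3 (a := 16 * -0.00249 + 0.0194) (b := 16 * 0.1445) 0.024997 p0 hC (by linarith) (by linarith) g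
      (fun p a b c => by linarith)
  · have x3 : x4 + FR ≤ 0.0273 := by linarith
    have g := geo3' h hij hil hjl hmi hmj hml 0.0711 0.1311 0.3203 0.0868 0.1054 0.0106 0.061 2.104 hFR
      (by rintro a (rfl | rfl | rfl) <;> constructor <;> linarith) (by linarith) (by linarith) (by linarith)
      (by linarith) (by norm_num)
    exact fin3 (a := 16 * -0.00249 + 0.0273) (b := 16 * 0.1445) 0.024997 p0 hC (by linarith) (by linarith) g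
      (fun p a b c => by linarith)

set_option maxHeartbeats 800000 in
lemma caseT4 {n : ι} (hin : i ≠ n) (hjn : j ≠ n) (hln : l ≠ n) (hmn : m ≠ n) {FR PR : ℝ}
    (hFR : ∑ a, ‖z a‖ ^ 2 = ‖z i‖ ^ 2 + ‖z j‖ ^ 2 + ‖z l‖ ^ 2 + ‖z n‖ ^ 2 + ‖z m‖ ^ 2 + FR)
    (hP : pc z i + pc z j + pc z l + pc z n + pc z m + PR = 1) (p0 : 0 < pc z m) (hC : pc z m ≤ 0.024999)
    (hx : ‖z m‖ ^ 2 ≤ 2 * pc z m * pc z m) (FR0 : 0 ≤ FR) (PR0 : 0 ≤ PR) (hR : FR ≤ 2 * pc z m * PR)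
    (n1 : pc z n ≤ pc z i) (n2 : pc z n ≤ pc z j) (n3 : pc z n ≤ pc z l)
    (h4 : (0.080756 ≤ pc z n ∧ pc z n ≤ 0.171057 ∧ ‖z n‖ ^ 2 ≤ 0.585 * pc z n - 0.0363 ∧
      ‖z n‖ ^ 2 ≤ 0.2634 * pc z n) ∨ (0.171055 ≤ pc z n ∧ ‖z n‖ ^ 2 ≤ -0.05494 + 0.585 * pc z n))
    (m1 : ‖z i‖ ^ 2 ≤ ‖z j‖ ^ 2) (m2 : ‖z i‖ ^ 2 ≤ ‖z l‖ ^ 2) (hw : -⟪z i, z j⟫ ≤ ‖z i‖ ^ 2 / 2) : False := by
  classical
  have F := h.big
  have F1 := F0_bd.1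
  obtain ⟨i1, i2, i3, i4, i5, i6, i7, i8⟩ := bi
  obtain ⟨j1, j2, j3, j4, j5, j6, j7, j8⟩ := bj
  obtain ⟨l1, l2, l3, l4, l5, l6, l7, l8⟩ := bl
  have x0 := sq_nonneg ‖z m‖
  have x1 : ‖z m‖ ^ 2 ≤ 0.049998 * pc z m := aux_m hC p0.le hx (by norm_num)
  have x2 : FR ≤ 0.049998 * PR := aux_m hC PR0 hR (by norm_num)
  have k : 0.0522 ≤ ‖z i‖ ^ 2 ∧ 0.1509 ≤ ‖z i‖ ^ 2 + ‖z j‖ ^ 2 ∧ pc z m + PR ≤ 0.0482 ∧
      ‖z i‖ ^ 2 + ‖z j‖ ^ 2 ≤ 0.2492 := by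
    rcases h4 with ⟨q1, q2, q3, q4⟩ | ⟨q1, q2⟩
    · exact ⟨by linarith, by linarith, by linarith, by linarith⟩
    · exact ⟨by linarith, by linarith, by linarith, by linarith⟩
  obtain ⟨k1, k2, k3, k4⟩ := k
  have k5 : ‖z m‖ ^ 2 + FR ≤ 0.00241 := by linarith
  exact finT4 p0 hC hx hR k3 (geo4 h hij hil hin hjl hjn hln hmi hmj hml hmn (Tr := 0.2496) (Q := 0.00186)
    hFR hw (by norm_num) (by linarith) (by linarith) (detT4 (by linarith) k5 k1 k2 m1)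
    (by linarith) (by linarith) (by norm_num) (by norm_num) (by norm_num))

end

end Vale.Agent.P226
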