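import Vale.Agent.P226.Gauss

/-! Laws under stdGaussian. PLAN: Measure.ext_of_charFun + charFun_stdGaussian (charFun of a map by a linear map = charFun at the adjoint). Shift: write E ≅ pi gaussians (def of stdGaussian), or 1D: only the lower bound is needed; Cameron-Martin  γ{x | x + a ∈ A} = ∫_A exp(⟪a,x⟫ - ‖a‖²/2) (check sign: x + a ~ N(a,I)); prove equality of the measures γ.map (·+a) and γ.withDensity by Measure.pi_eq on boxes or by charFun/mgf; then exp y ≥ 1 + y. -/
namespace Vale.Agent.P226
open MeasureTheory ProbabilityTheory Real Finset Filter Topology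
open scoped RealInnerProductSpace

variable {E : Type} [NormedAddCommGroup E] [InnerProductSpace ℝ E] [FiniteDimensional ℝ E]
  [MeasurableSpace E] [BorelSpace E] {ι : Type}

lemma law_cf {F : Type} [NormedAddCommGroup F] [InnerProductSpace ℝ F] [MeasurableSpace F]
    [BorelSpace F] {f : E → F} (hf : Measurable f) (t : F) (v : E) (h : ∀ x, ⟪f x, t⟫ = ⟪x, v⟫) :
    charFun ((stdGaussian E).map f) t = Complex.exp (-(‖v‖ : ℂ) ^ 2 / 2) := by
  rw [← charFun_stdGaussian, charFun_apply, charFun_apply,
    integral_map hf.aemeasurable (Measurable.aestronglyMeasurable (by fun_prop))]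
  simp only [h]

lemma law_map (u : E) : (stdGaussian E).map (fun x => ⟪u, x⟫) = gg.map (fun t => ‖u‖ * t) := by
  haveI : IsProbabilityMeasure ((stdGaussian E).map (fun x => ⟪u, x⟫)) :=
    Measure.isProbabilityMeasure_map (by fun_prop)
  haveI : IsProbabilityMeasure (gg.map (fun t => ‖u‖ * t)) :=
    Measure.isProbabilityMeasure_map (by fun_prop)
  refine Measure.ext_of_charFun (funext fun t => ?_)
  rw [law_cf (by fun_prop) t (t • u) fun x => by
    simp [real_inner_smul_right, real_inner_comm], charFun_map_mul, charFun_gaussianReal, norm_smul]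
  congr 1
  have : ((‖t‖ : ℝ) : ℂ) ^ 2 = (t : ℂ) ^ 2 := by
    rw [← Complex.ofReal_pow, Real.norm_eq_abs, sq_abs, Complex.ofReal_pow]
  push_cast
  rw [mul_pow, this]
  ring

/-- law of a unit linear functional -/
lemma map_inner {u : E} (hu : ‖u‖ = 1) : (stdGaussian E).map (fun x => ⟪u, x⟫) = gg := by
  rw [law_map, hu]
  simp

lemma integral_inner (u : E) (f : ℝ → ℝ) (hf : Measurable f) :
    ∫ x, f ⟪u, x⟫ ∂(stdGaussian E) = ∫ t, f (‖u‖ * t) ∂gg := by
  rw [← integral_map (φ := fun x => ⟪u, x⟫) (by fun_prop) hf.aestronglyMeasurable, law_map,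
    integral_map (by fun_prop) hf.aestronglyMeasurable]

lemma integrable_inner (u : E) : Integrable (fun x => ⟪u, x⟫) (stdGaussian E) :=
  (IsGaussian.integrable_fun_id (μ := stdGaussian E)).const_inner u

lemma law_set (u : E) {s : Set ℝ} (hs : MeasurableSet s) :
    stdGaussian E {x | ⟪u, x⟫ ∈ s} = gg {t | ‖u‖ * t ∈ s} := by
  have := congrArg (fun μ : Measure ℝ => μ s) (law_map u)
  rw [Measure.map_apply (by fun_prop) hs, Measure.map_apply (by fun_prop) hs] at this
  exact this

lemma hyper_null {u : E} (hu : u ≠ 0) : stdGaussian E {x | ⟪u, x⟫ = 0} = 0 := by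
  haveI := nullSingletonClass_gaussianReal (μ := 0) (v := 1) one_ne_zero
  have h := law_set u (measurableSet_singleton 0)
  have e : {t : ℝ | ‖u‖ * t ∈ ({0} : Set ℝ)} = {0} := by
    ext t
    simp [hu]
  rw [e, measure_singleton] at h
  exact h

lemma half_space {u : E} (hu : u ≠ 0) : (stdGaussian E).real {x | 0 ≤ ⟪u, x⟫} = 1 / 2 := by
  have h := law_set u (measurableSet_Ici (a := 0))
  have e : {t : ℝ | ‖u‖ * t ∈ Set.Ici (0 : ℝ)} = (Set.Iio 0)ᶜ := by
    ext t
    simp [mul_nonneg_iff_of_pos_left (norm_pos_iff.2 hu)]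
  rw [e] at h
  have h2 : gg.real (Set.Iio 0)ᶜ = 1 / 2 := by
    rw [probReal_compl_eq_one_sub measurableSet_Iio, gg_Iio, Ph_zero]
    norm_num
  rw [← h2, measureReal_def, measureReal_def, ← h]
  rfl

lemma map_neg_std : (stdGaussian E).map (fun x => -x) = stdGaussian E :=
  stdGaussian_map (LinearIsometryEquiv.neg ℝ)

/-- families with the same Gram matrix have the same law -/
lemma gram_transfer {E' : Type} [NormedAddCommGroup E'] [InnerProductSpace ℝ E']
    [FiniteDimensional ℝ E'] [MeasurableSpace E'] [BorelSpace E'] [Fintype ι] (y : ι → E) (y' : ι → E')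
    (h : ∀ i j, ⟪y i, y j⟫ = ⟪y' i, y' j⟫) :
    (stdGaussian E).map (fun x i => ⟪y i, x⟫) = (stdGaussian E').map (fun x i => ⟪y' i, x⟫) := by
  have m1 : Measurable fun x : E => (WithLp.toLp 2 fun i => ⟪y i, x⟫ : EuclideanSpace ℝ ι) :=
    Continuous.measurable (by fun_prop)
  have m2 : Measurable fun x : E' => (WithLp.toLp 2 fun i => ⟪y' i, x⟫ : EuclideanSpace ℝ ι) :=
    Continuous.measurable (by fun_prop)
  have m3 : Measurable fun v : EuclideanSpace ℝ ι => v.ofLp := Continuous.measurable (by fun_prop)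
  haveI := Measure.isProbabilityMeasure_map (μ := stdGaussian E) m1.aemeasurable
  haveI := Measure.isProbabilityMeasure_map (μ := stdGaussian E') m2.aemeasurable
  have e : (stdGaussian E).map (fun x => (WithLp.toLp 2 fun i => ⟪y i, x⟫ : EuclideanSpace ℝ ι)) =
      (stdGaussian E').map (fun x => (WithLp.toLp 2 fun i => ⟪y' i, x⟫ : EuclideanSpace ℝ ι)) := by
    refine Measure.ext_of_charFun (funext fun t => ?_)
    rw [law_cf m1 t (∑ i, t i • y i) fun x => by
        simp [PiLp.inner_apply, inner_sum, real_inner_smul_right, real_inner_comm],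
      law_cf m2 t (∑ i, t i • y' i) fun x => by
        simp [PiLp.inner_apply, inner_sum, real_inner_smul_right, real_inner_comm],
      ← Complex.ofReal_pow, ← Complex.ofReal_pow, ← real_inner_self_eq_norm_sq,
      ← real_inner_self_eq_norm_sq]
    simp only [inner_sum, sum_inner, real_inner_smul_left, real_inner_smul_right, h]
  have := congrArg (fun μ : Measure (EuclideanSpace ℝ ι) => μ.map fun v => v.ofLp) e
  simp only at this
  rw [Measure.map_map m3 m1, Measure.map_map m3 m2] at this
  exact this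

lemma law_mgf (a t : E) : ∫ x, Complex.exp (⟪x, a⟫ + ⟪x, t⟫ * Complex.I) ∂(stdGaussian E) =
    Complex.exp ((‖a‖ : ℂ) ^ 2 / 2 - (‖t‖ : ℂ) ^ 2 / 2 + ⟪a, t⟫ * Complex.I) := by
  rw [stdGaussian, integral_map (Measurable.aemeasurable (by fun_prop))
    (Measurable.aestronglyMeasurable (by fun_prop))]
  set b := stdOrthonormalBasis ℝ E
  have e : ∀ x : Fin (Module.finrank ℝ E) → ℝ,
      Complex.exp (⟪∑ i, x i • b i, a⟫ + ⟪∑ i, x i • b i, t⟫ * Complex.I) =
        ∏ i, Complex.exp ((⟪b i, a⟫ + ⟪b i, t⟫ * Complex.I) * x i) := fun x => by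
    rw [← Complex.exp_sum]
    simp only [sum_inner, real_inner_smul_left, Complex.ofReal_sum, Complex.ofReal_mul, sum_mul,
      ← sum_add_distrib]
    congr 1
    exact sum_congr rfl fun i _ => by ring
  simp only [e]
  rw [integral_fintype_prod_eq_prod
    (f := fun i (x : ℝ) => Complex.exp ((⟪b i, a⟫ + ⟪b i, t⟫ * Complex.I) * x))]
  have e2 : ∀ z : ℂ, ∫ x : ℝ, Complex.exp (z * x) ∂gaussianReal 0 1 = Complex.exp (z ^ 2 / 2) :=
    fun z => by simpa [complexMGF] using complexMGF_id_gaussianReal (μ := 0) (v := 1) z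
  simp only [e2]
  rw [← Complex.exp_sum, ← Complex.ofReal_pow, ← Complex.ofReal_pow, ← b.sum_sq_inner_right a,
    ← b.sum_sq_inner_right t, ← b.sum_inner_mul_inner a t]
  simp only [Complex.ofReal_sum, Complex.ofReal_mul, Complex.ofReal_pow, sum_mul, sum_div,
    ← sum_add_distrib, ← sum_sub_distrib]
  congr 1
  refine sum_congr rfl fun i _ => ?_
  rw [real_inner_comm (b i) a]
  linear_combination ((⟪b i, t⟫ : ℝ) : ℂ) ^ 2 / 2 * Complex.I_sq

lemma law_exp (a : E) : Integrable (fun x => exp (⟪x, a⟫ - ‖a‖ ^ 2 / 2)) (stdGaussian E) := by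
  have h1 : Integrable exp ((stdGaussian E).map fun x => ⟪a, x⟫) := by
    rw [law_map]
    exact (integrable_map_measure (by fun_prop) (by fun_prop)).2 (integrable_exp_mul_gaussianReal _)
  have h2 := ((integrable_map_measure (by fun_prop) (by fun_prop)).1 h1).div_const (exp (‖a‖ ^ 2 / 2))
  refine h2.congr (.of_forall fun x => ?_)
  simp [exp_sub, real_inner_comm]

lemma law_shift (a : E) : (stdGaussian E).map (fun x => x + a) =
    (stdGaussian E).withDensity fun x => ENNReal.ofReal (exp (⟪x, a⟫ - ‖a‖ ^ 2 / 2)) := by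
  haveI := isFiniteMeasure_withDensity_ofReal (law_exp a).2
  refine Measure.ext_of_charFun (funext fun t => ?_)
  rw [charFun_map_add_const, charFun_stdGaussian, charFun_apply,
    integral_withDensity_eq_integral_toReal_smul (by fun_prop) (.of_forall fun x => by simp)]
  have e : ∀ x : E, (ENNReal.ofReal (exp (⟪x, a⟫ - ‖a‖ ^ 2 / 2))).toReal •
      Complex.exp (⟪x, t⟫ * Complex.I) =
      Complex.exp (-((‖a‖ : ℂ) ^ 2 / 2)) * Complex.exp (⟪x, a⟫ + ⟪x, t⟫ * Complex.I) := fun x => by
    rw [ENNReal.toReal_ofReal (exp_pos _).le, Complex.real_smul, Complex.ofReal_exp,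
      ← Complex.exp_add, ← Complex.exp_add]
    congr 1
    push_cast
    ring
  simp only [e]
  rw [integral_const_mul, law_mgf, ← Complex.exp_add, ← Complex.exp_add]
  congr 1
  ring

lemma shift_ge {A : Set E} (hA : MeasurableSet A) (a : E) :
    exp (-‖a‖ ^ 2 / 2) * ((stdGaussian E).real A + ⟪∫ x in A, x ∂(stdGaussian E), a⟫) ≤
      (stdGaussian E).real {x | x + a ∈ A} := by
  have e1 : (stdGaussian E).real {x | x + a ∈ A} =
      ∫ x in A, exp (⟪x, a⟫ - ‖a‖ ^ 2 / 2) ∂(stdGaussian E) := by
    have := congrArg (fun μ : Measure E => μ A) (law_shift a)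
    rw [Measure.map_apply (by fun_prop) hA, withDensity_apply _ hA,
      ← ofReal_integral_eq_lintegral_ofReal (law_exp a).integrableOn
        (.of_forall fun x => (exp_pos _).le)] at this
    rw [← ENNReal.toReal_ofReal (integral_nonneg fun x => (exp_pos _).le), ← this]
    rfl
  have hid : Integrable (fun x : E => x) (stdGaussian E) := IsGaussian.integrable_fun_id
  have i1 : Integrable (fun x => 1 + ⟪a, x⟫) ((stdGaussian E).restrict A) :=
    (integrable_const _).add (integrable_inner a).integrableOn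
  have e2 : (stdGaussian E).real A + ⟪∫ x in A, x ∂(stdGaussian E), a⟫ =
      ∫ x in A, (1 + ⟪a, x⟫) ∂(stdGaussian E) := by
    rw [integral_add (integrable_const _) (integrable_inner a).integrableOn,
      _root_.integral_inner hid.integrableOn, real_inner_comm]
    simp
  rw [e1, e2, ← integral_const_mul]
  refine integral_mono (i1.const_mul _) (law_exp a).integrableOn fun x => ?_
  have := add_one_le_exp ⟪a, x⟫
  simp only
  rw [sub_eq_neg_add, exp_add, real_inner_comm a x, neg_div]
  exact mul_le_mul_of_nonneg_left (by linarith) (exp_pos _).le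

end Vale.Agent.P226
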