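import Vale.Agent.P226.Ehr2
import Vale.Agent.P226.Law

/-! Ehrhard in dimension n and the decay of translates. PLAN: ehrN by induction (n=0: slice is empty or a point, measure 0 or 1). Step: K ⊆ P × (Fin (n+1) → ℝ),
K' = {((e,x),y) | (e, Fin.cons x y) ∈ K}; S = IH set ⊆ (P×ℝ)×ℝ; apply ehr2 to {(e,(x,u)) | ((e,x),u) ∈ S}; slice measures agree by Fubini
(measurePreserving_piFinSuccAbove _ 0, gg_lt). ehrE: unfold stdGaussian (map of pi by a linear map). translate_le: K = {(t,x) | x - t•w ∈ A}, G t = slice measure.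
For ε>0 shift_ge (a = ε•w) gives G(-ε) ≥ e^{-ε²‖w‖²/2}(p + ε q). Suppose G t > Ph(s - t q/ph s), pick u > s - t q/ph s with Ph u < G t and c < q/ph s with
u > s - t c; for small ε, Ph(s + ε c) < G(-ε) (compare derivatives at ε=0: ph s * c < q). Convex combination of (t,u) and (-ε,s+εc) with first coordinate 0 has second
coordinate > s, so Ph(>s) < G 0 = Ph s, contradiction. -/
namespace Vale.Agent.P226
open MeasureTheory ProbabilityTheory Real Finset Filter Topology
open scoped RealInnerProductSpace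

variable {E : Type} [NormedAddCommGroup E] [InnerProductSpace ℝ E] [FiniteDimensional ℝ E]
  [MeasurableSpace E] [BorelSpace E] {ι : Type}

theorem ehrN_mp {Ω Ω' : Type} [AddCommGroup Ω] [Module ℝ Ω] [MeasurableSpace Ω] [AddCommGroup Ω']
    [Module ℝ Ω'] [MeasurableSpace Ω'] {μ : Measure Ω} {μ' : Measure Ω'} (T : Ω →ₗ[ℝ] Ω')
    (hT : MeasurePreserving T μ μ') (h : Ehr Ω μ) : Ehr Ω' μ' := by
  intro P _ _ K hK hm
  have := h P ((LinearMap.id.prodMap T) ⁻¹' K) (hK.linear_preimage _) fun e => hT.measurable (hm e)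
  have e : ∀ e : P, μ'.real {x | (e, x) ∈ K} = μ.real {x | (e, x) ∈ (LinearMap.id.prodMap T) ⁻¹' K} :=
    fun e => (hT.measureReal_preimage (hm e).nullMeasurableSet).symm
  simpa only [e] using this

theorem ehrN_prod {Ω : Type} [AddCommGroup Ω] [Module ℝ Ω] [MeasurableSpace Ω] {μ : Measure Ω}
    [IsProbabilityMeasure μ] (h : Ehr Ω μ) : Ehr (ℝ × Ω) (gg.prod μ) := by
  intro P _ _ K hK hm
  have h1 := h (P × ℝ) ((LinearEquiv.prodAssoc ℝ P ℝ Ω).toLinearMap ⁻¹' K) (hK.linear_preimage _)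
    fun e => measurable_prodMk_left (x := e.2) (hm e.1)
  have mP : Measurable Ph := Ph_strictMono.monotone.measurable
  have ms : ∀ e : P, MeasurableSet {z : ℝ × ℝ | Ph z.2 < μ.real (Prod.mk z.1 ⁻¹' {x | (e, x) ∈ K})} :=
    fun e => measurableSet_lt (mP.comp measurable_snd)
      ((measurable_measure_prodMk_left (hm e)).ennreal_toReal.comp measurable_fst)
  have h2 := ehr2 P _ (h1.linear_preimage (LinearEquiv.prodAssoc ℝ P ℝ ℝ).symm.toLinearMap) ms
  have e : ∀ e : P, (gg.prod μ).real {x | (e, x) ∈ K} =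
      (gg.prod gg).real {z : ℝ × ℝ | Ph z.2 < μ.real (Prod.mk z.1 ⁻¹' {x | (e, x) ∈ K})} := fun e => by
    rw [measureReal_def, measureReal_def, Measure.prod_apply (hm e), Measure.prod_apply (ms e)]
    congr 2
    funext x
    have := gg_lt (m := μ.real (Prod.mk x ⁻¹' {x | (e, x) ∈ K})) measureReal_nonneg measureReal_le_one
    rw [← ofReal_measureReal (measure_ne_top μ _), ← this, ofReal_measureReal (measure_ne_top _ _)]
    rfl
  simp only [e]
  exact h2

theorem ehrN (n : ℕ) : Ehr (Fin n → ℝ) (Measure.pi fun _ => gg) := by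
  induction n with
  | zero =>
    intro P _ _ K hK _
    have e : {q : P × ℝ | Ph q.2 < (Measure.pi fun _ : Fin 0 => gg).real {x | (q.1, x) ∈ K}} =
        ((LinearMap.inl ℝ P (Fin 0 → ℝ)).comp (LinearMap.fst ℝ P ℝ)) ⁻¹' K := by
      ext q
      by_cases h : (q.1, (0 : Fin 0 → ℝ)) ∈ K
      · have : {x | (q.1, x) ∈ K} = Set.univ := Set.eq_univ_of_forall fun x => by
          rw [Subsingleton.elim x 0]; exact h
        simpa [this, Ph_lt_one] using h
      · have : {x | (q.1, x) ∈ K} = ∅ := Set.eq_empty_of_forall_notMem fun x => by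
          rw [Subsingleton.elim x 0]; exact h
        simpa [this, (Ph_pos _).le, (Ph_pos _).not_gt] using h
    rw [e]
    exact hK.linear_preimage _
  | succ n ih =>
    have h := (measurePreserving_piFinSuccAbove (fun _ : Fin (n + 1) => gg) 0).symm
    have e : ⇑(Fin.consLinearEquiv ℝ fun _ : Fin (n + 1) => ℝ).toLinearMap =
        ⇑(MeasurableEquiv.piFinSuccAbove (fun _ : Fin (n + 1) => ℝ) 0).symm :=
      funext fun p => (Fin.insertNth_zero' p.1 p.2).symm
    exact ehrN_mp (Fin.consLinearEquiv ℝ fun _ : Fin (n + 1) => ℝ).toLinearMap (e ▸ h) (ehrN_prod ih)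

theorem ehrE : Ehr E (stdGaussian E) := by
  refine ehrN_mp (Fintype.linearCombination ℝ (stdOrthonormalBasis ℝ E))
    ⟨(LinearMap.continuous_of_finiteDimensional _).measurable, ?_⟩ (ehrN _)
  rfl

theorem translate_le {A : Set E} (hA : MeasurableSet A) (hc : Convex ℝ A) (w : E) {s q : ℝ}
    (hs : Ph s = (stdGaussian E).real A) (hq : ⟪∫ x in A, x ∂(stdGaussian E), w⟫ = q)
    {t : ℝ} (ht : 0 ≤ t) :
    (stdGaussian E).real {x | x - t • w ∈ A} ≤ Ph (s - q / ph s * t) := by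
  let T : ℝ × E →ₗ[ℝ] E := LinearMap.snd ℝ ℝ E - (LinearMap.toSpanSingleton ℝ E w).comp (LinearMap.fst ℝ ℝ E)
  have hC : Convex ℝ {z : ℝ × ℝ | Ph z.2 < (stdGaussian E).real {x | x - z.1 • w ∈ A}} :=
    ehrE ℝ (T ⁻¹' A) (hc.linear_preimage T) fun e => (measurable_sub_const (e • w)) hA
  by_contra n
  rw [not_le] at n
  rcases ht.eq_or_lt with rfl | ht
  · simp [← hs] at n
  obtain ⟨u, u1, u2⟩ := (((hasDerivAt_Ph _).continuousAt.eventually (gt_mem_nhds n)).filter_mono
    (nhdsWithin_le_nhds (s := Set.Ioi (s - q / ph s * t)))).and self_mem_nhdsWithin |>.exists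
  have u3 : (s - u) / t < q / ph s := by
    rw [div_lt_iff₀ ht]
    have : s - q / ph s * t < u := u2
    linarith
  obtain ⟨c, c1, c2⟩ := exists_between u3
  rw [div_lt_iff₀ ht] at c1
  rw [lt_div_iff₀ (ph_pos s)] at c2
  have d1 : HasDerivAt (fun ε : ℝ => exp (-(ε ^ 2 * ‖w‖ ^ 2) / 2) * (Ph s + ε * q) - Ph (s + ε * c))
      (q - c * ph s) 0 := by
    have a1 : HasDerivAt (fun ε : ℝ => -(ε ^ 2 * ‖w‖ ^ 2) / 2) 0 0 := by
      simpa using (((hasDerivAt_pow 2 (0 : ℝ)).mul_const (‖w‖ ^ 2)).neg).div_const 2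
    have a2 : HasDerivAt (fun ε : ℝ => Ph s + ε * q) q 0 := by
      simpa using ((hasDerivAt_id (0 : ℝ)).mul_const q).const_add (Ph s)
    have a3 : HasDerivAt (fun ε : ℝ => s + ε * c) c 0 := by
      simpa using ((hasDerivAt_id (0 : ℝ)).mul_const c).const_add s
    have a4 := (hasDerivAt_Ph (s + 0 * c)).comp 0 a3
    refine ((a1.exp.mul a2).sub a4).congr_deriv ?_
    simp [mul_comm]
  obtain ⟨ε, e1, e2⟩ := ((d1.tendsto_slope_zero_right.eventually (lt_mem_nhds (sub_pos.2 c2))).and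
    self_mem_nhdsWithin).exists
  have e0 : 0 < ε := e2
  have e3 : Ph (s + ε * c) < exp (-(ε ^ 2 * ‖w‖ ^ 2) / 2) * (Ph s + ε * q) := by
    have := (mul_pos_iff_of_pos_left (inv_pos.2 e0)).1 e1
    simpa using this
  have e4 := shift_ge hA (ε • w)
  rw [real_inner_smul_right, hq, ← hs, norm_smul, mul_pow, Real.norm_eq_abs, sq_abs] at e4
  have m1 : ((t, u) : ℝ × ℝ) ∈ {z : ℝ × ℝ | Ph z.2 < (stdGaussian E).real {x | x - z.1 • w ∈ A}} := u1
  have m2 : ((-ε, s + ε * c) : ℝ × ℝ) ∈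
      {z : ℝ × ℝ | Ph z.2 < (stdGaussian E).real {x | x - z.1 • w ∈ A}} := by
    simpa using e3.trans_le e4
  have p : 0 < t + ε := by positivity
  have m3 := hC m1 m2 (a := ε / (t + ε)) (b := t / (t + ε)) (by positivity) (by positivity)
    (by field_simp; ring)
  have z : ε / (t + ε) * t + t / (t + ε) * -ε = 0 := by ring
  simp only [Set.mem_setOf_eq, Prod.smul_mk, Prod.mk_add_mk, smul_eq_mul, z, zero_smul, sub_zero,
    Set.setOf_mem_eq, ← hs, Ph_strictMono.lt_iff_lt] at m3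
  rw [div_mul_eq_mul_div, div_mul_eq_mul_div, ← add_div, div_lt_iff₀ p] at m3
  nlinarith

end Vale.Agent.P226
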