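import Vale.Agent.P226.Crit
import Vale.Agent.P226.EhrN

/-! One-dimensional constraints on a cell. PLAN: lin_indep: if Σ c j • z j = 0 then c is constant (subtract min c using sum0, pair with z at the argmin, obt).
exists_w: x ↦ (⟪z m - z j, x⟫)_{j≠m} is onto (range = ⊤ as its orthogonal complement is trivial), take w ↦ 1; then ⟪z m,w⟫ = (k-1)/k by sum0.
p ∈ (0,1/2]: z m ≠ 0 (obt) and mom give p>0; half_space with u = z m - z j. cap: ‖z‖ = ∫_A ⟪ẑ,x⟫ ≤ b p + E(g-b)_+ with b = -s (int_pos) = ph s.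
δ := F - em(rest) = ∫ (X_m - max_{j≠m} X_j)_+ = ∫_0^∞ γ{t ≤/< ...} (layer cake: integral_eq_integral_meas_lt / Integrable.integral_eq_integral_meas_le), and
{x | t ≤ X_m - X_j ∀ j≠m} ⊆ {x | x - t•w ∈ cell}; translate_le + int_Ph give δ ≤ κ Dd s.  rem: κ x ≤ F - (F-δ)²/F0 ≤ 2δ - δ²/F0 when δ ≤ F0/2
(κ ≤ 4/3, D ≤ .13, F0 > .358), and y ↦ 2y - y²/F0 increases on y ≤ F0. -/
namespace Vale.Agent.P226
open MeasureTheory ProbabilityTheory Real Finset Filter Topology
open scoped RealInnerProductSpace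

variable {E : Type} [NormedAddCommGroup E] [InnerProductSpace ℝ E] [FiniteDimensional ℝ E]
  [MeasurableSpace E] [BorelSpace E] {ι : Type}

lemma F0_bounds : 0.358098 < F0 ∧ F0 < 0.358099 := by
  have h1 := Real.pi_gt_d6
  have h2 := Real.pi_lt_d6
  unfold F0
  constructor
  · rw [lt_div_iff₀ (by positivity)]
    linarith
  · rw [div_lt_iff₀ (by positivity)]
    linarith

lemma kap_bounds [Fintype ι] (h : 4 ≤ Fintype.card ι) : 1 ≤ kap ι ∧ kap ι ≤ 4 / 3 := by
  have h1 : (4 : ℝ) ≤ Fintype.card ι := by exact_mod_cast h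
  unfold kap
  constructor
  · rw [le_div_iff₀ (by linarith)]
    linarith
  · rw [div_le_iff₀ (by linarith)]
    linarith

omit [FiniteDimensional ℝ E] [BorelSpace E] in
lemma cell_lin [Fintype ι] {z : ι → E} (h0 : ∑ i, z i = 0) (h1 : ∀ i j, i ≠ j → ⟪z i, z j⟫ < 0)
    (c : ι → ℝ) (hc : ∑ j, c j • z j = 0) (i j : ι) : c i = c j := by
  obtain ⟨a, -, ha⟩ := exists_min_image univ c ⟨i, mem_univ i⟩
  have e1 : ∑ l, (c l - c a) * ⟪z a, z l⟫ = 0 := by
    simp only [← real_inner_smul_right, ← inner_sum, sub_smul, sum_sub_distrib, ← smul_sum, hc, h0]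
    simp
  have e2 : ∀ l ∈ univ, (c l - c a) * ⟪z a, z l⟫ ≤ 0 := fun l _ => by
    rcases eq_or_ne a l with rfl | hl
    · simp
    · exact mul_nonpos_of_nonneg_of_nonpos (sub_nonneg.2 (ha l (mem_univ l))) (h1 a l hl).le
  have e3 : ∀ l, c l = c a := fun l => by
    rcases eq_or_ne a l with rfl | hl
    · rfl
    · exact sub_eq_zero.1 ((mul_eq_zero.1 ((sum_eq_zero_iff_of_nonpos e2).1 e1 l
        (mem_univ l))).resolve_right (h1 a l hl).ne)
  rw [e3 i, e3 j]

lemma exists_w [Fintype ι] {z : ι → E} (h : Crit z) (m : ι) :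
    ∃ w : E, (∀ j, j ≠ m → ⟪z m - z j, w⟫ = 1) ∧ ⟪z m, w⟫ = (kap ι)⁻¹ := by
  classical
  have k4 : (4 : ℝ) ≤ Fintype.card ι := by exact_mod_cast h.card
  obtain ⟨g, hg⟩ := (Fintype.linearCombination ℝ (rest z m)).exists_leftInverse_of_injective (by
    refine LinearMap.ker_eq_bot'.2 fun c hc => funext fun j => ?_
    have := cell_lin h.sum0 h.obt (fun i => if h : i = m then 0 else c ⟨i, h⟩) (by
      rw [Fintype.sum_eq_add_sum_subtype_ne _ m, ← hc, Fintype.linearCombination_apply]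
      simp only [dite_true, zero_smul, zero_add]
      exact sum_congr rfl fun i _ => by rw [dif_neg i.2]; rfl) j.1 m
    simpa [j.2] using this)
  let f : E →ₗ[ℝ] ℝ := (Fintype.linearCombination ℝ fun _ => -(Fintype.card ι : ℝ)⁻¹) ∘ₗ g
  have f1 : ∀ j, j ≠ m → f (z j) = -(Fintype.card ι : ℝ)⁻¹ := fun j hj => by
    have e : z j = Fintype.linearCombination ℝ (rest z m) (Pi.single ⟨j, hj⟩ 1) := by
      rw [Fintype.linearCombination_apply_single, one_smul]
      rfl
    have e2 := LinearMap.congr_fun hg (Pi.single ⟨j, hj⟩ 1)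
    rw [LinearMap.comp_apply, ← e, LinearMap.id_apply] at e2
    simp only [f, LinearMap.comp_apply, e2, Fintype.linearCombination_apply_single, one_smul]
  have f2 : f (z m) = 1 - (Fintype.card ι : ℝ)⁻¹ := by
    have e := congrArg f h.sum0
    rw [map_sum, map_zero, ← add_sum_erase _ _ (mem_univ m),
      sum_congr rfl fun j hj => f1 j (ne_of_mem_erase hj), sum_const, card_erase_of_mem (mem_univ m),
      card_univ, nsmul_eq_mul, Nat.cast_sub (by have := h.card; omega)] at e
    have e2 : (Fintype.card ι : ℝ) * (Fintype.card ι : ℝ)⁻¹ = 1 := mul_inv_cancel₀ (by linarith)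
    push_cast at e
    linarith
  have key : ∀ x, ⟪x, (InnerProductSpace.toDual ℝ E).symm (LinearMap.toContinuousLinearMap f)⟫ = f x :=
    fun x => by
      rw [real_inner_comm, InnerProductSpace.toDual_symm_apply]
      rfl
  refine ⟨(InnerProductSpace.toDual ℝ E).symm (LinearMap.toContinuousLinearMap f),
    fun j hj => ?_, ?_⟩
  · rw [key, map_sub, f1 j hj, f2]
    ring
  · rw [key, f2, kap, inv_div]
    field_simp

theorem cell_ok [Fintype ι] {z : ι → E} (h : Crit z) (m : ι) :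
    ∃ D, CellOK (kap ι) (pc z m) (‖z m‖ ^ 2) D ∧ ∑ a, ‖z a‖ ^ 2 - em (rest z m) ≤ kap ι * D := by
  classical
  obtain ⟨j, hj⟩ := Fintype.exists_ne_of_one_lt_card (by have := h.card; omega) m
  haveI : Nonempty ι := ⟨m⟩
  haveI : Nonempty {j // j ≠ m} := ⟨⟨j, hj⟩⟩
  obtain ⟨k1, k2⟩ := kap_bounds h.card
  have z0 : z m ≠ 0 := fun e => by simpa [e] using h.obt j m hj
  have z1 : z m - z j ≠ 0 := fun e => by
    have := h.obt j m hj
    rw [sub_eq_zero.1 e] at this
    exact absurd real_inner_self_nonneg (not_le.2 this)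
  have p0 : 0 < pc z m := by
    refine lt_of_le_of_ne measureReal_nonneg fun e => z0 ?_
    rw [← h.mom m]
    exact setIntegral_measure_zero _ ((measureReal_eq_zero_iff).1 e.symm)
  have p1 : pc z m ≤ 1 / 2 := by
    rw [← half_space z1]
    refine measureReal_mono fun x hx => ?_
    rw [Set.mem_setOf_eq, inner_sub_left]
    exact sub_nonneg.2 (hx j)
  obtain ⟨s, hs⟩ := Ph_surj p0 (by linarith)
  have s0 : s ≤ 0 := Ph_strictMono.le_iff_le.1 (by rw [hs, Ph_zero]; exact p1)
  have hid : Integrable (fun x : E => x) (stdGaussian E) := IsGaussian.integrable_fun_id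
  have cap : ‖z m‖ ≤ ph s := by
    obtain ⟨u, hu⟩ : ∃ u : E, u = ‖z m‖⁻¹ • z m := ⟨_, rfl⟩
    have n0 : 0 < ‖z m‖ := norm_pos_iff.2 z0
    have u1 : ‖u‖ = 1 := by rw [hu, norm_smul, norm_inv, norm_norm, inv_mul_cancel₀ n0.ne']
    have i1 : Integrable (fun x => max (⟪u, x⟫ - -s) 0) (stdGaussian E) :=
      ((integrable_inner u).sub (integrable_const _)).pos_part
    have e1 : ‖z m‖ = ∫ x in cell z m, ⟪u, x⟫ ∂(stdGaussian E) := by
      rw [_root_.integral_inner hid.integrableOn, h.mom m, hu, real_inner_smul_left,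
        real_inner_self_eq_norm_sq]
      field_simp
    have e2 : ∫ x in cell z m, ⟪u, x⟫ ∂(stdGaussian E) ≤
        ∫ x in cell z m, (-s + max (⟪u, x⟫ - -s) 0) ∂(stdGaussian E) :=
      integral_mono (integrable_inner u).integrableOn ((integrable_const _).add i1.integrableOn)
        fun x => by linarith [le_max_left (⟪u, x⟫ - -s) 0]
    rw [integral_add (integrable_const _) i1.integrableOn, setIntegral_const] at e2
    have e3 : ∫ x in cell z m, max (⟪u, x⟫ - -s) 0 ∂(stdGaussian E) ≤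
        ∫ x, max (⟪u, x⟫ - -s) 0 ∂(stdGaussian E) :=
      setIntegral_le_integral i1 (.of_forall fun x => le_max_right _ _)
    rw [integral_inner u (fun t => max (t - -s) 0) (by fun_prop)] at e3
    simp only [u1, one_mul] at e3
    rw [int_pos, neg_neg, Hh, hs] at e3
    change _ ≤ pc z m • -s + _ at e2
    rw [smul_eq_mul] at e2
    linarith
  obtain ⟨w, w1, w2⟩ := exists_w h m
  have a0 : 0 < (kap ι)⁻¹ / ph s := div_pos (inv_pos.2 (by linarith)) (ph_pos s)
  have del : ∑ a, ‖z a‖ ^ 2 - em (rest z m) ≤ kap ι * Dd s := by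
    have i1 : Integrable (fun x => max (⟪z m, x⟫ - ⨆ i, ⟪rest z m i, x⟫) 0) (stdGaussian E) :=
      ((integrable_inner _).sub (integrable_sup _)).pos_part
    have e1 : em z - em (rest z m) ≤
        ∫ x, max (⟪z m, x⟫ - ⨆ i, ⟪rest z m i, x⟫) 0 ∂(stdGaussian E) := by
      rw [em, em, ← integral_sub (integrable_sup _) (integrable_sup _)]
      refine integral_mono ((integrable_sup _).sub (integrable_sup _)) i1 fun x => ?_
      refine sub_le_iff_le_add.2 (ciSup_le fun i => ?_)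
      rcases eq_or_ne i m with rfl | hi
      · linarith [le_max_left (⟪z i, x⟫ - ⨆ l, ⟪rest z i l, x⟫) 0]
      · have := le_ciSup (f := fun l => ⟪rest z m l, x⟫) (Set.finite_range _).bddAbove ⟨i, hi⟩
        change ⟪z i, x⟫ ≤ _ at this
        linarith [le_max_right (⟪z m, x⟫ - ⨆ l, ⟪rest z m l, x⟫) 0]
    rw [i1.integral_eq_integral_meas_le (.of_forall fun x => le_max_right _ _), h.emz] at e1
    refine e1.trans ((integral_mono_of_nonneg (.of_forall fun t => measureReal_nonneg)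
      (int_Ph a0 s).1 (ae_restrict_of_forall_mem measurableSet_Ioi fun t ht => ?_)).trans ?_)
    · refine le_trans (measureReal_mono (s₂ := {x | x - t • w ∈ cell z m}) fun x hx i => ?_)
        (translate_le (cell_meas z m) (cell_convex z m) w hs (by rw [h.mom m, w2]) (le_of_lt ht))
      rcases eq_or_ne i m with rfl | hi
      · exact le_rfl
      · have e2 : t ≤ ⟪z m, x⟫ - ⨆ l, ⟪rest z m l, x⟫ :=
          (le_max_iff.1 hx).resolve_right (not_le.2 ht)
        have e3 := le_ciSup (f := fun l => ⟪rest z m l, x⟫) (Set.finite_range _).bddAbove ⟨i, hi⟩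
        change ⟪z i, x⟫ ≤ _ at e3
        have e4 := w1 i hi
        rw [inner_sub_left] at e4
        rw [inner_sub_right, inner_sub_right, real_inner_smul_right, real_inner_smul_right]
        have e5 : t * ⟪z m, w⟫ = t * ⟪z i, w⟫ + t := by rw [← mul_add_one, ← e4]; ring
        linarith
    · rw [(int_Ph a0 s).2, Dd]
      have := ph_pos s
      refine le_of_eq ?_
      field_simp
  refine ⟨Dd s, ⟨s, s0, hs, rfl, sq_nonneg _, pow_le_pow_left₀ (norm_nonneg _) cap 2, fun hD => ?_⟩,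
    del⟩
  have D0 : 0 < Dd s := mul_pos (ph_pos s) (Hh_pos s)
  obtain ⟨b1, -⟩ := F0_bounds
  have b2 := h.big
  have b3 := h.rem m
  have y1 : kap ι * Dd s ≤ 4 / 3 * (13 / 100) := mul_le_mul k2 hD D0.le (by norm_num)
  have y2 : (∑ a, ‖z a‖ ^ 2 - kap ι * Dd s) ^ 2 ≤ em (rest z m) ^ 2 :=
    pow_le_pow_left₀ (by linarith) (by linarith) 2
  have y3 : 0 ≤ (∑ a, ‖z a‖ ^ 2 - F0) * (∑ a, ‖z a‖ ^ 2 - 2 * (kap ι * Dd s)) :=
    mul_nonneg (by linarith) (by linarith)
  have F1 : 0 < F0 := by linarith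
  have y4 : kap ι * (kap ι * Dd s ^ 2) ≤ kap ι * ((2 * Dd s - ‖z m‖ ^ 2) * F0) := by nlinarith
  have y5 := (div_le_iff₀ F1).2 (le_of_mul_le_mul_left y4 (by linarith))
  linarith

end Vale.Agent.P226
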