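import Vale.Agent.P226.Law

/-! Expected maxima; existence of a critical configuration. PLAN (exists_crit): f = em is continuous (|em v - em v'| ≤ C Σ‖v i - v' i‖), 1-homogeneous, ≥ 0, shift invariant.
If Bound (n+1) fails take ι, v (card = n+1 by hB), maximise em on the compact set Σ‖v i‖² = 1 (or ≤ 1) in ι → E, max = √F, F > F0; rescale z so em z = Σ‖z i‖² = F and
em u ≤ √F √(Σ‖u‖²) for all u. z injective (else drop a duplicate: em z = em (rest), hB). Cells: a.e. partition (hyper_null). c i = ∫_{cell} x: Σ⟪c i,z i⟫ = em z = F,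
Σ‖c‖² ≤ em c (part_le) ≤ √F‖c‖ so Σ‖c - z‖² ≤ 0. sum0 from ∫ x = 0. obt: merge cells i,j (family on {l ≠ j}, cell i ∪ cell j): part_le and hB give F + 2⟪z i,z j⟫ ≤ F0.
rem: hB for rest z m shifted by z m/(k-1). -/
namespace Vale.Agent.P226
open MeasureTheory ProbabilityTheory Real Finset Filter Topology
open scoped RealInnerProductSpace

variable {E : Type} [NormedAddCommGroup E] [InnerProductSpace ℝ E] [FiniteDimensional ℝ E]
  [MeasurableSpace E] [BorelSpace E] {ι : Type}

lemma Crit_le [Fintype ι] (v : ι → E) (x : E) (i : ι) : ⟪v i, x⟫ ≤ ⨆ j, ⟪v j, x⟫ :=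
  le_ciSup (f := fun j => ⟪v j, x⟫) (Set.finite_range _).bddAbove i

lemma Crit_id : Integrable (fun x : E => x) (stdGaussian E) := IsGaussian.integrable_fun_id

lemma Crit_zero (u : E) : ∫ x, ⟪u, x⟫ ∂(stdGaussian E) = 0 := by
  rw [_root_.integral_inner Crit_id, integral_id_stdGaussian, inner_zero_right]

lemma integrable_sup [Fintype ι] [Nonempty ι] (v : ι → E) :
    Integrable (fun x => ⨆ i, ⟪v i, x⟫) (stdGaussian E) := by
  refine Integrable.mono' (integrable_finsetSum univ fun i _ => (integrable_inner (v i)).abs)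
    (Measurable.iSup fun i => by fun_prop).aestronglyMeasurable (ae_of_all _ fun x => ?_)
  obtain ⟨i, hi⟩ := exists_eq_ciSup_of_finite (f := fun j => ⟪v j, x⟫)
  rw [← hi]
  exact single_le_sum (f := fun j => |⟪v j, x⟫|) (fun _ _ => abs_nonneg _) (mem_univ i)

lemma em_nonneg [Fintype ι] [Nonempty ι] (v : ι → E) : 0 ≤ em v := by
  obtain ⟨i⟩ := ‹Nonempty ι›
  rw [← Crit_zero (v i)]
  exact integral_mono (integrable_inner _) (integrable_sup v) fun x => Crit_le v x i

lemma em_shift [Fintype ι] [Nonempty ι] (v : ι → E) (a : E) : em (fun i => v i + a) = em v := by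
  have e : ∀ x, (⨆ i, ⟪v i + a, x⟫) = (⨆ i, ⟪v i, x⟫) + ⟪a, x⟫ := fun x => by
    rw [ciSup_add (Set.finite_range _).bddAbove]
    simp only [inner_add_left]
  unfold em
  simp only [e]
  rw [integral_add (integrable_sup v) (integrable_inner a), Crit_zero, add_zero]

lemma em_mono {ι' : Type} [Fintype ι] [Nonempty ι] [Fintype ι'] [Nonempty ι'] (v : ι → E) (v' : ι' → E)
    (h : ∀ i, ∃ j, v i = v' j) : em v ≤ em v' :=
  integral_mono (integrable_sup v) (integrable_sup v') fun x => ciSup_le fun i => by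
    obtain ⟨j, hj⟩ := h i
    rw [hj]
    exact Crit_le v' x j

lemma cell_meas [Fintype ι] (v : ι → E) (i : ι) : MeasurableSet (cell v i) := by
  have e : cell v i = ⋂ j, {x | ⟪v j, x⟫ ≤ ⟪v i, x⟫} := by
    ext x
    simp [cell]
  rw [e]
  exact (isClosed_iInter fun j => isClosed_le (by fun_prop) (by fun_prop)).measurableSet

lemma cell_convex (v : ι → E) (i : ι) : Convex ℝ (cell v i) := by
  intro x hx y hy a b ha hb _ j
  simp only [inner_add_right, inner_smul_right]
  exact add_le_add (mul_le_mul_of_nonneg_left (hx j) ha) (mul_le_mul_of_nonneg_left (hy j) hb)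

lemma Crit_part {G : Type} [NormedAddCommGroup G] [NormedSpace ℝ G] [Fintype ι] (A : ι → Set E)
    (hA : ∀ i, NullMeasurableSet (A i) (stdGaussian E))
    (hd : Pairwise fun i j => AEDisjoint (stdGaussian E) (A i) (A j))
    (hu : ∀ᵐ x ∂(stdGaussian E), ∃ i, x ∈ A i) {f : E → G} (hf : Integrable f (stdGaussian E)) :
    ∑ i, ∫ x in A i, f x ∂(stdGaussian E) = ∫ x, f x ∂(stdGaussian E) := by
  rw [← tsum_fintype (L := SummationFilter.unconditional ι), ← integral_iUnion_ae hA hd hf.integrableOn,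
    Measure.restrict_eq_self_of_ae_mem (hu.mono fun x hx => Set.mem_iUnion.2 hx)]

/-- any a.e. partition -/
lemma part_le [Fintype ι] [Nonempty ι] (A : ι → Set E) (hA : ∀ i, NullMeasurableSet (A i) (stdGaussian E))
    (hd : Pairwise fun i j => AEDisjoint (stdGaussian E) (A i) (A j))
    (hu : ∀ᵐ x ∂(stdGaussian E), ∃ i, x ∈ A i) (v : ι → E) :
    ∑ i, ⟪v i, ∫ x in A i, x ∂(stdGaussian E)⟫ ≤ em v := by
  rw [em, ← Crit_part A hA hd hu (integrable_sup v)]
  refine sum_le_sum fun i _ => ?_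
  rw [← _root_.integral_inner Crit_id.integrableOn]
  exact integral_mono (integrable_inner _).integrableOn (integrable_sup v).integrableOn
    fun x => Crit_le v x i

lemma Crit_smul (v : ι → E) {t : ℝ} (ht : 0 ≤ t) : em (t • v) = t * em v := by
  unfold em
  rw [← integral_const_mul]
  simp only [Pi.smul_apply, real_inner_smul_left, Real.mul_iSup_of_nonneg ht]

lemma Crit_cont [Fintype ι] [Nonempty ι] : Continuous (em : (ι → E) → ℝ) := by
  have h0 : 0 ≤ ∫ x, ‖x‖ ∂(stdGaussian E) := integral_nonneg fun x => norm_nonneg x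
  refine (LipschitzWith.of_le_add_mul ⟨_, h0⟩ fun v w => ?_).continuous
  change em v ≤ em w + (∫ x, ‖x‖ ∂(stdGaussian E)) * dist v w
  rw [← integral_mul_const, em, em, ← integral_add (integrable_sup w) (Crit_id.norm.mul_const _)]
  refine integral_mono (integrable_sup v) ((integrable_sup w).add (Crit_id.norm.mul_const _))
    fun x => ciSup_le fun i => ?_
  have h1 := real_inner_le_norm (v i - w i) x
  have h2 := mul_le_mul_of_nonneg_right (dist_le_pi_dist v w i) (norm_nonneg x)
  have h3 := Crit_le w x i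
  rw [inner_sub_left] at h1
  rw [dist_eq_norm] at h2
  beta_reduce
  linarith

lemma Crit_max [Fintype ι] [Nonempty ι] : ∃ z : ι → E, em z = ∑ i, ‖z i‖ ^ 2 ∧
    ∀ u : ι → E, em u ^ 2 ≤ em z * ∑ i, ‖u i‖ ^ 2 := by
  have hK : IsCompact {v : ι → E | ∑ i, ‖v i‖ ^ 2 ≤ 1} := by
    refine Metric.isCompact_of_isClosed_isBounded (isClosed_le (by fun_prop) continuous_const)
      ((Metric.isBounded_closedBall (x := (0 : ι → E)) (r := 1)).subset fun v hv => ?_)
    rw [mem_closedBall_zero_iff, pi_norm_le_iff_of_nonneg zero_le_one]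
    intro i
    have := (single_le_sum (f := fun j => ‖v j‖ ^ 2) (fun _ _ => sq_nonneg _) (mem_univ i)).trans hv
    nlinarith [norm_nonneg (v i)]
  obtain ⟨w, hw, hm⟩ := hK.exists_isMaxOn ⟨0, by simp⟩ Crit_cont.continuousOn
  have m0 := em_nonneg w
  have sc : ∀ (t : ℝ) (u : ι → E), ∑ i, ‖(t • u) i‖ ^ 2 = t ^ 2 * ∑ i, ‖u i‖ ^ 2 := fun t u => by
    simp only [Pi.smul_apply, norm_smul, mul_pow, Real.norm_eq_abs, sq_abs, mul_sum]
  have key : ∀ u : ι → E, em u ^ 2 ≤ em w ^ 2 * ∑ i, ‖u i‖ ^ 2 := fun u => by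
    have s0 : 0 ≤ ∑ i, ‖u i‖ ^ 2 := sum_nonneg fun _ _ => sq_nonneg _
    rcases s0.eq_or_lt with h | h
    · have e : u = (0 : ℝ) • u := by
        funext i
        have := (sum_eq_zero_iff_of_nonneg fun _ _ => sq_nonneg _).1 h.symm i (mem_univ i)
        simpa using this
      rw [← h, e, Crit_smul u le_rfl]
      simp
    · have hN := Real.sqrt_pos.2 h
      have h1 : em ((√(∑ i, ‖u i‖ ^ 2))⁻¹ • u) ≤ em w := hm (by
        change ∑ i, ‖((√(∑ i, ‖u i‖ ^ 2))⁻¹ • u) i‖ ^ 2 ≤ 1
        rw [sc, inv_pow, Real.sq_sqrt s0, inv_mul_cancel₀ h.ne'])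
      rw [Crit_smul u (inv_pos.2 hN).le, inv_mul_le_iff₀ hN] at h1
      have h2 := pow_le_pow_left₀ (em_nonneg u) h1 2
      rwa [mul_pow, Real.sq_sqrt s0, mul_comm] at h2
  refine ⟨em w • w, ?_, fun u => ?_⟩
  · rw [Crit_smul w m0, sc]
    have h1 := key w
    have h2 := mul_le_mul_of_nonneg_left (show ∑ i, ‖w i‖ ^ 2 ≤ 1 from hw) (sq_nonneg (em w))
    linarith
  · rw [Crit_smul w m0, ← sq]
    exact key u

theorem exists_crit {n : ℕ} (hn : 3 ≤ n) (hB : Bound E n) (h : ¬ Bound E (n + 1)) :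
    ∃ (ι : Type) (_ : Fintype ι) (z : ι → E), Crit z := by
  classical
  unfold Bound at h
  push Not at h
  obtain ⟨ι, _, _, hc, v, hv⟩ := h
  have hk : Fintype.card ι = n + 1 := by
    by_contra h1
    exact absurd (hB ι (by omega) v) (not_le.2 hv)
  obtain ⟨z, z1, z2⟩ := Crit_max (E := E) (ι := ι)
  have F0p : 0 < F0 := by unfold F0; positivity
  have big : F0 < em z :=
    lt_of_mul_lt_mul_right (hv.trans_le (z2 v)) (sum_nonneg fun _ _ => sq_nonneg _)
  have ne : ∀ m : ι, Nonempty {j // j ≠ m} := fun m => by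
    obtain ⟨j, hj⟩ := Fintype.exists_ne_of_one_lt_card (by omega) m
    exact ⟨⟨j, hj⟩⟩
  have rb : ∀ (u : ι → E) (m : ι), em (rest u m) ^ 2 ≤ F0 * (∑ i, ‖u i‖ ^ 2 - ‖u m‖ ^ 2) := fun u m => by
    have := ne m
    have h1 := hB {j // j ≠ m} (by simp [Fintype.card_subtype_compl, hk]) (rest u m)
    rw [Fintype.sum_eq_add_sum_subtype_ne (fun i => ‖u i‖ ^ 2) m, add_sub_cancel_left]
    exact h1
  have dup : ∀ (u : ι → E) (i j : ι), i ≠ j → u i = u j →
      em u ^ 2 ≤ F0 * (∑ a, ‖u a‖ ^ 2 - ‖u j‖ ^ 2) := fun u i j hij e => by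
    have := ne j
    refine (pow_le_pow_left₀ (em_nonneg u) (em_mono u (rest u j) fun a => ?_) 2).trans (rb u j)
    by_cases ha : a = j
    · exact ⟨⟨i, hij⟩, by rw [ha, ← e]; rfl⟩
    · exact ⟨⟨a, ha⟩, rfl⟩
  have inj : ∀ i j, i ≠ j → z i - z j ≠ 0 := fun i j hij e => by
    have h1 := dup z i j hij (sub_eq_zero.1 e)
    rw [← z1] at h1
    nlinarith [mul_nonneg F0p.le (sq_nonneg ‖z j‖)]
  have hA : ∀ i, NullMeasurableSet (cell z i) (stdGaussian E) := fun i => (cell_meas z i).nullMeasurableSet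
  have hd : Pairwise fun i j => AEDisjoint (stdGaussian E) (cell z i) (cell z j) := fun i j hij =>
    measure_mono_null (fun x hx => by
      change ⟪z i - z j, x⟫ = 0
      rw [inner_sub_left, sub_eq_zero]
      exact le_antisymm (hx.2 i) (hx.1 j)) (hyper_null (inj i j hij))
  have hu : ∀ᵐ x ∂(stdGaussian E), ∃ i, x ∈ cell z i :=
    ae_of_all _ fun x => Finite.exists_max fun j => ⟪z j, x⟫
  have mom : ∀ i, ∫ x in cell z i, x ∂(stdGaussian E) = z i := by
    set c : ι → E := fun i => ∫ x in cell z i, x ∂(stdGaussian E) with hc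
    have h1 : ∑ i, ⟪z i, c i⟫ = em z := by
      rw [em, ← Crit_part _ hA hd hu (integrable_sup z)]
      refine sum_congr rfl fun i _ => ?_
      rw [← _root_.integral_inner Crit_id.integrableOn]
      exact setIntegral_congr_fun (cell_meas z i) fun x hx =>
        le_antisymm (Crit_le z x i) (ciSup_le hx)
    have h2 : ∑ i, ‖c i‖ ^ 2 ≤ em c := by
      simp only [← real_inner_self_eq_norm_sq]
      exact part_le _ hA hd hu c
    have s0 : 0 ≤ ∑ i, ‖c i‖ ^ 2 := sum_nonneg fun _ _ => sq_nonneg _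
    have h3 : ∑ i, ‖c i‖ ^ 2 ≤ em z := by
      have h4 := (pow_le_pow_left₀ s0 h2 2).trans (z2 c)
      by_contra h5
      nlinarith
    have h4 : ∑ i, ‖z i - c i‖ ^ 2 ≤ 0 := by
      simp only [norm_sub_sq_real, sum_add_distrib, sum_sub_distrib, ← mul_sum]
      linarith
    intro i
    have h5 := (single_le_sum (f := fun j => ‖z j - c j‖ ^ 2) (fun _ _ => sq_nonneg _)
      (mem_univ i)).trans h4
    have h6 : ‖z i - c i‖ = 0 := by nlinarith [norm_nonneg (z i - c i)]
    exact (sub_eq_zero.1 (norm_eq_zero.1 h6)).symm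
  have sum0 : ∑ i, z i = 0 := by
    rw [← integral_id_stdGaussian (E := E), ← Crit_part _ hA hd hu Crit_id]
    simp only [mom]
  refine ⟨ι, inferInstance, z, by omega, sum0, fun i j hij => ?_, mom, ?_, z1 ▸ big, z1, fun m => ?_⟩
  · let u : ι → E := fun a => if a = i ∨ a = j then z i + z j else z a
    have h1 := part_le _ hA hd hu u
    simp only [mom] at h1
    have h2 := dup u i j hij (by simp [u])
    have e1 : ∑ a, ⟪u a, z a⟫ = em z + 2 * ⟪z i, z j⟫ := by
      have : ∀ a, ⟪u a, z a⟫ = ‖z a‖ ^ 2 + (if a = i then ⟪z i, z j⟫ else 0) +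
          if a = j then ⟪z i, z j⟫ else 0 := fun a => by
        by_cases h1 : a = i
        · subst h1
          simp [u, hij, inner_add_left, real_inner_comm]
        · by_cases h2 : a = j
          · subst h2
            simp [u, hij.symm, inner_add_left, add_comm]
          · simp [u, h1, h2]
      simp only [this, sum_add_distrib, sum_ite_eq', mem_univ, if_true, z1]
      ring
    have e2 : ∑ a, ‖u a‖ ^ 2 - ‖u j‖ ^ 2 = em z + 2 * ⟪z i, z j⟫ := by
      have : ∀ a, ‖u a‖ ^ 2 = ‖z a‖ ^ 2 + (if a = i then ‖z i + z j‖ ^ 2 - ‖z i‖ ^ 2 else 0) +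
          if a = j then ‖z i + z j‖ ^ 2 - ‖z j‖ ^ 2 else 0 := fun a => by
        by_cases h1 : a = i
        · subst h1
          simp [u, hij]
        · by_cases h2 : a = j
          · subst h2
            simp [u, hij.symm]
          · simp [u, h1, h2]
      rw [sum_congr rfl fun a _ => this a]
      simp only [sum_add_distrib, sum_ite_eq', mem_univ, if_true, z1, u, or_true, norm_add_sq_real]
      ring
    rw [e1] at h1
    rw [e2] at h2
    by_contra h3
    have h4 : F0 < em z + 2 * ⟪z i, z j⟫ := by linarith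
    have h5 := (pow_le_pow_left₀ (by linarith) h1 2).trans h2
    nlinarith
  · have h1 := Crit_part _ hA hd hu (integrable_const (1 : ℝ))
    simpa [pc] using h1
  · have := ne m
    have k0 : (Fintype.card ι : ℝ) - 1 ≠ 0 := by
      rw [hk]
      push_cast
      have : (3 : ℝ) ≤ n := by exact_mod_cast hn
      linarith
    set t : ℝ := ((Fintype.card ι : ℝ) - 1)⁻¹ with ht
    have h1 := rb (fun a => z a + t • z m) m
    have h2 : em (rest (fun a => z a + t • z m) m) = em (rest z m) := em_shift (rest z m) (t • z m)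
    rw [h2] at h1
    refine h1.trans (le_of_eq ?_)
    congr 1
    simp only [norm_add_sq_real, sum_add_distrib, ← mul_sum, ← sum_inner, sum0, inner_zero_left,
      sum_const, card_univ, nsmul_eq_mul, norm_smul, mul_pow, Real.norm_eq_abs, sq_abs,
      real_inner_smul_right, real_inner_self_eq_norm_sq, kap, ht]
    field_simp
    ring

end Vale.Agent.P226
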