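import Mathlib

namespace Vale.Agent.P226
open MeasureTheory ProbabilityTheory Real Finset
open scoped RealInnerProductSpace

/-- standard normal density -/
noncomputable def ph (t : ℝ) : ℝ := (√(2 * π))⁻¹ * exp (-t ^ 2 / 2)
/-- standard normal law -/
noncomputable abbrev gg : Measure ℝ := gaussianReal 0 1
/-- standard normal cdf -/
noncomputable def Ph (t : ℝ) : ℝ := gg.real (Set.Iic t)
noncomputable def Hh (s : ℝ) : ℝ := ph s + s * Ph s
noncomputable def Dd (s : ℝ) : ℝ := ph s * Hh s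
noncomputable def F0 : ℝ := 9 / (8 * π)

variable {E : Type} [NormedAddCommGroup E] [InnerProductSpace ℝ E] [FiniteDimensional ℝ E]
  [MeasurableSpace E] [BorelSpace E] {ι : Type}

/-- expected maximum -/
noncomputable def em (v : ι → E) : ℝ := ∫ x, (⨆ i, ⟪v i, x⟫) ∂(stdGaussian E)
def cell (v : ι → E) (i : ι) : Set E := {x | ∀ j, ⟪v j, x⟫ ≤ ⟪v i, x⟫}
noncomputable def pc (v : ι → E) (i : ι) : ℝ := (stdGaussian E).real (cell v i)
def rest (v : ι → E) (m : ι) : {j // j ≠ m} → E := fun j => v j.1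

variable (E) in
/-- the conjecture for at most `n` vectors -/
def Bound (n : ℕ) : Prop := ∀ (ι : Type) [Fintype ι] [Nonempty ι], Fintype.card ι ≤ n →
  ∀ v : ι → E, em v ^ 2 ≤ F0 * ∑ i, ‖v i‖ ^ 2

noncomputable def kap (ι : Type) [Fintype ι] : ℝ := (Fintype.card ι : ℝ) / (Fintype.card ι - 1)

/-- a minimal counterexample -/
structure Crit [Fintype ι] (z : ι → E) : Prop where
  card : 4 ≤ Fintype.card ι
  sum0 : ∑ i, z i = 0
  obt : ∀ i j, i ≠ j → ⟪z i, z j⟫ < 0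
  mom : ∀ i, ∫ x in cell z i, x ∂(stdGaussian E) = z i
  psum : ∑ i, pc z i = 1
  big : F0 < ∑ i, ‖z i‖ ^ 2
  emz : em z = ∑ i, ‖z i‖ ^ 2
  rem : ∀ m, em (rest z m) ^ 2 ≤ F0 * (∑ i, ‖z i‖ ^ 2 - kap ι * ‖z m‖ ^ 2)

/-- one-dimensional information on a cell: mass `p`, squared moment `x` -/
def CellOK (κ p x D : ℝ) : Prop := ∃ s : ℝ, s ≤ 0 ∧ Ph s = p ∧ Dd s = D ∧ 0 ≤ x ∧ x ≤ ph s ^ 2 ∧
  (D ≤ 13 / 100 → x ≤ 2 * D - κ * D ^ 2 / F0)

/-- Ehrhard's inequality with parameters -/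
def Ehr (Ω : Type) [AddCommGroup Ω] [Module ℝ Ω] [MeasurableSpace Ω] (μ : Measure Ω) : Prop :=
  ∀ (P : Type) [AddCommGroup P] [Module ℝ P] (K : Set (P × Ω)), Convex ℝ K →
    (∀ e, MeasurableSet {x | (e, x) ∈ K}) →
    Convex ℝ {q : P × ℝ | Ph q.2 < μ.real {x | (q.1, x) ∈ K}}

end Vale.Agent.P226
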