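import Vale.Agent.P226.Gauss

/-! Planar rearrangement bound. PLAN: density φ₂ = ph x ph y; for θ ∈ (0,1], c = θ/(2π): ∫_R φ₂ ≤ c·area + ∫(φ₂ - c)_+ = c·area + 1 - θ + θ log θ
(polar coordinates, integral_comp_polarCoord_symm; the positive part lives on r² ≤ -2 log θ); take θ = exp(-a/(2π)).
tri_area: Fubini / volume_regionBetween: for fixed x ∈ [-(τ+c2)v/(c1 r), v/r] the y-slice is an interval of length (v + (τ v + c1 r x)/c2)/γ. -/
namespace Vale.Agent.P226
open MeasureTheory ProbabilityTheory Real Finset Filter Topology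
open scoped RealInnerProductSpace

lemma disc_int {f F : ℝ → ℝ} {x y : ℝ} (hxy : x ≤ y) (hf : Continuous f) (hF : ∀ t, HasDerivAt F (f t) t)
    (h0 : ∀ t ∈ Set.Ioc x y, 0 ≤ f t) :
    ∫⁻ t in Set.Ioc x y, ENNReal.ofReal (f t) = ENNReal.ofReal (F y - F x) := by
  rw [← ofReal_integral_eq_lintegral_ofReal (hf.integrableOn_Icc.mono_set Set.Ioc_subset_Icc_self)
    ((ae_restrict_iff' measurableSet_Ioc).2 (Eventually.of_forall h0)),
    ← intervalIntegral.integral_of_le hxy,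
    intervalIntegral.integral_eq_sub_of_hasDerivAt (fun t _ => hF t) (hf.intervalIntegrable _ _)]

lemma disc_dens : gg.prod gg = (volume : Measure (ℝ × ℝ)).withDensity
    fun z => ENNReal.ofReal ((2 * π)⁻¹ * exp (-(z.1 ^ 2 + z.2 ^ 2) / 2)) := by
  rw [gg, gaussianReal_of_var_ne_zero _ one_ne_zero,
    prod_withDensity (measurable_gaussianPDF _ _) (measurable_gaussianPDF _ _), Measure.volume_eq_prod]
  congr 1
  funext z
  rw [gaussianPDF, gaussianPDF, ← ENNReal.ofReal_mul (gaussianPDFReal_nonneg _ _ _), gaussianPDFReal,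
    gaussianPDFReal]
  congr 1
  simp only [NNReal.coe_one, mul_one, sub_zero]
  rw [mul_mul_mul_comm, ← mul_inv, Real.mul_self_sqrt (by positivity), ← exp_add]
  congr 2
  ring

theorem disc {R : Set (ℝ × ℝ)} (hR : MeasurableSet R) {a : ℝ} (ha : 0 ≤ a) (h : volume R ≤ ENNReal.ofReal a) :
    (gg.prod gg).real R ≤ 1 - exp (-a / (2 * π)) := by
  have pp := pi_pos
  obtain ⟨θ, hθ⟩ : ∃ θ, θ = exp (-a / (2 * π)) := ⟨_, rfl⟩
  obtain ⟨ρ, hρ⟩ : ∃ ρ, ρ = √(a / π) := ⟨_, rfl⟩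
  have ρ0 : 0 ≤ ρ := hρ ▸ sqrt_nonneg _
  have ρ2 : ρ ^ 2 = a / π := by rw [hρ, sq_sqrt (by positivity)]
  have e : exp (-ρ ^ 2 / 2) = θ := by rw [hθ, ρ2]; congr 1; field_simp
  have θ0 : 0 < θ := hθ ▸ exp_pos _
  have θ1 : θ * (1 + a / (2 * π)) ≤ 1 := by
    have := add_one_le_exp (a / (2 * π))
    rw [hθ, neg_div, exp_neg, inv_mul_le_iff₀ (exp_pos _)]
    linarith
  have c0 : 0 ≤ (2 * π)⁻¹ * θ := by positivity
  have i1 : ∫⁻ r in Set.Ioi (0 : ℝ), ENNReal.ofReal r *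
      ENNReal.ofReal ((2 * π)⁻¹ * exp (-r ^ 2 / 2) - (2 * π)⁻¹ * θ) ≤
      ENNReal.ofReal ((2 * π)⁻¹ * (1 - θ * (1 + a / (2 * π)))) := by
    rw [← Set.Ioc_union_Ioi_eq_Ioi ρ0]
    refine (lintegral_union_le _ _ _).trans ?_
    rw [setLIntegral_congr_fun measurableSet_Ioi (g := fun _ => 0) fun r (hr : ρ < r) => by
      have : exp (-r ^ 2 / 2) ≤ θ := e ▸ exp_le_exp.2 (by nlinarith)
      simp only
      rw [ENNReal.ofReal_of_nonpos (sub_nonpos.2 (mul_le_mul_of_nonneg_left this (by positivity))),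
        mul_zero], lintegral_zero, add_zero,
      setLIntegral_congr_fun measurableSet_Ioc
        (g := fun r => ENNReal.ofReal (r * ((2 * π)⁻¹ * exp (-r ^ 2 / 2) - (2 * π)⁻¹ * θ)))
        fun r hr => (ENNReal.ofReal_mul hr.1.le).symm,
      disc_int ρ0 (by fun_prop) (F := fun r => -((2 * π)⁻¹ * exp (-r ^ 2 / 2)) - (2 * π)⁻¹ * θ * (r ^ 2 / 2))
        (fun t => by
          refine (((((hasDerivAt_pow 2 t).neg.div_const 2).exp.const_mul (2 * π)⁻¹).neg).sub
            (((hasDerivAt_pow 2 t).div_const 2).const_mul ((2 * π)⁻¹ * θ))).congr_deriv ?_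
          simp only [Pi.neg_apply]
          norm_num
          ring)
        fun t ht => mul_nonneg ht.1.le (sub_nonneg.2 (mul_le_mul_of_nonneg_left
          (e ▸ exp_le_exp.2 (by nlinarith [ht.1, ht.2])) (by positivity)))]
    refine le_of_eq (congrArg _ ?_)
    rw [e, ρ2]
    norm_num
    field_simp
    ring
  have i2 : ∫⁻ z : ℝ × ℝ, ENNReal.ofReal ((2 * π)⁻¹ * exp (-(z.1 ^ 2 + z.2 ^ 2) / 2) - (2 * π)⁻¹ * θ) ≤
      ENNReal.ofReal (1 - θ * (1 + a / (2 * π))) := by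
    rw [← lintegral_comp_polarCoord_symm]
    have e2 : ∀ p : ℝ × ℝ, (polarCoord.symm p).1 ^ 2 + (polarCoord.symm p).2 ^ 2 = p.1 ^ 2 := fun p => by
      simp only [polarCoord_symm_apply]
      nlinarith [sin_sq_add_cos_sq p.2]
    simp only [e2, smul_eq_mul]
    rw [polarCoord_target, Measure.volume_eq_prod, ← Measure.prod_restrict,
      lintegral_prod _ (by fun_prop)]
    simp only [lintegral_const, Measure.restrict_apply_univ, Real.volume_Ioo]
    rw [lintegral_mul_const _ (by fun_prop)]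
    refine (mul_le_mul_left i1 _).trans (le_of_eq ?_)
    rw [← ENNReal.ofReal_mul (mul_nonneg (by positivity) (sub_nonneg.2 θ1))]
    congr 1
    field_simp
    ring
  rw [← hθ]
  refine ENNReal.toReal_le_of_le_ofReal (by nlinarith [div_nonneg ha (by positivity : 0 ≤ 2 * π)]) ?_
  rw [disc_dens, withDensity_apply _ hR]
  calc _ ≤ ∫⁻ z in R, ENNReal.ofReal ((2 * π)⁻¹ * θ) +
        ENNReal.ofReal ((2 * π)⁻¹ * exp (-(z.1 ^ 2 + z.2 ^ 2) / 2) - (2 * π)⁻¹ * θ) :=
        lintegral_mono fun z => le_trans (le_of_eq (by rw [add_sub_cancel])) ENNReal.ofReal_add_le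
    _ ≤ ENNReal.ofReal ((2 * π)⁻¹ * θ) * ENNReal.ofReal a + ENNReal.ofReal (1 - θ * (1 + a / (2 * π))) := by
        rw [lintegral_add_left measurable_const, setLIntegral_const]
        exact add_le_add (mul_le_mul_right h _) ((setLIntegral_le_lintegral _ _).trans i2)
    _ = _ := by
        rw [← ENNReal.ofReal_mul c0, ← ENNReal.ofReal_add (mul_nonneg c0 ha) (sub_nonneg.2 θ1)]
        congr 1
        field_simp
        ring

theorem tri_area {r α γ c1 c2 τ v : ℝ} (hr : 0 < r) (hγ : 0 < γ) (h1 : 0 < c1) (h2 : 0 < c2) (hτ : 0 < τ)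
    (hv : 0 ≤ v) :
    volume {q : ℝ × ℝ | r * q.1 ≤ v ∧ α * q.1 + γ * q.2 ≤ v ∧ -τ * v ≤ c1 * (r * q.1) + c2 * (α * q.1 + γ * q.2)} ≤
      ENNReal.ofReal ((c1 + c2 + τ) ^ 2 * v ^ 2 / (2 * c1 * c2 * (r * γ))) := by
  obtain ⟨x0, hx0⟩ : ∃ x0, x0 = -((τ + c2) * v) / (c1 * r) := ⟨_, rfl⟩
  have e0 : c1 * (r * x0) = -((τ + c2) * v) := by rw [hx0]; field_simp
  have l : x0 ≤ v / r := by
    have : x0 ≤ 0 := hx0 ▸ div_nonpos_of_nonpos_of_nonneg (neg_nonpos.2 (by positivity)) (by positivity)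
    exact this.trans (by positivity)
  have mS : MeasurableSet {q : ℝ × ℝ | q.1 ∈ Set.Icc x0 (v / r) ∧
      q.2 ∈ Set.Icc (((-τ * v - c1 * (r * q.1)) / c2 - α * q.1) / γ) ((v - α * q.1) / γ)} :=
    measurableSet_region_between_cc (f := fun x => ((-τ * v - c1 * (r * x)) / c2 - α * x) / γ)
      (g := fun x => (v - α * x) / γ) (by fun_prop) (by fun_prop) measurableSet_Icc
  refine (measure_mono fun q hq => ?_).trans (?_ : volume _ ≤ _) (b := volume {q : ℝ × ℝ |
    q.1 ∈ Set.Icc x0 (v / r) ∧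
      q.2 ∈ Set.Icc (((-τ * v - c1 * (r * q.1)) / c2 - α * q.1) / γ) ((v - α * q.1) / γ)})
  · obtain ⟨q1, q2, q3⟩ := hq
    refine ⟨⟨?_, (le_div_iff₀ hr).2 (by linarith)⟩, (div_le_iff₀ hγ).2 ?_, (le_div_iff₀ hγ).2 (by linarith)⟩
    · have : c1 * (r * x0) ≤ c1 * (r * q.1) := by nlinarith
      exact le_of_mul_le_mul_left (le_of_mul_le_mul_left this h1) hr
    · rw [sub_le_iff_le_add, div_le_iff₀ h2]
      linarith
  · rw [Measure.volume_eq_prod, Measure.prod_apply mS]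
    have e : ∀ x : ℝ, volume (Prod.mk x ⁻¹' {q : ℝ × ℝ | q.1 ∈ Set.Icc x0 (v / r) ∧
        q.2 ∈ Set.Icc (((-τ * v - c1 * (r * q.1)) / c2 - α * q.1) / γ) ((v - α * q.1) / γ)}) =
        (Set.Icc x0 (v / r)).indicator (fun x => ENNReal.ofReal (c1 * r / (c2 * γ) * (x - x0))) x := fun x => by
      by_cases hx : x ∈ Set.Icc x0 (v / r)
      · rw [Set.indicator_of_mem hx]
        simp only [Set.preimage_setOf_eq, hx, true_and, Set.setOf_mem_eq, Real.volume_Icc]
        congr 1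
        rw [hx0]
        field_simp
        ring
      · rw [Set.indicator_of_notMem hx]
        simp only [Set.preimage_setOf_eq, hx, false_and, Set.setOf_false, measure_empty]
    simp only [e]
    rw [lintegral_indicator measurableSet_Icc, ← setLIntegral_congr Ioc_ae_eq_Icc,
      disc_int l (by fun_prop) (F := fun x => c1 * r / (c2 * γ) * ((x - x0) ^ 2 / 2)) (fun t => by
        refine (((((hasDerivAt_id t).sub_const x0).pow 2).div_const 2).const_mul
          (c1 * r / (c2 * γ))).congr_deriv ?_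
        simp) fun t ht => mul_nonneg (by positivity) (sub_nonneg.2 ht.1.le)]
    refine le_of_eq (congrArg _ ?_)
    rw [hx0]
    field_simp
    ring

end Vale.Agent.P226
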