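import Vale.Agent.P226.Psi

/-! Ehrhard on the line. PLAN: `inner_Icc`: a convex J ⊆ ℝ with m < gg J (m>0) contains Icc a b with m < Ph b - Ph a (J is the increasing union of compact
intervals, or inner regularity: compact K ⊆ J with m < gg K, a = sInf K, b = sSup K, Icc a b ⊆ J by ordConnected). ehr1: take such intervals, raise u0,u1 slightly
(continuity of Ph, or Ph_surj: u' with Ph u' = Ph b - Ph a, u < u'), psi_concave, strict monotonicity.
iso1: for Icc a b: r ↦ Ph⁻¹(Ph(b+r) - Ph(a-r)); use psi_concave between r=0 and r=R large (l = τ/R): Ph (R - C) ≤ Ph(b+R) - Ph(a-R) for all large R with C fixed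
(since 2(1 - Ph x) ≤ 1 - Ph (x-1) for x ≥ 2), giving Ph((1-l)u' + τ - lC) ≤ ..., let R → ∞.  Alternative: derivative in r and ph c ≤ ph u + ph v when Ph c = Ph u + Ph v. -/
namespace Vale.Agent.P226
open MeasureTheory ProbabilityTheory Real Finset Filter Topology
open scoped RealInnerProductSpace

lemma inner_Icc {J : Set ℝ} (hJ : Convex ℝ J) {m : ℝ} (h0 : 0 ≤ m) (hm : m < gg.real J) :
    ∃ a b, a ≤ b ∧ Set.Icc a b ⊆ J ∧ m < Ph b - Ph a := by
  obtain ⟨K, h1, h2, h3⟩ := hJ.ordConnected.measurableSet.exists_lt_isCompact (μ := gg)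
    ((ENNReal.ofReal_lt_iff_lt_toReal h0 (measure_ne_top _ _)).2 hm)
  have h4 : m < gg.real K := (ENNReal.ofReal_lt_iff_lt_toReal h0 (measure_ne_top _ _)).1 h3
  have ne : K.Nonempty := by
    rcases K.eq_empty_or_nonempty with rfl | h
    · simp at h3
    · exact h
  have hab := csInf_le_csSup ne h2.bddBelow h2.bddAbove
  refine ⟨_, _, hab, hJ.ordConnected.out (h1 (h2.sInf_mem ne)) (h1 (h2.sSup_mem ne)), ?_⟩
  rw [← gg_Icc hab]
  exact h4.trans_le (measureReal_mono fun x hx => ⟨csInf_le h2.bddBelow hx, le_csSup h2.bddAbove hx⟩)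

lemma ehr1_int {J : Set ℝ} (hJ : Convex ℝ J) {u : ℝ} (hu : Ph u < gg.real J) :
    ∃ a b v, a ≤ b ∧ Set.Icc a b ⊆ J ∧ u < v ∧ Ph v = Ph b - Ph a := by
  obtain ⟨a, b, h1, h2, h3⟩ := inner_Icc hJ (Ph_pos u).le hu
  obtain ⟨v, hv⟩ := Ph_surj ((Ph_pos u).trans h3) (by linarith [Ph_lt_one b, Ph_pos a])
  exact ⟨a, b, v, h1, h2, Ph_strictMono.lt_iff_lt.1 (hv ▸ h3), hv⟩

theorem ehr1 : Ehr ℝ gg := by
  intro P _ _ K hK _
  have c : ∀ e, Convex ℝ {y : ℝ | (e, y) ∈ K} := fun e y hy y' hy' s t hs ht hst => by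
    have := hK hy hy' hs ht hst
    simp only [Prod.smul_mk, Prod.mk_add_mk, Convex.combo_self hst] at this
    exact this
  rintro ⟨e, u⟩ (h : Ph u < _) ⟨e', u'⟩ (h' : Ph u' < _) s t hs ht hst
  obtain ⟨a, b, v, h1, h2, h3, h4⟩ := ehr1_int (c e) h
  obtain ⟨a', b', v', h1', h2', h3', h4'⟩ := ehr1_int (c e') h'
  obtain rfl : s = 1 - t := by linarith
  have k := psi_concave h4.le h4'.le ht (by linarith)
  have hab : (1 - t) * a + t * a' ≤ (1 - t) * b + t * b' := by gcongr
  rw [← gg_Icc hab] at k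
  have l : (1 - t) * u + t * u' < (1 - t) * v + t * v' := by
    rcases ht.eq_or_lt with rfl | ht
    · simpa using h3
    · nlinarith
  exact ((Ph_strictMono l).trans_le k).trans_le (measureReal_mono ((c _).ordConnected.out
    (hK (h2 ⟨le_rfl, h1⟩) (h2' ⟨le_rfl, h1'⟩) hs ht hst)
    (hK (h2 ⟨h1, le_rfl⟩) (h2' ⟨h1', le_rfl⟩) hs ht hst)))

lemma ehr1_two {x : ℝ} (hx : x ≤ -1) : 2 * Ph (x - 1) ≤ Ph x := by
  have d : ∀ x, HasDerivAt (fun x => Ph x - 2 * Ph (x - 1)) (ph x - 2 * ph (x - 1)) x := fun x =>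
    (hasDerivAt_Ph x).sub (((hasDerivAt_Ph (x - 1)).comp_sub_const x 1).const_mul 2)
  have a := monotoneOn_of_deriv_nonneg (convex_Iic x) (f := fun x => Ph x - 2 * Ph (x - 1))
    (fun y _ => (d y).continuousAt.continuousWithinAt)
    (fun y _ => (d y).differentiableAt.differentiableWithinAt) fun y hy => by
      have hy : y ≤ x := interior_subset (s := Set.Iic x) hy
      have e : ph y = exp (1 / 2 - y) * ph (y - 1) := by
        rw [ph, ph, mul_left_comm, ← exp_add]
        congr 2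
        ring
      rw [(d y).deriv, e, sub_nonneg]
      exact mul_le_mul_of_nonneg_right (by linarith [add_one_le_exp (1 / 2 - y)]) (ph_pos _).le
  have t := Ph_atBot.sub ((Ph_atBot.comp (tendsto_atBot_add_const_right _ (-1) tendsto_id)).const_mul 2)
  have := le_of_tendsto t ((eventually_le_atBot x).mono fun y hy => a hy Set.self_mem_Iic hy)
  linarith

theorem iso1 {J J' : Set ℝ} (hJ : Convex ℝ J) {u τ : ℝ} (hτ : 0 ≤ τ) (hu : Ph u < gg.real J)
    (h : ∀ y ∈ J, ∀ r, |r| ≤ τ → y + r ∈ J') : Ph (u + τ) < gg.real J' := by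
  obtain ⟨a, b, v, h1, h2, h3, h4⟩ := ehr1_int hJ hu
  have s : Set.Icc (a - τ) (b + τ) ⊆ J' := fun y hy => by
    rcases le_total y a with k | k
    · simpa using h a (h2 ⟨le_rfl, h1⟩) (y - a) (abs_le.2 ⟨by linarith [hy.1], by linarith⟩)
    rcases le_total y b with k' | k'
    · simpa using h y (h2 ⟨k, k'⟩) 0 (by simpa using hτ)
    · simpa using h b (h2 ⟨h1, le_rfl⟩) (y - b) (abs_le.2 ⟨by linarith, by linarith [hy.2]⟩)
  set c := max a (-b)
  obtain ⟨R, ⟨⟨r1, r2⟩, r3⟩, r4⟩ := ((((eventually_ge_atTop (c + 2)).and (eventually_ge_atTop τ)).and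
    (eventually_gt_atTop 0)).and (eventually_gt_atTop (τ * (v + c + 1) / (v - u)))).exists
  have k1 : Ph (R - (c + 1)) ≤ Ph (b + R) - Ph (a - R) := by
    have e1 := ehr1_two (x := -(R - (c + 1))) (by linarith)
    have e2 := Ph_strictMono.monotone (show a - R ≤ -(R - (c + 1)) - 1 by linarith [le_max_left a (-b)])
    have e3 := Ph_strictMono.monotone
      (show -(b + R) ≤ -(R - (c + 1)) - 1 by linarith [le_max_right a (-b)])
    rw [Ph_neg] at e1 e3
    linarith
  have k := psi_concave h4.le k1 (l := τ / R) (by positivity) ((div_le_one r3).2 r2)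
  have e : τ / R * R = τ := div_mul_cancel₀ _ r3.ne'
  rw [show (1 - τ / R) * b + τ / R * (b + R) = b + τ by linarith,
    show (1 - τ / R) * a + τ / R * (a - R) = a - τ by linarith, ← gg_Icc (by linarith)] at k
  refine ((Ph_strictMono ?_).trans_le k).trans_le (measureReal_mono s)
  rw [div_lt_iff₀ (by linarith), mul_comm R, ← div_lt_iff₀ r3, mul_div_right_comm] at r4
  linarith

end Vale.Agent.P226
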