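import Vale.Agent.P226.Ehr1

/-! Ehrhard in the plane by iterated symmetrisation. PLAN: for K ⊆ P × (ℝ×ℝ) put
S K = {(e,(x,u)) | Ph u < gg {y | (e,(x,y)) ∈ K}}: convex by ehr1 with parameter space P × ℝ, slices measurable (measurable_measure_prodMk_left), same slice
measure (Measure.prod_apply + gg_lt). State(τ): K convex, measurable slices, (e,(x,y)) ∈ K → (e,(x+r,y+r')) ∈ K whenever |r'| ≤ τ r.
S K is invariant under adding r(0,-1) (always) and r(1,τ) (iso1, if State τ). Rotate (IsGaussian.map_rotation_eq_self, or the explicit matrix with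
(c,s) = (1, τ')/√(1+τ'²), τ' = τ + √(1+τ²)) so that (0,-1) and (1,τ)/√(1+τ²) go to (c,-s),(c,s): State(τ'), τ' ≥ τ+1. First step: S then rotate (0,-1) to (1,0): State 0.
So for all n there is K_n with State(n) and the same slice measures as K. If (e,(t,0)) ∈ K_n then the slice contains (t,0)+C_n, C_n = {|y| ≤ n x}; if not, it misses (t,0)-C_n.
measure((t,0)+C_n) → 1 - Ph t, measure((t,0)-C_n) → Ph t (monotone unions, half planes). Given Ph u_i < m_i choose ε with Ph(u_i+ε) < m_i, t_i = -(u_i+ε):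
for large n (e_i,(t_i,0)) ∈ K_n, hence the convex combination, hence m_l ≥ measure((t_l,0)+C_n) → Ph(u_l+ε) > Ph u_l. -/
namespace Vale.Agent.P226
open MeasureTheory ProbabilityTheory Real Finset Filter Topology
open scoped RealInnerProductSpace

section
variable {P : Type} [AddCommGroup P] [Module ℝ P] {K L : Set (P × (ℝ × ℝ))} {τ : ℝ}

/-- convex, with measurable slices of the same measure as those of `K` -/
def Ehr2Ok (K L : Set (P × (ℝ × ℝ))) : Prop := Convex ℝ L ∧ (∀ e, MeasurableSet {x | (e, x) ∈ L}) ∧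
  ∀ e, (gg.prod gg).real {x | (e, x) ∈ L} = (gg.prod gg).real {x | (e, x) ∈ K}

/-- invariance under a cone -/
def Ehr2St (τ : ℝ) (L : Set (P × (ℝ × ℝ))) : Prop :=
  ∀ e x y r r', 0 ≤ r → |r'| ≤ τ * r → (e, (x, y)) ∈ L → (e, (x + r, y + r')) ∈ L

/-- symmetrisation -/
def ehr2S (L : Set (P × (ℝ × ℝ))) : Set (P × (ℝ × ℝ)) :=
  {q | Ph q.2.2 < gg.real {y | (q.1, (q.2.1, y)) ∈ L}}

lemma ehr2_cont : Continuous Ph :=
  continuous_iff_continuousAt.2 fun t => (hasDerivAt_Ph t).continuousAt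

lemma ehr2_S (h : Ehr2Ok K L) : Ehr2Ok K (ehr2S L) := by
  have m : ∀ e, MeasurableSet {x | (e, x) ∈ ehr2S L} := fun e =>
    measurableSet_lt (ehr2_cont.measurable.comp measurable_snd)
      ((measurable_measure_prodMk_left (h.2.1 e)).ennreal_toReal.comp measurable_fst)
  refine ⟨?_, m, fun e => ?_⟩
  · exact (ehr1 (P × ℝ) _ (h.1.linear_preimage (LinearEquiv.prodAssoc ℝ P ℝ ℝ).toLinearMap)
      fun e => measurable_prodMk_left (x := e.2) (h.2.1 e.1)).linear_preimage
        (LinearEquiv.prodAssoc ℝ P ℝ ℝ).symm.toLinearMap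
  · rw [← h.2.2 e, measureReal_def, measureReal_def, Measure.prod_apply (m e),
      Measure.prod_apply (h.2.1 e)]
    refine congrArg _ (lintegral_congr fun x => ?_)
    exact (ENNReal.toReal_eq_toReal_iff' (measure_ne_top _ _) (measure_ne_top _ _)).1
      (gg_lt (m := gg.real {y | (e, (x, y)) ∈ L}) measureReal_nonneg measureReal_le_one)

lemma ehr2_rot (h : Ehr2Ok K L) (θ : ℝ) :
    Ehr2Ok K {q | (q.1, ContinuousLinearMap.rotation θ q.2) ∈ L} := by
  have m : Measurable (ContinuousLinearMap.rotation (E := ℝ) θ) := by fun_prop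
  refine ⟨h.1.linear_preimage (LinearMap.prodMap LinearMap.id
    (ContinuousLinearMap.rotation θ).toLinearMap), fun e => m (h.2.1 e), fun e => ?_⟩
  rw [← h.2.2 e]
  conv_rhs => rw [← IsGaussian.map_rotation_eq_self (μ := gg) (by simp) θ,
    map_measureReal_apply m (h.2.1 e)]
  rfl

omit [AddCommGroup P] [Module ℝ P] in
lemma ehr2_down {e : P} {x u b : ℝ} (hb : b ≤ 0) (h : (e, (x, u)) ∈ ehr2S L) :
    (e, (x, u + b)) ∈ ehr2S L :=
  lt_of_le_of_lt (Ph_strictMono.monotone (add_le_of_nonpos_right hb)) h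

lemma ehr2_cone (hL : Convex ℝ L) (hτ : 0 ≤ τ) (hs : Ehr2St τ L) {e : P} {x u a b : ℝ} (ha : 0 ≤ a)
    (hb : b ≤ τ * a) (h : (e, (x, u)) ∈ ehr2S L) : (e, (x + a, u + b)) ∈ ehr2S L := by
  have c : Convex ℝ {y : ℝ | (e, (x, y)) ∈ L} := fun y hy y' hy' s t hs ht hst => by
    have := hL hy hy' hs ht hst
    simp only [Prod.smul_mk, Prod.mk_add_mk, Convex.combo_self hst] at this
    exact this
  have k := iso1 (J' := {y | (e, (x + a, y)) ∈ L}) c (mul_nonneg hτ ha) h
    fun y hy r hr => hs e x y a r ha hr hy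
  exact lt_of_le_of_lt (Ph_strictMono.monotone (by dsimp only; linarith)) k

lemma ehr2_seq (h : Ehr2Ok K K) (n : ℕ) : ∃ L, Ehr2Ok K L ∧ Ehr2St n L := by
  induction n with
  | zero =>
    refine ⟨_, ehr2_rot (ehr2_S h) (π / 2), fun e x y r r' h0 h1 h2 => ?_⟩
    obtain rfl : r' = 0 := by simpa using h1
    have := ehr2_down (neg_nonpos.2 h0) h2
    simpa [ContinuousLinearMap.rotation_apply, add_comm] using this
  | succ n ih =>
    obtain ⟨L, h1, h2⟩ := ih
    have n0 : (0 : ℝ) ≤ n := n.cast_nonneg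
    obtain ⟨θ, s0, hc⟩ : ∃ θ, 0 < sin θ ∧ cos θ = (n + 1) * sin θ :=
      ⟨arctan (1 / (n + 1)), by rw [sin_arctan]; positivity, by
        rw [sin_arctan, cos_arctan]; field_simp⟩
    refine ⟨_, ehr2_rot (ehr2_S h1) θ, fun e x y r r' h0 h3 h4 => ?_⟩
    push_cast at h3
    obtain ⟨h5, h6⟩ := abs_le.1 h3
    have := ehr2_cone h1.1 n0 h2 (a := sin θ * ((n + 1) * r + r')) (b := sin θ * ((n + 1) * r' - r))
      (mul_nonneg s0.le (by linarith)) (by
        rw [mul_left_comm]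
        exact mul_le_mul_of_nonneg_left (by nlinarith [mul_nonneg (mul_nonneg n0 n0) h0]) s0.le) h4
    have e1 : ContinuousLinearMap.rotation θ (x + r, y + r') =
        ((ContinuousLinearMap.rotation θ (x, y)).1 + sin θ * ((n + 1) * r + r'),
          (ContinuousLinearMap.rotation θ (x, y)).2 + sin θ * ((n + 1) * r' - r)) := by
      simp only [ContinuousLinearMap.rotation_apply, smul_eq_mul, hc]
      exact Prod.ext (by ring) (by ring)
    change (e, ContinuousLinearMap.rotation θ (x + r, y + r')) ∈ ehr2S L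
    rw [e1]
    exact this

end

lemma ehr2_lim (g : ℝ → ℝ) {c : ℝ} (hc : c < gg.real {x | 0 < g x}) :
    ∀ᶠ n : ℕ in atTop, c < (gg.prod gg).real {p | 0 < g p.1 ∧ |p.2| ≤ n * g p.1} := by
  have h := tendsto_measure_iUnion_atTop (μ := gg.prod gg)
    (s := fun n : ℕ => {p : ℝ × ℝ | 0 < g p.1 ∧ |p.2| ≤ n * g p.1}) fun n m hnm p hp =>
      ⟨hp.1, hp.2.trans (mul_le_mul_of_nonneg_right (Nat.cast_le.2 hnm) hp.1.le)⟩
  have e : (⋃ n : ℕ, {p : ℝ × ℝ | 0 < g p.1 ∧ |p.2| ≤ n * g p.1}) = {x | 0 < g x} ×ˢ Set.univ := by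
    ext p
    simp only [Set.mem_iUnion, Set.mem_prod, Set.mem_univ, and_true]
    refine ⟨fun ⟨_, h⟩ => h.1, fun h => ?_⟩
    obtain ⟨n, hn⟩ := exists_nat_ge (|p.2| / g p.1)
    exact ⟨n, h, (div_le_iff₀ h).1 hn⟩
  rw [e, Measure.prod_prod, measure_univ, mul_one] at h
  exact ((ENNReal.tendsto_toReal (measure_ne_top _ _)).comp h).eventually (lt_mem_nhds hc)

theorem ehr2 : Ehr (ℝ × ℝ) (gg.prod gg) := by
  intro P _ _ K hK hm
  choose L L1 L2 using ehr2_seq (K := K) ⟨hK, hm, fun _ => rfl⟩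
  have k1 : ∀ e t, Ph (-t) < (gg.prod gg).real {x | (e, x) ∈ K} →
      ∀ᶠ n in atTop, (e, (t, 0)) ∈ L n := fun e t h => by
    have h1 : {x | 0 < t - x} = Set.Iio t := Set.ext fun x => by simp
    filter_upwards [ehr2_lim (fun x => t - x) (c := 1 - (gg.prod gg).real {x | (e, x) ∈ K})
      (by rw [h1, gg_Iio]; linarith [Ph_neg t])] with n hn
    by_contra hc
    rw [← (L1 n).2.2 e, ← probReal_compl_eq_one_sub ((L1 n).2.1 e)] at hn
    refine hn.not_ge (measureReal_mono fun p hp hp' => hc ?_)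
    simpa using L2 n e p.1 p.2 (t - p.1) (-p.2) hp.1.le (by rw [abs_neg]; exact hp.2) hp'
  rintro ⟨e, u⟩ (h : Ph u < _) ⟨e', u'⟩ (h' : Ph u' < _) a b ha hb hab
  have c : ∀ u, Tendsto (fun ε => Ph (u + ε)) (𝓝[>] 0) (𝓝 (Ph u)) := fun u =>
    ((ehr2_cont.comp (continuous_const_add u)).tendsto' 0 _ (by simp)).mono_left nhdsWithin_le_nhds
  obtain ⟨ε, ⟨e1, e2⟩, e0⟩ := ((((c u).eventually (gt_mem_nhds h)).and
    ((c u').eventually (gt_mem_nhds h'))).and self_mem_nhdsWithin).exists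
  have h1 : {x | 0 < x + (a * u + b * u' + ε)} = (Set.Iic (-(a * u + b * u' + ε)))ᶜ :=
    Set.ext fun x => by simp only [Set.mem_setOf_eq, Set.compl_Iic, Set.mem_Ioi]; constructor <;>
      intro <;> linarith
  obtain ⟨n, ⟨n1, n2⟩, n3⟩ := (((k1 e (-(u + ε)) (by rwa [neg_neg])).and
    (k1 e' (-(u' + ε)) (by rwa [neg_neg]))).and (ehr2_lim (fun x => x + (a * u + b * u' + ε))
      (c := Ph (a * u + b * u')) (by
        rw [h1, probReal_compl_eq_one_sub measurableSet_Iic]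
        have := Ph_neg (a * u + b * u' + ε)
        have := Ph_strictMono (lt_add_of_pos_right (a * u + b * u') e0)
        unfold Ph at *
        linarith))).exists
  have n4 := (L1 n).1 n1 n2 ha hb hab
  refine n3.trans_le (le_of_le_of_eq (measureReal_mono fun p hp => ?_) ((L1 n).2.2 _))
  have := L2 n _ _ _ _ p.2 hp.1.le hp.2 n4
  have e3 : a * -(u + ε) + b * -(u' + ε) + (p.1 + (a * u + b * u' + ε)) = p.1 := by
    linear_combination (-ε) * hab
  have e4 : a * 0 + b * 0 + p.2 = p.2 := by ring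
  change (_, (a * -(u + ε) + b * -(u' + ε) + (p.1 + (a * u + b * u' + ε)), a * 0 + b * 0 + p.2)) ∈ _
    at this
  rw [e3, e4] at this
  exact this

end Vale.Agent.P226
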