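import Vale.Agent.P226.Base

/-! From the absence of critical configurations to the partition inequality. -/
namespace Vale.Agent.P226
open MeasureTheory ProbabilityTheory Real Finset Filter Topology
open scoped RealInnerProductSpace

variable {E : Type} [NormedAddCommGroup E] [InnerProductSpace ℝ E] [FiniteDimensional ℝ E]
  [MeasurableSpace E] [BorelSpace E]

theorem fin_bound (hno : ∀ (ι : Type) [Fintype ι] (z : ι → E), ¬Crit z) (n : ℕ) : Bound E (3 + n) := by
  induction n with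
  | zero => exact bound3
  | succ n ih =>
    by_contra h
    obtain ⟨ι, _, z, hz⟩ := exists_crit (Nat.le_add_right 3 n) ih h
    exact hno ι z hz

theorem final_of (hno : ∀ (ι : Type) [Fintype ι] (z : ι → E), ¬Crit z) {ι : Type} [Fintype ι]
    (A : ι → Set E) (hA : ∀ i, NullMeasurableSet (A i) (stdGaussian E))
    (hd : Pairwise fun i j => AEDisjoint (stdGaussian E) (A i) (A j))
    (hu : ∀ᵐ x ∂(stdGaussian E), ∃ i, x ∈ A i) :
    ∑ i, ‖∫ x in A i, x ∂(stdGaussian E)‖ ^ 2 ≤ 9 / (8 * π) := by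
  have h0 : (0 : ℝ) < 9 / (8 * π) := by have := pi_pos; positivity
  rcases isEmpty_or_nonempty ι with h | h
  · simpa using h0.le
  have h1 := part_le A hA hd hu fun i => ∫ x in A i, x ∂(stdGaussian E)
  simp only [real_inner_self_eq_norm_sq] at h1
  have h2 := fin_bound hno (Fintype.card ι) ι (Nat.le_add_left _ _)
    fun i => ∫ x in A i, x ∂(stdGaussian E)
  have h3 : 0 ≤ ∑ i, ‖∫ x in A i, x ∂(stdGaussian E)‖ ^ 2 := by positivity
  have h4 := (pow_le_pow_left₀ h3 h1 2).trans h2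
  unfold F0 at h4
  by_contra hc
  nlinarith [not_le.1 hc]

/-- The standard Gaussian measure on `ℝ^d`, given by its density. -/
noncomputable def gam (d : ℕ) : Measure (EuclideanSpace ℝ (Fin d)) :=
  volume.withDensity fun x => ENNReal.ofReal ((2 * π) ^ (-(d : ℝ) / 2) * exp (-‖x‖ ^ 2 / 2))

theorem gam_eq (d : ℕ) : gam d = stdGaussian (EuclideanSpace ℝ (Fin d)) := by
  have hp : (0 : ℝ) < 2 * π := two_pi_pos
  have hb : 0 < (1 / 2 : ℂ).re := by norm_num
  have hi : Integrable fun x : EuclideanSpace ℝ (Fin d) =>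
      (2 * π) ^ (-(d : ℝ) / 2) * exp (-‖x‖ ^ 2 / 2) := by
    refine Integrable.const_mul ?_ _
    refine (GaussianFourier.integrable_cexp_neg_mul_sq_norm_add (V := EuclideanSpace ℝ (Fin d))
      hb 0 0).norm.congr (.of_forall fun x => ?_)
    simp only [Complex.norm_exp]
    congr 1
    simp [← Complex.ofReal_pow]
    ring
  haveI : IsFiniteMeasure (gam d) := isFiniteMeasure_withDensity_ofReal hi.2
  refine Measure.ext_of_charFun (funext fun t => ?_)
  rw [charFun_stdGaussian, charFun_apply, gam,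
    integral_withDensity_eq_integral_toReal_smul (by fun_prop) (.of_forall fun x => by simp)]
  have e : ∀ x : EuclideanSpace ℝ (Fin d),
      (ENNReal.ofReal ((2 * π) ^ (-(d : ℝ) / 2) * exp (-‖x‖ ^ 2 / 2))).toReal •
      Complex.exp (⟪x, t⟫ * Complex.I) = (((2 * π) ^ (-(d : ℝ) / 2) : ℝ) : ℂ) *
        Complex.exp (-(1 / 2 : ℂ) * ‖x‖ ^ 2 + Complex.I * ⟪t, x⟫) := fun x => by
    rw [ENNReal.toReal_ofReal (by positivity), Complex.real_smul, Complex.ofReal_mul,
      Complex.ofReal_exp, mul_assoc, ← Complex.exp_add, real_inner_comm t x]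
    congr 2
    push_cast
    ring
  simp only [e]
  rw [integral_const_mul, GaussianFourier.integral_cexp_neg_mul_sq_norm_add hb, ← mul_assoc]
  have e2 : (((2 * π) ^ (-(d : ℝ) / 2) : ℝ) : ℂ) *
      (π / (1 / 2 : ℂ)) ^ ((Module.finrank ℝ (EuclideanSpace ℝ (Fin d)) : ℂ) / 2) = 1 := by
    rw [finrank_euclideanSpace_fin, show (π / (1 / 2) : ℂ) = ((2 * π : ℝ) : ℂ) by push_cast; ring,
      show ((d : ℂ) / 2) = (((d : ℝ) / 2 : ℝ) : ℂ) by push_cast; ring, ← Complex.ofReal_cpow hp.le,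
      ← Complex.ofReal_mul, ← rpow_add hp]
    simp [neg_div]
  rw [e2, one_mul, Complex.I_sq]
  congr 1
  ring

theorem final_gam (d k : ℕ)
    (hno : ∀ (ι : Type) [Fintype ι] (z : ι → EuclideanSpace ℝ (Fin d)), ¬Crit z)
    (γ : Measure (EuclideanSpace ℝ (Fin d)))
    (hγ : γ = volume.withDensity fun x =>
      ENNReal.ofReal ((2 * π) ^ (-(d : ℝ) / 2) * exp (-‖x‖ ^ 2 / 2)))
    (A : Fin k → Set (EuclideanSpace ℝ (Fin d))) (hA : ∀ i, NullMeasurableSet (A i) γ)
    (hd : ∀ i j, i ≠ j → γ (A i ∩ A j) = 0) (hu : γ (⋃ i, A i)ᶜ = 0) :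
    ∑ i, ‖∫ x in A i, x ∂γ‖ ^ 2 ≤ 9 / (8 * π) := by
  obtain rfl : γ = stdGaussian _ := hγ.trans (gam_eq d)
  refine final_of hno A hA hd ?_
  filter_upwards [measure_eq_zero_iff_ae_notMem.1 hu] with x hx
  simpa using hx

end Vale.Agent.P226
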