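import Vale.Agent.P226.Defs

/-! One-dimensional normal calculus. PLAN: Ph t = ∫ x in Iic t, ph x (gaussianReal_apply / gaussianPDFReal); FTC; cdf API (cdf_eq_real, tendsto_cdf_atBot). -/
namespace Vale.Agent.P226
open MeasureTheory ProbabilityTheory Real Finset Filter Topology
open scoped RealInnerProductSpace

lemma ph_pos (t : ℝ) : 0 < ph t := by
  have := Real.pi_pos
  unfold ph
  positivity

lemma ph_neg (t : ℝ) : ph (-t) = ph t := by simp [ph]

lemma ph_le (t : ℝ) : ph t ≤ (√(2 * π))⁻¹ :=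
  mul_le_of_le_one_right (by positivity) (exp_le_one_iff.2 (by nlinarith [sq_nonneg t]))

lemma hasDerivAt_ph (t : ℝ) : HasDerivAt ph (-t * ph t) t := by
  have h := (((hasDerivAt_pow 2 t).neg.div_const 2).exp).const_mul (√(2 * π))⁻¹
  refine h.congr_deriv ?_
  simp only [ph, Pi.neg_apply]
  ring

lemma gauss_eq : ph = gaussianPDFReal 0 1 := by
  ext t
  simp [ph, gaussianPDFReal]

lemma gauss_cont : Continuous ph := continuous_iff_continuousAt.2 fun t => (hasDerivAt_ph t).continuousAt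

lemma gauss_int : Integrable ph := gauss_eq ▸ integrable_gaussianPDFReal 0 1

lemma gauss_real (s : Set ℝ) : gg.real s = ∫ x in s, ph x := by
  rw [measureReal_def, gaussianReal_apply_eq_integral 0 one_ne_zero, ← gauss_eq,
    ENNReal.toReal_ofReal (integral_nonneg fun x => (ph_pos x).le)]

lemma gauss_sub (a b : ℝ) : Ph b - Ph a = ∫ x in a..b, ph x := by
  rw [Ph, Ph, gauss_real, gauss_real,
    intervalIntegral.integral_Iic_sub_Iic gauss_int.integrableOn gauss_int.integrableOn]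

lemma hasDerivAt_Ph (t : ℝ) : HasDerivAt Ph (ph t) t := by
  have e : Ph = fun u => (∫ x in (0 : ℝ)..u, ph x) + Ph 0 := funext fun u => by
    rw [← gauss_sub, sub_add_cancel]
  rw [e]
  exact (intervalIntegral.integral_hasDerivAt_right (gauss_cont.intervalIntegrable _ _)
    (gauss_cont.stronglyMeasurableAtFilter _ _) gauss_cont.continuousAt).add_const _

lemma hasDerivAt_Hh (t : ℝ) : HasDerivAt Hh (Ph t) t := by
  have h := (hasDerivAt_ph t).add ((hasDerivAt_id t).mul (hasDerivAt_Ph t))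
  refine h.congr_deriv ?_
  simp

lemma Ph_strictMono : StrictMono Ph :=
  strictMono_of_deriv_pos fun x => by rw [(hasDerivAt_Ph x).deriv]; exact ph_pos x

lemma Ph_pos (t : ℝ) : 0 < Ph t :=
  lt_of_le_of_lt measureReal_nonneg (Ph_strictMono (show t - 1 < t by linarith))

lemma Ph_lt_one (t : ℝ) : Ph t < 1 :=
  lt_of_lt_of_le (Ph_strictMono (show t < t + 1 by linarith)) measureReal_le_one

lemma Ph_atBot : Tendsto Ph atBot (𝓝 0) :=
  (tendsto_cdf_atBot gg).congr fun x => cdf_eq_real gg x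

lemma Ph_atTop : Tendsto Ph atTop (𝓝 1) :=
  (tendsto_cdf_atTop gg).congr fun x => cdf_eq_real gg x

lemma Ph_neg (t : ℝ) : Ph (-t) = 1 - Ph t := by
  have hd : ∀ x, HasDerivAt (fun u => Ph (-u) + Ph u) 0 x := fun x => by
    have h := ((hasDerivAt_Ph (-x)).comp x (hasDerivAt_neg x)).add (hasDerivAt_Ph x)
    refine h.congr_deriv ?_
    rw [ph_neg]
    ring
  have hc := is_const_of_deriv_eq_zero (fun x => (hd x).differentiableAt) fun x => (hd x).deriv
  have h1 : Tendsto (fun u => Ph (-u) + Ph u) atTop (𝓝 (0 + 1)) :=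
    (Ph_atBot.comp tendsto_neg_atTop_atBot).add Ph_atTop
  have h2 := tendsto_nhds_unique h1 (tendsto_const_nhds.congr fun u => hc t u)
  linarith

lemma Ph_zero : Ph 0 = 1 / 2 := by
  have := Ph_neg 0
  rw [neg_zero] at this
  linarith

lemma gauss_atTop : Tendsto ph atTop (𝓝 0) := by
  have h := (tendsto_exp_atBot.comp ((tendsto_neg_atTop_atBot.comp
    (tendsto_pow_atTop (α := ℝ) two_ne_zero)).atBot_div_const two_pos)).const_mul (√(2 * π))⁻¹
  rw [mul_zero] at h
  exact h

lemma ph_atBot : Tendsto ph atBot (𝓝 0) :=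
  (gauss_atTop.comp tendsto_neg_atBot_atTop).congr ph_neg

lemma integral_gg (f : ℝ → ℝ) : ∫ x, f x ∂gg = ∫ x, ph x * f x := by
  rw [integral_gaussianReal_eq_integral_smul one_ne_zero, gauss_eq]
  rfl

lemma gauss_tail (b : ℝ) : ∫ x in Set.Ioi b, ph x * (x - b) = Hh (-b) := by
  have h1 : Tendsto (fun x => -ph x - b * Ph x) atTop (𝓝 (-0 - b * 1)) :=
    gauss_atTop.neg.sub (Ph_atTop.const_mul b)
  rw [integral_Ioi_of_hasDerivAt_of_nonneg' (g := fun x => -ph x - b * Ph x) (fun x _ =>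
    ((hasDerivAt_ph x).neg.sub ((hasDerivAt_Ph x).const_mul b)).congr_deriv (by ring))
    (fun x hx => mul_nonneg (ph_pos x).le (sub_nonneg.2 (le_of_lt hx))) h1, Hh, ph_neg, Ph_neg]
  ring

lemma int_pos (b : ℝ) : ∫ x, max (x - b) 0 ∂gg = Hh (-b) := by
  rw [integral_gg, ← gauss_tail, ← integral_indicator measurableSet_Ioi]
  refine integral_congr_ae (.of_forall fun x => ?_)
  by_cases h : b < x
  · simp [Set.indicator, h, max_eq_left (sub_nonneg.2 h.le)]
  · simp [Set.indicator, h, max_eq_right (sub_nonpos.2 (not_lt.1 h))]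

lemma gauss_Hh (s : ℝ) : 0 ≤ Hh s := by
  rw [← neg_neg s, ← int_pos]
  exact integral_nonneg fun x => le_max_right _ _

lemma Hh_atBot : Tendsto Hh atBot (𝓝 0) := by
  refine squeeze_zero' (.of_forall gauss_Hh) ?_ ph_atBot
  filter_upwards [eventually_le_atBot 0] with s hs
  have := mul_nonpos_of_nonpos_of_nonneg hs (Ph_pos s).le
  unfold Hh
  linarith

lemma Hh_pos (s : ℝ) : 0 < Hh s :=
  lt_of_le_of_lt (gauss_Hh _) (strictMono_of_deriv_pos (f := Hh)
    (fun x => by rw [(hasDerivAt_Hh x).deriv]; exact Ph_pos x) (show s - 1 < s by linarith))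

lemma Ph_surj {p : ℝ} (h0 : 0 < p) (h1 : p < 1) : ∃ s, Ph s = p :=
  mem_range_of_exists_le_of_exists_ge
    (continuous_iff_continuousAt.2 fun t => (hasDerivAt_Ph t).continuousAt)
    (Ph_atBot.eventually (ge_mem_nhds h0)).exists (Ph_atTop.eventually (le_mem_nhds h1)).exists

lemma gg_Iio (t : ℝ) : gg.real (Set.Iio t) = Ph t := by
  rw [Ph, gauss_real, gauss_real, integral_Iic_eq_integral_Iio]

lemma gg_Ioo {a b : ℝ} (h : a ≤ b) : gg.real (Set.Ioo a b) = Ph b - Ph a := by
  rw [gauss_sub, gauss_real, intervalIntegral.integral_of_le h, integral_Ioc_eq_integral_Ioo]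

lemma gg_Icc {a b : ℝ} (h : a ≤ b) : gg.real (Set.Icc a b) = Ph b - Ph a := by
  rw [gauss_sub, gauss_real, intervalIntegral.integral_of_le h, integral_Icc_eq_integral_Ioc]

/-- `{u | Ph u < m}` has measure `m` -/
lemma gg_lt {m : ℝ} (h0 : 0 ≤ m) (h1 : m ≤ 1) : gg.real {u | Ph u < m} = m := by
  rcases h0.eq_or_lt with rfl | h0
  · have : {u | Ph u < 0} = ∅ := Set.eq_empty_of_forall_notMem fun u hu => (Ph_pos u).not_gt hu
    rw [this, measureReal_empty]
  rcases h1.eq_or_lt with rfl | h1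
  · rw [Set.eq_univ_of_forall (s := {u | Ph u < 1}) Ph_lt_one, probReal_univ]
  obtain ⟨s, rfl⟩ := Ph_surj h0 h1
  rw [← gg_Iio s]
  congr 1
  ext u
  rw [gg_Iio]
  exact Ph_strictMono.lt_iff_lt

lemma int_Ph {a : ℝ} (ha : 0 < a) (s : ℝ) :
    IntegrableOn (fun t => Ph (s - a * t)) (Set.Ioi 0) ∧ ∫ t in Set.Ioi 0, Ph (s - a * t) = Hh s / a := by
  have hd : ∀ x ∈ Set.Ici (0 : ℝ), HasDerivAt (fun t => -Hh (s - a * t) / a) (Ph (s - a * x)) x :=
    fun x _ => by
      have h := (((hasDerivAt_Hh (s - a * x)).comp x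
        (((hasDerivAt_id x).const_mul a).const_sub s)).neg).div_const a
      refine h.congr_deriv ?_
      field_simp
  have h0 : Tendsto (fun t => s - a * t) atTop atBot :=
    tendsto_atBot_add_const_left _ s (tendsto_neg_atTop_atBot.comp (tendsto_id.const_mul_atTop ha))
  have h1 : Tendsto (fun t => -Hh (s - a * t) / a) atTop (𝓝 (-0 / a)) :=
    (Hh_atBot.comp h0).neg.div_const a
  refine ⟨integrableOn_Ioi_deriv_of_nonneg' hd (fun x _ => (Ph_pos _).le) h1, ?_⟩
  rw [integral_Ioi_of_hasDerivAt_of_nonneg' hd (fun x _ => (Ph_pos _).le) h1]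
  simp [neg_div]

lemma int_abs : ∫ x, |x| ∂gg = 2 * (√(2 * π))⁻¹ := by
  have e : ∀ x, ph x * |x| = ph |x| * (|x| - 0) := fun x => by
    rcases abs_choice x with h | h <;> simp [h, ph_neg]
  rw [integral_gg]
  simp only [e]
  rw [integral_comp_abs (f := fun y => ph y * (y - 0)), gauss_tail]
  simp [Hh, ph]

end Vale.Agent.P226
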