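import Vale.Agent.P226.Num

namespace Vale.Agent.P226
variable {κ p x D : ℝ}

lemma th_0_2 : 0.420739 ≤ Ph (-0.2) ∧ Ph (-0.2) ≤ 0.420741 := ⟨tb_0_2.2.1, tb_0_2.2.2.1⟩
lemma th_0_35 : 0.363168 ≤ Ph (-0.35) ∧ Ph (-0.35) ≤ 0.363170 := ⟨tb_0_35.2.1, tb_0_35.2.2.1⟩
lemma th_0_47 : 0.319176 ≤ Ph (-0.47) ∧ Ph (-0.47) ≤ 0.319179 := ⟨tb_0_47.2.1, tb_0_47.2.2.1⟩
lemma th_0_52 : 0.301531 ≤ Ph (-0.52) ∧ Ph (-0.52) ≤ 0.301533 := ⟨tb_0_52.2.1, tb_0_52.2.2.1⟩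
lemma th_0_62 : 0.267628 ≤ Ph (-0.62) ∧ Ph (-0.62) ≤ 0.267630 := ⟨tb_0_62.2.1, tb_0_62.2.2.1⟩
lemma th_0_72 : 0.235761 ≤ Ph (-0.72) ∧ Ph (-0.72) ≤ 0.235764 := ⟨tb_0_72.2.1, tb_0_72.2.2.1⟩
lemma th_0_8 : 0.211854 ≤ Ph (-0.8) ∧ Ph (-0.8) ≤ 0.211856 := ⟨tb_0_8.2.1, tb_0_8.2.2.1⟩
lemma th_0_95 : 0.171055 ≤ Ph (-0.95) ∧ Ph (-0.95) ≤ 0.171057 := ⟨tb_0_95.2.1, tb_0_95.2.2.1⟩
lemma th_1 : 0.158654 ≤ Ph (-1) ∧ Ph (-1) ≤ 0.158656 := ⟨tb_1.2.1, tb_1.2.2.1⟩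
lemma th_1_08 : 0.140070 ≤ Ph (-1.08) ∧ Ph (-1.08) ≤ 0.140072 := ⟨tb_1_08.2.1, tb_1_08.2.2.1⟩
lemma th_1_25 : 0.105649 ≤ Ph (-1.25) ∧ Ph (-1.25) ≤ 0.105651 := ⟨tb_1_25.2.1, tb_1_25.2.2.1⟩
lemma th_1_4 : 0.080756 ≤ Ph (-1.4) ∧ Ph (-1.4) ≤ 0.080758 := ⟨tb_1_4.2.1, tb_1_4.2.2.1⟩
lemma th_1_55 : 0.060570 ≤ Ph (-1.55) ∧ Ph (-1.55) ≤ 0.060572 := ⟨tb_1_55.2.1, tb_1_55.2.2.1⟩
lemma th_1_64 : 0.050501 ≤ Ph (-1.64) ∧ Ph (-1.64) ≤ 0.050504 := ⟨tb_1_64.2.1, tb_1_64.2.2.1⟩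
lemma th_1_96 : 0.024997 ≤ Ph (-1.96) ∧ Ph (-1.96) ≤ 0.024999 := ⟨tb_1_96.2.1, tb_1_96.2.2.1⟩

lemma l1 (h : CellOK κ p x D) (hκ : 1 ≤ κ) (hD : D ≤ 13 / 100) (D0 : ℝ) :
    x ≤ (2 - 2 * 2.7925 * D0) * D + 2.7925 * D0 ^ 2 := h.lin (by norm_num) (by linarith) hD D0
lemma l4 (h : CellOK (4 / 3) p x D) (hD : D ≤ 13 / 100) (D0 : ℝ) :
    x ≤ (2 - 2 * 3.7233 * D0) * D + 3.7233 * D0 ^ 2 := h.lin (by norm_num) (by norm_num) hD D0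

lemma ch_CB (h : CellOK κ p x D) (hκ : 1 ≤ κ) (h2 : Ph (-1.64) ≤ p) (h1 : p ≤ Ph (-1.4)) :
    x ≤ -0.00646 + 0.2152 * p := by
  have d := dc_1_4_1_64 h h2 h1
  obtain ⟨-, a2⟩ := th_1_4
  obtain ⟨b1, -⟩ := th_1_64
  have := l1 h hκ (by linarith) 0.004
  linarith
lemma ch_EG (h : CellOK κ p x D) (hκ : 1 ≤ κ) (h2 : Ph (-1.96) ≤ p) (h1 : p ≤ Ph (-1.55)) :
    x ≤ -0.00249 + 0.1445 * p := by
  have d := dc_1_55_1_96 h h2 h1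
  obtain ⟨-, a2⟩ := th_1_55
  obtain ⟨b1, -⟩ := th_1_96
  have := l1 h hκ (by linarith) 0.002
  linarith
lemma ch_BJ (h : CellOK κ p x D) (hκ : 1 ≤ κ) (h2 : Ph (-1.4) ≤ p) (h1 : p ≤ Ph (-1.25)) :
    x ≤ -0.01289 + 0.2949 * p := by
  have d := dc_1_25_1_4 h h2 h1
  obtain ⟨-, a2⟩ := th_1_25
  obtain ⟨b1, -⟩ := th_1_4
  have := l1 h hκ (by linarith) 0.0075
  linarith
lemma ch_JH (h : CellOK κ p x D) (hκ : 1 ≤ κ) (h2 : Ph (-1.25) ≤ p) (h1 : p ≤ Ph (-1.08)) :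
    x ≤ -0.02106 + 0.3725 * p := by
  have d := dc_1_08_1_25 h h2 h1
  obtain ⟨-, a2⟩ := th_1_08
  obtain ⟨b1, -⟩ := th_1_25
  have := l1 h hκ (by linarith) 0.013
  linarith
lemma ch_HN (h : CellOK κ p x D) (hκ : 1 ≤ κ) (h2 : Ph (-1.08) ≤ p) (h1 : p ≤ Ph (-1)) :
    x ≤ -0.02999 + 0.4362 * p := by
  have d := dc_1_1_08 h h2 h1
  obtain ⟨-, a2⟩ := th_1
  obtain ⟨b1, -⟩ := th_1_08
  have := l1 h hκ (by linarith) 0.018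
  linarith
lemma ch_NA (h : CellOK κ p x D) (hκ : 1 ≤ κ) (h2 : Ph (-1) ≤ p) (h1 : p ≤ Ph (-0.95)) :
    x ≤ -0.03523 + 0.4692 * p := by
  have d := dc_0_95_1 h h2 h1
  obtain ⟨-, a2⟩ := th_0_95
  obtain ⟨b1, -⟩ := th_1
  have := l1 h hκ (by linarith) 0.022
  linarith
lemma ch_GB (h : CellOK κ p x D) (hκ : 1 ≤ κ) (h2 : Ph (-1.55) ≤ p) (h1 : p ≤ Ph (-1.4)) :
    x ≤ -0.00769 + 0.2304 * p := by
  have d := dc_1_4_1_55 h h2 h1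
  obtain ⟨-, a2⟩ := th_1_4
  obtain ⟨b1, -⟩ := th_1_55
  have := l1 h hκ (by linarith) 0.0045
  linarith
lemma lb_a (h : CellOK κ p x D) (hκ : 1 ≤ κ) (h2 : Ph (-0.95) ≤ p) (h1 : p ≤ Ph (-0.72)) :
    x ≤ -0.05494 + 0.585 * p := by
  have d := dc_0_72_0_95 h h2 h1
  obtain ⟨-, a2⟩ := th_0_72
  obtain ⟨b1, -⟩ := th_0_95
  have := l1 h hκ (by linarith) 0.0233
  linarith
lemma lb_b (h : CellOK κ p x D) (hκ : 1 ≤ κ) (h2 : Ph (-0.72) ≤ p) (h1 : p ≤ Ph (-0.52)) :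
    x ≤ -0.05494 + 0.585 * p := by
  have d := dc_0_52_0_72 h h2 h1
  obtain ⟨-, a2⟩ := th_0_52
  obtain ⟨b1, -⟩ := th_0_72
  have := l1 h hκ (by linarith) 0.0668
  linarith
lemma lb4_a (h : CellOK (4 / 3) p x D) (h2 : Ph (-0.95) ≤ p) (h1 : p ≤ Ph (-0.72)) :
    x ≤ -0.05108 + 0.56 * p := by
  have d := dc_0_72_0_95 h h2 h1
  obtain ⟨-, a2⟩ := th_0_72
  obtain ⟨b1, -⟩ := th_0_95
  have := l4 h (by linarith) 0.0233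
  linarith
lemma lb4_b (h : CellOK (4 / 3) p x D) (h2 : Ph (-0.72) ≤ p) (h1 : p ≤ Ph (-0.52)) :
    x ≤ -0.05108 + 0.56 * p := by
  have d := dc_0_52_0_72 h h2 h1
  obtain ⟨-, a2⟩ := th_0_52
  obtain ⟨b1, -⟩ := th_0_72
  have := l4 h (by linarith) 0.0668
  linarith
lemma lb4_c (h : CellOK (4 / 3) p x D) (h2 : Ph (-0.52) ≤ p) (h1 : p ≤ Ph (-0.47)) :
    x ≤ -0.05108 + 0.56 * p := by
  have d := dc_0_47_0_52 h h2 h1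
  obtain ⟨-, a2⟩ := th_0_47
  obtain ⟨b1, -⟩ := th_0_52
  have := l4 h (by linarith) 0.074
  linarith
lemma c4_a (h : CellOK (4 / 3) p x D) (h2 : Ph (-1) ≤ p) (h1 : p ≤ Ph (-0.95)) :
    x ≤ -0.05003 + 0.56 * p := by
  have d := dc_0_95_1 h h2 h1
  obtain ⟨-, a2⟩ := th_0_95
  obtain ⟨b1, -⟩ := th_1
  have := l4 h (by linarith) 0.021
  linarith
lemma ch4_AM (h : CellOK (4 / 3) p x D) (h2 : Ph (-0.95) ≤ p) (h1 : p ≤ Ph (-0.8)) :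
    x ≤ -0.0393 + 0.493 * p := by
  have d := dc_0_8_0_95 h h2 h1
  obtain ⟨-, a2⟩ := th_0_8
  obtain ⟨b1, -⟩ := th_0_95
  have := l4 h (by linarith) 0.035
  linarith
lemma ps_a (h : CellOK (4 / 3) p x D) (h2 : Ph (-0.8) ≤ p) (h1 : p ≤ Ph (-0.62)) :
    D + 0.3 * x ≤ -0.06003 + 0.54 * p := by
  have d := dc_0_62_0_8 h h2 h1
  obtain ⟨-, a2⟩ := th_0_62
  obtain ⟨b1, -⟩ := th_0_8
  have := l4 h (by linarith) 0.035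
  linarith
lemma ps_b (h : CellOK (4 / 3) p x D) (h2 : Ph (-0.62) ≤ p) (h1 : p ≤ Ph (-0.47)) :
    D + 0.3 * x ≤ -0.06003 + 0.54 * p := by
  have d := dc_0_47_0_62 h h2 h1
  obtain ⟨-, a2⟩ := th_0_47
  obtain ⟨b1, -⟩ := th_0_62
  have := l4 h (by linarith) 0.074
  linarith

lemma lb (h : CellOK κ p x D) (hκ : 1 ≤ κ) (h2 : Ph (-0.95) ≤ p) : x ≤ -0.05494 + 0.585 * p := by
  rcases le_total p (Ph (-0.72)) with a | a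
  · exact lb_a h hκ h2 a
  rcases le_total p (Ph (-0.52)) with b | b
  · exact lb_b h hκ a b
  have := tn_0_52 h (by linarith [th_1.2, th_0_52.1])
  linarith [th_0_52.1]

lemma lb4 (h : CellOK (4 / 3) p x D) (h2 : Ph (-0.95) ≤ p) : x ≤ -0.05108 + 0.56 * p := by
  rcases le_total p (Ph (-0.72)) with a | a
  · exact lb4_a h h2 a
  rcases le_total p (Ph (-0.52)) with b | b
  · exact lb4_b h a b
  rcases le_total p (Ph (-0.47)) with c | c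
  · exact lb4_c h b c
  have := tn_0_47 h (by linarith [th_1.2, th_0_47.1])
  linarith [th_0_47.1]

lemma c4 (h : CellOK (4 / 3) p x D) (h2 : Ph (-1) ≤ p) : x ≤ -0.05003 + 0.56 * p := by
  rcases le_total p (Ph (-0.95)) with a | a
  · exact c4_a h h2 a
  linarith [lb4 h a]

lemma ps (h : CellOK (4 / 3) p x D) (h2 : Ph (-0.8) ≤ p) : D + 0.3 * x ≤ -0.06003 + 0.54 * p := by
  rcases le_total p (Ph (-0.62)) with a | a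
  · exact ps_a h h2 a
  rcases le_total p (Ph (-0.47)) with b | b
  · exact ps_b h a b
  have hN : Ph (-1) ≤ p := by linarith [th_1.2, th_0_47.1]
  rcases le_total p (Ph (-0.35)) with c | c
  · linarith [tn_0_47 h hN, dc_0_35_0_47 h b c, th_0_47.1, th_0_35.2]
  rcases le_total p (Ph (-0.2)) with d | d
  · linarith [tn_0_35 h hN, dc_0_2_0_35 h c d, th_0_35.1, th_0_2.2]
  have e : p ≤ Ph (-0) := by rw [neg_zero, Ph_zero]; exact h.half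
  linarith [tn_0_2 h hN, dc_0_0_2 h d e, th_0_2.1, h.half]

lemma osq (h : CellOK κ p x D) (hκ : 1 ≤ κ) {q : ℝ} (h1 : p ≤ q) : x ≤ 2 * q * p := by
  have := h.sq (by linarith)
  nlinarith [h.p0]

lemma oA (h : CellOK κ p x D) (hκ : 1 ≤ κ) (h1 : p ≤ Ph (-0.95)) : x ≤ 0.2634 * p := by
  rcases le_total p 0.1317 with a | a
  · linarith [osq h hκ a]
  rcases le_total p (Ph (-1.08)) with b | b
  · linarith [ch_JH h hκ (by linarith [th_1_25.2]) b, th_1_08.2]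
  rcases le_total p (Ph (-1)) with c | c
  · linarith [ch_HN h hκ b c, th_1.2]
  linarith [ch_NA h hκ c h1, th_0_95.2]

lemma oB (h : CellOK κ p x D) (hκ : 1 ≤ κ) (h1 : p ≤ Ph (-1.4)) : x ≤ 0.1353 * p := by
  rcases le_total p (Ph (-1.55)) with a | a
  · nlinarith [osq h hκ a, th_1_55.2, h.p0]
  linarith [ch_GB h hκ a h1, th_1_4.2]

lemma oG (h : CellOK κ p x D) (hκ : 1 ≤ κ) (h1 : p ≤ Ph (-1.55)) : x ≤ 0.1035 * p := by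
  rcases le_total p (Ph (-1.96)) with a | a
  · nlinarith [osq h hκ a, th_1_96.2, h.p0]
  linarith [ch_EG h hκ a h1, th_1_55.2]

lemma exN (h : CellOK κ p x D) (hκ : 1 ≤ κ) (h2 : Ph (-1) ≤ p) : x ≤ 0.585 * p - 0.0536 := by
  rcases le_total p (Ph (-0.95)) with a | a
  · linarith [ch_NA h hκ h2 a, th_1.1]
  linarith [lb h hκ a]
lemma exH (h : CellOK κ p x D) (hκ : 1 ≤ κ) (h2 : Ph (-1.08) ≤ p) : x ≤ 0.585 * p - 0.0508 := by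
  rcases le_total p (Ph (-1)) with a | a
  · linarith [ch_HN h hκ h2 a, th_1_08.1]
  linarith [exN h hκ a]
lemma exJ (h : CellOK κ p x D) (hκ : 1 ≤ κ) (h2 : Ph (-1.25) ≤ p) : x ≤ 0.585 * p - 0.0435 := by
  rcases le_total p (Ph (-1.08)) with a | a
  · linarith [ch_JH h hκ h2 a, th_1_25.1]
  linarith [exH h hκ a]
lemma exB (h : CellOK κ p x D) (hκ : 1 ≤ κ) (h2 : Ph (-1.4) ≤ p) : x ≤ 0.585 * p - 0.0363 := by
  rcases le_total p (Ph (-1.25)) with a | a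
  · linarith [ch_BJ h hκ h2 a, th_1_4.1]
  linarith [exJ h hκ a]
lemma exG (h : CellOK κ p x D) (hκ : 1 ≤ κ) (h2 : Ph (-1.55) ≤ p) : x ≤ 0.585 * p - 0.0291 := by
  rcases le_total p (Ph (-1.4)) with a | a
  · linarith [ch_GB h hκ h2 a, th_1_55.1]
  linarith [exB h hκ a]
lemma exE (h : CellOK κ p x D) (hκ : 1 ≤ κ) (h2 : Ph (-1.96) ≤ p) : x ≤ 0.585 * p - 0.0134 := by
  rcases le_total p (Ph (-1.55)) with a | a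
  · linarith [ch_EG h hκ h2 a, th_1_96.1]
  linarith [exG h hκ a]
lemma ex0 (h : CellOK κ p x D) (hκ : 1 ≤ κ) : x ≤ 0.585 * p := by
  rcases le_total p (Ph (-0.95)) with a | a
  · linarith [oA h hκ a, h.p0]
  linarith [lb h hκ a]
lemma t35 (h : CellOK κ p x D) (hκ : 1 ≤ κ) : x ≤ 0.045415 + 0.2634 * p := by
  rcases le_total p (Ph (-0.95)) with a | a
  · linarith [oA h hκ a, h.p0]
  linarith [tn_0_35 h (by linarith [th_1.2, th_0_95.1]), h.p0]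

/-- facts on a big cell -/
def Big (p x : ℝ) : Prop := 0.171055 ≤ p ∧ p ≤ 0.5 ∧ x ≤ -0.05494 + 0.585 * p ∧ x ≤ 0.159156 ∧
  x ≤ 0.087106 + 0.15643 * p ∧ x ≤ 0.045415 + 0.26268 * p ∧ x ≤ 0.020435 + 0.33580 * p ∧ x ≤ 0.012165 + 0.36244 * p

lemma big_of (h : CellOK κ p x D) (hκ : 1 ≤ κ) (h2 : Ph (-0.95) ≤ p) : Big p x := by
  have hN : Ph (-1) ≤ p := by linarith [th_1.2, th_0_95.1]
  exact ⟨by linarith [th_0_95.1], by linarith [h.half], lb h hκ h2, h.xle, tn_0_2 h hN, tn_0_35 h hN, tn_0_47 h hN,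
    tn_0_52 h hN⟩

end Vale.Agent.P226
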