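import Vale.Agent.P226.Cases
import Vale.Agent.P226.Cell

namespace Vale.Agent.P226
open MeasureTheory ProbabilityTheory Real Finset
open scoped RealInnerProductSpace

variable {E : Type} [NormedAddCommGroup E] [InnerProductSpace ℝ E] [FiniteDimensional ℝ E]
  [MeasurableSpace E] [BorelSpace E] {ι : Type}

lemma pick [DecidableEq ι] (S : Finset ι) (hS : 0 < S.card) (p : ι → ℝ) :
    ∃ i ∈ S, (∀ j ∈ S, p j ≤ p i) ∧ (S.erase i).card + 1 = S.card ∧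
      ∀ f : ι → ℝ, ∑ a ∈ S, f a = f i + ∑ a ∈ S.erase i, f a := by
  obtain ⟨i, hi, h⟩ := exists_max_image S p (card_pos.1 hS)
  exact ⟨i, hi, h, card_erase_add_one hi, fun f => (add_sum_erase S f hi).symm⟩

lemma sum_lin (S : Finset ι) {x p : ι → ℝ} {c : ℝ} (h : ∀ a ∈ S, x a ≤ c * p a) :
    ∑ a ∈ S, x a ≤ c * ∑ a ∈ S, p a := by
  rw [mul_sum]; exact sum_le_sum h

lemma half_w [Fintype ι] {z : ι → E} (h : Crit z) {i j l : ι} (hij : i ≠ j) (hil : i ≠ l) (hjl : j ≠ l) :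
    -⟪z i, z j⟫ ≤ ‖z i‖ ^ 2 / 2 ∨ -⟪z i, z l⟫ ≤ ‖z i‖ ^ 2 / 2 := by
  classical
  have e : ∑ a, ⟪z i, z a⟫ = 0 := by rw [← inner_sum, h.sum0, inner_zero_right]
  rw [← add_sum_erase _ _ (mem_univ i), ← add_sum_erase _ _ (show j ∈ univ.erase i by simp [hij.symm]),
    ← add_sum_erase _ _ (show l ∈ (univ.erase i).erase j by simp [hil.symm, hjl.symm]),
    real_inner_self_eq_norm_sq] at e
  have : ∑ a ∈ ((univ.erase i).erase j).erase l, ⟪z i, z a⟫ ≤ 0 :=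
    sum_nonpos fun a ha => (h.obt i a (by simp at ha; tauto)).le
  by_contra hc
  push Not at hc
  linarith [hc.1, hc.2]

lemma four_fin {F x4 p4 S e1 e2 e3 D1 D2 D3 x1 x2 x3 p1 p2 p3 : ℝ} (hF : 0.358098 < F)
    (hx : F = x1 + x2 + x3 + x4) (hp : p1 + p2 + p3 + p4 = 1)
    (a1 : F - e1 ≤ 4 / 3 * D1) (a2 : F - e2 ≤ 4 / 3 * D2) (a3 : F - e3 ≤ 4 / 3 * D3)
    (b1 : D1 + 0.3 * x1 ≤ -0.06003 + 0.54 * p1) (b2 : D2 + 0.3 * x2 ≤ -0.06003 + 0.54 * p2)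
    (b3 : D3 + 0.3 * x3 ≤ -0.06003 + 0.54 * p3) (hS : 2.506628 ≤ S)
    (h4 : 9.486 * x4 + 0.18 ≤ 3.609 * p4) (hp4 : 0 ≤ p4)
    (h : 2 * S * (e1 + e2 + e3) ≤ (9 * F - 12 * x4) / (2 * 1.75) + 1.75 / 2 + (3 * F + 12 * x4) / 1.1 + 1.1)
    (x40 : 0 ≤ x4) : False := by
  have e0 : 0 ≤ e1 + e2 + e3 := by linarith
  have := mul_le_mul_of_nonneg_right hS e0
  have e : (9 * F - 12 * x4) / (2 * 1.75) + 1.75 / 2 + (3 * F + 12 * x4) / 1.1 + 1.1 =
      408 / 77 * F + 576 / 77 * x4 + 79 / 40 := by norm_num; ring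
  rw [e] at h
  linarith

set_option maxHeartbeats 800000 in
lemma case4 [Fintype ι] {z : ι → E} (h : Crit z) {i j l n : ι} (hij : i ≠ j) (hil : i ≠ l) (hin : i ≠ n)
    (hjl : j ≠ l) (hjn : j ≠ n) (hln : l ≠ n) (hall : ∀ a, a = i ∨ a = j ∨ a = l ∨ a = n)
    (hk : kap ι = 4 / 3) (hx : ∑ a, ‖z a‖ ^ 2 = ‖z i‖ ^ 2 + ‖z j‖ ^ 2 + ‖z l‖ ^ 2 + ‖z n‖ ^ 2)
    (hp : pc z i + pc z j + pc z l + pc z n = 1) (o1 : pc z l ≤ pc z i) (o2 : pc z l ≤ pc z j)
    (hA : Ph (-0.95) ≤ pc z l) (hB : Ph (-1.4) ≤ pc z n) : False := by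
  choose D hD hD' using cell_ok h
  rw [hk] at hD hD'
  have F := h.big
  have F1 := F0_bd.1
  have k1 : (1 : ℝ) ≤ 4 / 3 := by norm_num
  rcases le_total (Ph (-1)) (pc z n) with hN | hN
  · linarith [lb4 (hD i) (hA.trans o1), lb4 (hD j) (hA.trans o2), lb4 (hD l) hA, c4 (hD n) hN]
  have q : ‖z n‖ ^ 2 ≤ 0.3358 * pc z n - 0.01405 ∧ 9.486 * ‖z n‖ ^ 2 + 0.18 ≤ 3.609 * pc z n := by
    rcases le_total (pc z n) (Ph (-1.25)) with a | a
    · constructor <;> linarith [ch_BJ (hD n) k1 hB a, th_1_4.1, th_1_25.2]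
    rcases le_total (pc z n) (Ph (-1.08)) with b | b
    · constructor <;> linarith [ch_JH (hD n) k1 a b, th_1_25.1, th_1_08.2]
    · constructor <;> linarith [ch_HN (hD n) k1 b hN, th_1_08.1, th_1.2]
  have hNA : Ph (-1) ≤ pc z l := by linarith [th_1.2, th_0_95.1]
  rcases le_total (pc z l) (Ph (-0.8)) with hM | hM
  · linarith [tn_0_47 (hD i) (hNA.trans o1), tn_0_47 (hD j) (hNA.trans o2), ch4_AM (hD l) hA hM, q.1, th_0_8.2]
  have hS : (2.506628 : ℝ) ≤ √(2 * π) := le_sqrt_of_sq_le (by linarith [pi_gt_d6])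
  exact four_fin (F1.trans F) hx hp (hD' i) (hD' j) (hD' l) (ps (hD i) (hM.trans o1)) (ps (hD j) (hM.trans o2))
    (ps (hD l) hM) hS q.2 (hD n).p0.le
    (per4 h.sum0 hij hil hin hjl hjn hln hall (by norm_num) (by norm_num)) (sq_nonneg _)

set_option maxHeartbeats 1600000 in
theorem no_crit [Fintype ι] {z : ι → E} (h : Crit z) : False := by
  classical
  choose D hD hD' using cell_ok h
  have hκ := (kap_bounds h.card).1
  have F := h.big
  have F1 := F0_bd.1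
  have hc := h.card
  have hP := h.psum
  rw [← card_univ] at hc
  obtain ⟨i, -, mi, ci, si⟩ := pick univ (by omega) (pc z)
  obtain ⟨j, hj, mj, cj, sj⟩ := pick (univ.erase i) (by omega) (pc z)
  obtain ⟨l, hl, ml, cl, sl⟩ := pick ((univ.erase i).erase j) (by omega) (pc z)
  obtain ⟨n, hn, mn, cn, sn⟩ := pick (((univ.erase i).erase j).erase l) (by omega) (pc z)
  have hji : j ≠ i := (mem_erase.1 hj).1
  have hlj : l ≠ j := (mem_erase.1 hl).1
  have hli : l ≠ i := (mem_erase.1 (mem_erase.1 hl).2).1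
  have hnl : n ≠ l := (mem_erase.1 hn).1
  have hnj : n ≠ j := (mem_erase.1 (mem_erase.1 hn).2).1
  have hni : n ≠ i := (mem_erase.1 (mem_erase.1 (mem_erase.1 hn).2).2).1
  have o1 : pc z l ≤ pc z i := mi l (mem_univ _)
  have o2 : pc z l ≤ pc z j := mj l (mem_erase.1 hl).2
  have o3 : pc z n ≤ pc z l := ml n (mem_erase.1 hn).2
  rcases le_total (pc z l) (Ph (-0.95)) with hA | hA
  · have := sum_lin ((univ.erase i).erase j) (x := fun a => ‖z a‖ ^ 2) fun a ha =>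
      oA (hD a) hκ ((ml a ha).trans hA)
    rw [si, sj] at F hP
    linarith [t35 (hD i) hκ, t35 (hD j) hκ]
  have bi := big_of (hD i) hκ (hA.trans o1)
  have bj := big_of (hD j) hκ (hA.trans o2)
  have bl := big_of (hD l) hκ hA
  have hX := si fun a => ‖z a‖ ^ 2
  rw [sj, sl, sn] at hX
  rw [si, sj, sl, sn] at hP
  have m4 : ∀ a ∈ (((univ.erase i).erase j).erase l).erase n, pc z a ≤ pc z n := fun a ha =>
    mn a (mem_erase.1 ha).2
  have s4 : ∀ a, a = i ∨ a = j ∨ a = l ∨ a = n ∨ a ∈ (((univ.erase i).erase j).erase l).erase n := fun a => by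
    simp only [mem_erase, mem_univ]; tauto
  have s4' : ∀ a ∈ (((univ.erase i).erase j).erase l).erase n, a ≠ i ∧ a ≠ j ∧ a ≠ l ∧ a ≠ n := fun a => by
    simp only [mem_erase, mem_univ]; tauto
  generalize (((univ.erase i).erase j).erase l).erase n = S at *
  have X0 : ∀ T : Finset ι, 0 ≤ ∑ a ∈ T, ‖z a‖ ^ 2 := fun T => sum_nonneg fun a _ => sq_nonneg _
  have P0 : ∀ T : Finset ι, 0 ≤ ∑ a ∈ T, pc z a := fun T => sum_nonneg fun a _ => (hD a).p0.le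
  rcases le_total (pc z n) (Ph (-1.64)) with hC | hC
  · exact caseIa h hji.symm hli.symm hlj.symm hni hnj hnl bi bj bl (by linarith) (by linarith) (hD n).p0
      (hC.trans th_1_64.2) (osq (hD n) hκ le_rfl) (X0 S) (P0 S) (sum_lin S fun a ha => osq (hD a) hκ (m4 a ha))
  rcases le_total (pc z n) (Ph (-1.4)) with hB | hB
  · exact caseIb h hji.symm hli.symm hlj.symm hni hnj hnl bi bj bl (by linarith) (by linarith)
      (th_1_64.1.trans hC) (hB.trans th_1_4.2) (ch_CB (hD n) hκ hC hB) (X0 S) (P0 S)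
      (sum_lin S fun a ha => oB (hD a) hκ ((m4 a ha).trans hB))
  rcases S.card.eq_zero_or_pos with h0 | h0
  · have hk : kap ι = 4 / 3 := by
      have : Fintype.card ι = 4 := by rw [← card_univ]; omega
      rw [kap, this]; norm_num
    obtain rfl := card_eq_zero.1 h0
    rw [sum_empty] at hX hP
    exact case4 h hji.symm hli.symm hni.symm hlj.symm hnj.symm hnl.symm (by simpa using s4) hk (by linarith)
      (by linarith) o1 o2 hA hB
  obtain ⟨m, hm, mm, -, sm⟩ := pick S h0 (pc z)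
  rw [sm] at hX hP
  obtain ⟨hmi, hmj, hml, hmn⟩ := s4' m hm
  have m5 : ∀ a ∈ S.erase m, pc z a ≤ pc z m := fun a ha => mm a (mem_erase.1 ha).2
  generalize S.erase m = R at *
  have r0 := sum_lin R (x := fun a => ‖z a‖ ^ 2) fun a _ => ex0 (hD a) hκ
  have i3 := bi.2.2.1
  have j3 := bj.2.2.1
  have l3 := bl.2.2.1
  rcases le_total (Ph (-1.55)) (pc z m) with hG | hG
  · linarith [exB (hD n) hκ hB, exG (hD m) hκ hG]
  rcases le_total (Ph (-1.96)) (pc z m) with hE | hE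
  · rcases le_total (Ph (-1.08)) (pc z n) with hH | hH
    · linarith [exH (hD n) hκ hH, exE (hD m) hκ hE]
    refine caseII5 h hji.symm hli.symm hlj.symm hmi hmj hml bi bj bl (x4 := ‖z n‖ ^ 2) (p4 := pc z n)
      (by linarith) (by linarith) (th_1_96.1.trans hE) (hG.trans th_1_55.2) (ch_EG (hD m) hκ hE hG) (X0 R) (P0 R)
      (sum_lin R fun a ha => oG (hD a) hκ ((m5 a ha).trans hG)) (sq_nonneg _) ?_
    rcases le_total (pc z n) (Ph (-1.25)) with hJ | hJ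
    · exact .inl ⟨th_1_4.1.trans hB, hJ.trans th_1_25.2, ch_BJ (hD n) hκ hB hJ⟩
    · exact .inr ⟨th_1_25.1.trans hJ, hH.trans th_1_08.2, ch_JH (hD n) hκ hJ hH⟩
  have h4 : (0.080756 ≤ pc z n ∧ pc z n ≤ 0.171057 ∧ ‖z n‖ ^ 2 ≤ 0.585 * pc z n - 0.0363 ∧
      ‖z n‖ ^ 2 ≤ 0.2634 * pc z n) ∨ (0.171055 ≤ pc z n ∧ ‖z n‖ ^ 2 ≤ -0.05494 + 0.585 * pc z n) := by
    rcases le_total (pc z n) (Ph (-0.95)) with a | a
    · exact .inl ⟨th_1_4.1.trans hB, a.trans th_0_95.2, exB (hD n) hκ hB, oA (hD n) hκ a⟩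
    · exact .inr ⟨th_0_95.1.trans a, lb (hD n) hκ a⟩
  have key : ∀ a b c : ι, a ≠ b → a ≠ c → b ≠ c → m ≠ a → m ≠ b → m ≠ c → n ≠ a → n ≠ b → n ≠ c →
      Big (pc z a) (‖z a‖ ^ 2) → Big (pc z b) (‖z b‖ ^ 2) → Big (pc z c) (‖z c‖ ^ 2) →
      ‖z a‖ ^ 2 + ‖z b‖ ^ 2 + ‖z c‖ ^ 2 = ‖z i‖ ^ 2 + ‖z j‖ ^ 2 + ‖z l‖ ^ 2 →
      pc z a + pc z b + pc z c = pc z i + pc z j + pc z l → pc z n ≤ pc z a → pc z n ≤ pc z b → pc z n ≤ pc z c →
      ‖z a‖ ^ 2 ≤ ‖z b‖ ^ 2 → ‖z a‖ ^ 2 ≤ ‖z c‖ ^ 2 → False := by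
    intro a b c ab ac bc ma mb mc na nb nc ba bb bc' ex ep n1 n2 n3 u1 u2
    have t := sum_lin R (x := fun a => ‖z a‖ ^ 2) fun a ha => osq (hD a) hκ (m5 a ha)
    rcases half_w h ab ac bc with w | w
    · exact caseT4 h ab ac bc ma mb mc ba bb bc' na.symm nb.symm nc.symm hmn (by linarith) (by linarith) (hD m).p0
        (hE.trans th_1_96.2) (osq (hD m) hκ le_rfl) (X0 R) (P0 R) t n1 n2 n3 h4 u1 u2 w
    · exact caseT4 h ac ab bc.symm ma mc mb ba bc' bb na.symm nc.symm nb.symm hmn (by linarith) (by linarith)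
        (hD m).p0 (hE.trans th_1_96.2) (osq (hD m) hκ le_rfl) (X0 R) (P0 R) t n1 n3 n2 h4 u2 u1 w
  have n1 := o3.trans o1
  have n2 := o3.trans o2
  rcases le_total (‖z i‖ ^ 2) (‖z j‖ ^ 2) with u | u
  · rcases le_total (‖z i‖ ^ 2) (‖z l‖ ^ 2) with v | v
    · exact key i j l hji.symm hli.symm hlj.symm hmi hmj hml hni hnj hnl bi bj bl rfl rfl n1 n2 o3 u v
    · exact key l i j hli hlj hji.symm hml hmi hmj hnl hni hnj bl bi bj (by ring) (by ring) o3 n1 n2 v (v.trans u)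
  · rcases le_total (‖z j‖ ^ 2) (‖z l‖ ^ 2) with v | v
    · exact key j i l hji hlj.symm hli.symm hmj hmi hml hnj hni hnl bj bi bl (by ring) (by ring) n2 n1 o3 u v
    · exact key l i j hli hlj hji.symm hml hmi hmj hnl hni hnj bl bi bj (by ring) (by ring) o3 n1 n2 (v.trans u) v

end Vale.Agent.P226
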