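import Vale.Agent.P226.Num0

namespace Vale.Agent.P226
variable {κ p x D : ℝ}
lemma tb_0_2 : Tb 0.2 0.420739 0.420741 0.391042 0.391044 0.120011 :=
  tb_of (by norm_num) (by norm_num [Finset.sum_range_succ, Nat.factorial]) (by norm_num [Finset.sum_range_succ, Nat.factorial])
    (by norm_num [Finset.sum_range_succ, Nat.factorial]) (by norm_num [Finset.sum_range_succ, Nat.factorial]) (by norm_num) (by norm_num)
lemma tb_0_35 : Tb 0.35 0.363168 0.363170 0.375239 0.375241 0.093110 :=
  tb_of (by norm_num) (by norm_num [Finset.sum_range_succ, Nat.factorial]) (by norm_num [Finset.sum_range_succ, Nat.factorial])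
    (by norm_num [Finset.sum_range_succ, Nat.factorial]) (by norm_num [Finset.sum_range_succ, Nat.factorial]) (by norm_num) (by norm_num)
lemma tb_0_47 : Tb 0.47 0.319176 0.319179 0.357224 0.357226 0.074023 :=
  tb_of (by norm_num) (by norm_num [Finset.sum_range_succ, Nat.factorial]) (by norm_num [Finset.sum_range_succ, Nat.factorial])
    (by norm_num [Finset.sum_range_succ, Nat.factorial]) (by norm_num [Finset.sum_range_succ, Nat.factorial]) (by norm_num) (by norm_num)
lemma tb_0_52 : Tb 0.52 0.301531 0.301533 0.348491 0.348494 0.066807 :=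
  tb_of (by norm_num) (by norm_num [Finset.sum_range_succ, Nat.factorial]) (by norm_num [Finset.sum_range_succ, Nat.factorial])
    (by norm_num [Finset.sum_range_succ, Nat.factorial]) (by norm_num [Finset.sum_range_succ, Nat.factorial]) (by norm_num) (by norm_num)
lemma tb_0_62 : Tb 0.62 0.267628 0.267630 0.329183 0.329185 0.053742 :=
  tb_of (by norm_num) (by norm_num [Finset.sum_range_succ, Nat.factorial]) (by norm_num [Finset.sum_range_succ, Nat.factorial])
    (by norm_num [Finset.sum_range_succ, Nat.factorial]) (by norm_num [Finset.sum_range_succ, Nat.factorial]) (by norm_num) (by norm_num)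
lemma tb_0_72 : Tb 0.72 0.235761 0.235764 0.307850 0.307852 0.042517 :=
  tb_of (by norm_num) (by norm_num [Finset.sum_range_succ, Nat.factorial]) (by norm_num [Finset.sum_range_succ, Nat.factorial])
    (by norm_num [Finset.sum_range_succ, Nat.factorial]) (by norm_num [Finset.sum_range_succ, Nat.factorial]) (by norm_num) (by norm_num)
lemma tb_0_8 : Tb 0.8 0.211854 0.211856 0.289690 0.289693 0.034825 :=
  tb_of (by norm_num) (by norm_num [Finset.sum_range_succ, Nat.factorial]) (by norm_num [Finset.sum_range_succ, Nat.factorial])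
    (by norm_num [Finset.sum_range_succ, Nat.factorial]) (by norm_num [Finset.sum_range_succ, Nat.factorial]) (by norm_num) (by norm_num)
lemma tb_0_95 : Tb 0.95 0.171055 0.171057 0.254058 0.254060 0.023262 :=
  tb_of (by norm_num) (by norm_num [Finset.sum_range_succ, Nat.factorial]) (by norm_num [Finset.sum_range_succ, Nat.factorial])
    (by norm_num [Finset.sum_range_succ, Nat.factorial]) (by norm_num [Finset.sum_range_succ, Nat.factorial]) (by norm_num) (by norm_num)
lemma tb_1 : Tb 1 0.158654 0.158656 0.241970 0.241972 0.020162 :=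
  tb_of (by norm_num) (by norm_num [Finset.sum_range_succ, Nat.factorial]) (by norm_num [Finset.sum_range_succ, Nat.factorial])
    (by norm_num [Finset.sum_range_succ, Nat.factorial]) (by norm_num [Finset.sum_range_succ, Nat.factorial]) (by norm_num) (by norm_num)
lemma tb_1_08 : Tb 1.08 0.140070 0.140072 0.222652 0.222655 0.015894 :=
  tb_of (by norm_num) (by norm_num [Finset.sum_range_succ, Nat.factorial]) (by norm_num [Finset.sum_range_succ, Nat.factorial])
    (by norm_num [Finset.sum_range_succ, Nat.factorial]) (by norm_num [Finset.sum_range_succ, Nat.factorial]) (by norm_num) (by norm_num)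
lemma tb_1_25 : Tb 1.25 0.105649 0.105651 0.182648 0.182650 0.009241 :=
  tb_of (by norm_num) (by norm_num [Finset.sum_range_succ, Nat.factorial]) (by norm_num [Finset.sum_range_succ, Nat.factorial])
    (by norm_num [Finset.sum_range_succ, Nat.factorial]) (by norm_num [Finset.sum_range_succ, Nat.factorial]) (by norm_num) (by norm_num)
lemma tb_1_4 : Tb 1.4 0.080756 0.080758 0.149726 0.149729 0.005492 :=
  tb_of (by norm_num) (by norm_num [Finset.sum_range_succ, Nat.factorial]) (by norm_num [Finset.sum_range_succ, Nat.factorial])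
    (by norm_num [Finset.sum_range_succ, Nat.factorial]) (by norm_num [Finset.sum_range_succ, Nat.factorial]) (by norm_num) (by norm_num)
lemma tb_1_55 : Tb 1.55 0.060570 0.060572 0.120008 0.120010 0.003137 :=
  tb_of (by norm_num) (by norm_num [Finset.sum_range_succ, Nat.factorial]) (by norm_num [Finset.sum_range_succ, Nat.factorial])
    (by norm_num [Finset.sum_range_succ, Nat.factorial]) (by norm_num [Finset.sum_range_succ, Nat.factorial]) (by norm_num) (by norm_num)
lemma tb_1_64 : Tb 1.64 0.050501 0.050504 0.103960 0.103962 0.002199 :=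
  tb_of (by norm_num) (by norm_num [Finset.sum_range_succ, Nat.factorial]) (by norm_num [Finset.sum_range_succ, Nat.factorial])
    (by norm_num [Finset.sum_range_succ, Nat.factorial]) (by norm_num [Finset.sum_range_succ, Nat.factorial]) (by norm_num) (by norm_num)
lemma tb_1_96 : Tb 1.96 0.024997 0.024999 0.058440 0.058442 0.000553 :=
  tb_of (by norm_num) (by norm_num [Finset.sum_range_succ, Nat.factorial]) (by norm_num [Finset.sum_range_succ, Nat.factorial])
    (by norm_num [Finset.sum_range_succ, Nat.factorial]) (by norm_num [Finset.sum_range_succ, Nat.factorial]) (by norm_num) (by norm_num)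
lemma dc_0_0_2 (h : CellOK κ p x D) (h2 : Ph (-0.2) ≤ p) (h1 : p ≤ Ph (-0)) : D ≤ -0.087778 + 0.49387 * p :=
  chord_of h tb_0 tb_0_2 h2 h1 (by norm_num) (by norm_num) (by norm_num) (by norm_num)
lemma dc_0_2_0_35 (h : CellOK κ p x D) (h2 : Ph (-0.35) ≤ p) (h1 : p ≤ Ph (-0.2)) : D ≤ -0.076586 + 0.46727 * p :=
  chord_of h tb_0_2 tb_0_35 h2 h1 (by norm_num) (by norm_num) (by norm_num) (by norm_num)
lemma dc_0_35_0_47 (h : CellOK κ p x D) (h2 : Ph (-0.47) ≤ p) (h1 : p ≤ Ph (-0.35)) : D ≤ -0.064457 + 0.43387 * p :=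
  chord_of h tb_0_35 tb_0_47 h2 h1 (by norm_num) (by norm_num) (by norm_num) (by norm_num)
lemma dc_0_47_0_52 (h : CellOK κ p x D) (h2 : Ph (-0.52) ≤ p) (h1 : p ≤ Ph (-0.47)) : D ≤ -0.056503 + 0.40895 * p :=
  chord_of h tb_0_47 tb_0_52 h2 h1 (by norm_num) (by norm_num) (by norm_num) (by norm_num)
lemma dc_0_47_0_62 (h : CellOK κ p x D) (h2 : Ph (-0.62) ≤ p) (h1 : p ≤ Ph (-0.47)) : D ≤ -0.051552 + 0.39344 * p :=
  chord_of h tb_0_47 tb_0_62 h2 h1 (by norm_num) (by norm_num) (by norm_num) (by norm_num)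
lemma dc_0_52_0_72 (h : CellOK κ p x D) (h2 : Ph (-0.72) ≤ p) (h1 : p ≤ Ph (-0.52)) : D ≤ -0.044553 + 0.36932 * p :=
  chord_of h tb_0_52 tb_0_72 h2 h1 (by norm_num) (by norm_num) (by norm_num) (by norm_num)
lemma dc_0_62_0_8 (h : CellOK κ p x D) (h2 : Ph (-0.8) ≤ p) (h1 : p ≤ Ph (-0.62)) : D ≤ -0.037028 + 0.33917 * p :=
  chord_of h tb_0_62 tb_0_8 h2 h1 (by norm_num) (by norm_num) (by norm_num) (by norm_num)
lemma dc_0_72_0_95 (h : CellOK κ p x D) (h2 : Ph (-0.95) ≤ p) (h1 : p ≤ Ph (-0.72)) : D ≤ -0.027639 + 0.29758 * p :=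
  chord_of h tb_0_72 tb_0_95 h2 h1 (by norm_num) (by norm_num) (by norm_num) (by norm_num)
lemma dc_0_8_0_95 (h : CellOK κ p x D) (h2 : Ph (-0.95) ≤ p) (h1 : p ≤ Ph (-0.8)) : D ≤ -0.025215 + 0.28341 * p :=
  chord_of h tb_0_8 tb_0_95 h2 h1 (by norm_num) (by norm_num) (by norm_num) (by norm_num)
lemma dc_0_95_1 (h : CellOK κ p x D) (h2 : Ph (-1) ≤ p) (h1 : p ≤ Ph (-0.95)) : D ≤ -0.019497 + 0.24998 * p :=
  chord_of h tb_0_95 tb_1 h2 h1 (by norm_num) (by norm_num) (by norm_num) (by norm_num)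
lemma dc_1_1_08 (h : CellOK κ p x D) (h2 : Ph (-1.08) ≤ p) (h1 : p ≤ Ph (-1)) : D ≤ -0.016273 + 0.22966 * p :=
  chord_of h tb_1 tb_1_08 h2 h1 (by norm_num) (by norm_num) (by norm_num) (by norm_num)
lemma dc_1_08_1_25 (h : CellOK κ p x D) (h2 : Ph (-1.25) ≤ p) (h1 : p ≤ Ph (-1.08)) : D ≤ -0.011178 + 0.19328 * p :=
  chord_of h tb_1_08 tb_1_25 h2 h1 (by norm_num) (by norm_num) (by norm_num) (by norm_num)
lemma dc_1_25_1_4 (h : CellOK κ p x D) (h2 : Ph (-1.4) ≤ p) (h1 : p ≤ Ph (-1.25)) : D ≤ -0.006669 + 0.15060 * p :=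
  chord_of h tb_1_25 tb_1_4 h2 h1 (by norm_num) (by norm_num) (by norm_num) (by norm_num)
lemma dc_1_4_1_55 (h : CellOK κ p x D) (h2 : Ph (-1.55) ≤ p) (h1 : p ≤ Ph (-1.4)) : D ≤ -0.003929 + 0.11667 * p :=
  chord_of h tb_1_4 tb_1_55 h2 h1 (by norm_num) (by norm_num) (by norm_num) (by norm_num)
lemma dc_1_4_1_64 (h : CellOK κ p x D) (h2 : Ph (-1.64) ≤ p) (h1 : p ≤ Ph (-1.4)) : D ≤ -0.003296 + 0.10884 * p :=
  chord_of h tb_1_4 tb_1_64 h2 h1 (by norm_num) (by norm_num) (by norm_num) (by norm_num)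
lemma dc_1_55_1_64 (h : CellOK κ p x D) (h2 : Ph (-1.64) ≤ p) (h1 : p ≤ Ph (-1.55)) : D ≤ -0.002505 + 0.09316 * p :=
  chord_of h tb_1_55 tb_1_64 h2 h1 (by norm_num) (by norm_num) (by norm_num) (by norm_num)
lemma dc_1_55_1_96 (h : CellOK κ p x D) (h2 : Ph (-1.96) ≤ p) (h1 : p ≤ Ph (-1.55)) : D ≤ -0.001262 + 0.07264 * p :=
  chord_of h tb_1_55 tb_1_96 h2 h1 (by norm_num) (by norm_num) (by norm_num) (by norm_num)
lemma tn_0_2 (h : CellOK κ p x D) (h1 : Ph (-1) ≤ p) : x ≤ 0.087106 + 0.15643 * p :=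
  tan_of h tb_0_2 h1 (by norm_num) (by norm_num) (by norm_num) (by norm_num) (by norm_num) (by norm_num)
lemma tn_0_35 (h : CellOK κ p x D) (h1 : Ph (-1) ≤ p) : x ≤ 0.045415 + 0.26268 * p :=
  tan_of h tb_0_35 h1 (by norm_num) (by norm_num) (by norm_num) (by norm_num) (by norm_num) (by norm_num)
lemma tn_0_47 (h : CellOK κ p x D) (h1 : Ph (-1) ≤ p) : x ≤ 0.020435 + 0.33580 * p :=
  tan_of h tb_0_47 h1 (by norm_num) (by norm_num) (by norm_num) (by norm_num) (by norm_num) (by norm_num)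
lemma tn_0_52 (h : CellOK κ p x D) (h1 : Ph (-1) ≤ p) : x ≤ 0.012165 + 0.36244 * p :=
  tan_of h tb_0_52 h1 (by norm_num) (by norm_num) (by norm_num) (by norm_num) (by norm_num) (by norm_num)
end Vale.Agent.P226
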