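import Vale.Agent.P226.Gauss

namespace Vale.Agent.P226
open MeasureTheory ProbabilityTheory Real Finset Filter Topology

lemma num_mono0 {f f' : ℝ → ℝ} {a b : ℝ} (hab : a ≤ b) (hd : ∀ x, HasDerivAt f (f' x) x)
    (h : ∀ x, a ≤ x → x ≤ b → 0 ≤ f' x) : f a ≤ f b := by
  have := monotoneOn_of_deriv_nonneg (convex_Icc a b) (f := f)
    (fun x _ => (hd x).continuousAt.continuousWithinAt)
    (fun x _ => (hd x).differentiableAt.differentiableWithinAt)
    (fun x hx => by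
      rw [interior_Icc] at hx
      rw [(hd x).deriv]; exact h x hx.1.le hx.2.le)
  exact this ⟨le_rfl, hab⟩ ⟨hab, le_rfl⟩ hab

noncomputable def SS (n : ℕ) (y : ℝ) : ℝ := ∑ j ∈ range n, (-y) ^ j / j.factorial
noncomputable def JJ (n : ℕ) (t : ℝ) : ℝ :=
  ∑ j ∈ range n, (-1) ^ j * t ^ (2 * j + 1) / (2 ^ j * j.factorial * (2 * j + 1))

lemma SS_deriv (n : ℕ) (y : ℝ) : HasDerivAt (SS (n + 1)) (-SS n y) y := by
  induction n with
  | zero =>
    have : SS 1 = fun _ => 1 := by funext y; simp [SS]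
    rw [this]; simpa [SS] using hasDerivAt_const y (1 : ℝ)
  | succ n ih =>
    have e : SS (n + 2) = fun y => SS (n + 1) y + (-y) ^ (n + 1) / (n + 1).factorial := by
      funext y; simp only [SS]; rw [sum_range_succ]
    rw [e]
    have h2 := (((hasDerivAt_neg y).pow (n + 1)).div_const (((n + 1).factorial : ℕ) : ℝ))
    refine (ih.add h2).congr_deriv ?_
    simp only [SS, sum_range_succ, Nat.factorial_succ, Nat.add_sub_cancel]
    push_cast
    field_simp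
    ring

lemma SS_alt (n : ℕ) : ∀ y, 0 ≤ y → 0 ≤ (-1) ^ n * (exp (-y) - SS n y) := by
  induction n with
  | zero => intro y _; simp [SS, (exp_pos _).le]
  | succ n ih =>
    intro y hy
    have h := num_mono0 (f := fun y => (-1) ^ (n + 1) * (exp (-y) - SS (n + 1) y))
      (f' := fun y => (-1) ^ n * (exp (-y) - SS n y)) hy (fun x => by
        refine ((((hasDerivAt_neg x).exp).sub (SS_deriv n x)).const_mul _).congr_deriv ?_
        ring) (fun x hx _ => ih x hx)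
    have e : SS (n + 1) 0 = 1 := by simp [SS, sum_range_succ']
    simpa [e] using h

lemma JJ_deriv (n : ℕ) (t : ℝ) : HasDerivAt (JJ n) (SS n (t ^ 2 / 2)) t := by
  unfold JJ SS
  refine HasDerivAt.fun_sum fun j _ => ?_
  refine (((hasDerivAt_pow (2 * j + 1) t).const_mul ((-1) ^ j)).div_const _).congr_deriv ?_
  rw [Nat.add_sub_cancel, neg_pow (t ^ 2 / 2), div_pow, ← pow_mul]
  push_cast
  field_simp

lemma cc_bounds : 0.39894216 < (√(2 * π))⁻¹ ∧ (√(2 * π))⁻¹ < 0.39894234 := by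
  have h1 := pi_gt_d6
  have h2 := pi_lt_d6
  have a : (2.506628 : ℝ) < √(2 * π) := lt_sqrt_of_sq_lt (by nlinarith)
  have b : √(2 * π) < 2.506629 := (sqrt_lt' (by norm_num)).2 (by nlinarith)
  constructor
  · rw [lt_inv_comm₀ (by norm_num) (by linarith)]; exact b.trans_le (by norm_num)
  · rw [inv_lt_comm₀ (by linarith) (by norm_num)]; exact lt_of_le_of_lt (by norm_num) a

lemma JJ_alt (n : ℕ) {t : ℝ} (ht : 0 ≤ t) :
    0 ≤ (-1) ^ n * (1 / 2 - Ph (-t) - (√(2 * π))⁻¹ * JJ n t) := by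
  have h := num_mono0 (f := fun t => (-1) ^ n * (1 / 2 - Ph (-t) - (√(2 * π))⁻¹ * JJ n t))
    (f' := fun t => (√(2 * π))⁻¹ * ((-1) ^ n * (exp (-(t ^ 2 / 2)) - SS n (t ^ 2 / 2)))) ht (fun x => by
      have h1 := (hasDerivAt_Ph (-x)).comp x (hasDerivAt_neg x)
      refine ((((h1.const_sub (1 / 2)).sub ((JJ_deriv n x).const_mul _))).const_mul _).congr_deriv ?_
      rw [ph_neg, ph, neg_div]; ring)
    (fun x _ _ => mul_nonneg (by positivity) (SS_alt n _ (by positivity)))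
  have e : JJ n 0 = 0 := by simp [JJ]
  simpa [e, Ph_zero] using h

def Tb (t pl ph' ql qh dh : ℝ) : Prop :=
  0 ≤ t ∧ pl ≤ Ph (-t) ∧ Ph (-t) ≤ ph' ∧ ql ≤ ph t ∧ ph t ≤ qh ∧ Dd (-t) ≤ dh

lemma tb_of {t pl ph' ql qh dh : ℝ} (ht : 0 ≤ t)
    (h1 : pl ≤ 1 / 2 - 0.39894234 * ∑ j ∈ range 15, (-1) ^ j * t ^ (2 * j + 1) / (2 ^ j * j.factorial * (2 * j + 1)))
    (h2 : 1 / 2 - 0.39894216 * ∑ j ∈ range 14, (-1) ^ j * t ^ (2 * j + 1) / (2 ^ j * j.factorial * (2 * j + 1)) ≤ ph' ∧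
      0 ≤ ∑ j ∈ range 14, (-1) ^ j * t ^ (2 * j + 1) / (2 ^ j * j.factorial * (2 * j + 1) : ℝ))
    (h3 : ql ≤ 0.39894216 * ∑ j ∈ range 14, (-(t ^ 2 / 2)) ^ j / j.factorial)
    (h4 : 0.39894234 * ∑ j ∈ range 15, (-(t ^ 2 / 2)) ^ j / j.factorial ≤ qh)
    (h5 : qh * (qh - t * pl) ≤ dh) (h6 : 0 < ql) : Tb t pl ph' ql qh dh := by
  obtain ⟨c1, c2⟩ := cc_bounds
  have a1 := JJ_alt 15 ht
  have a2 := JJ_alt 14 ht
  have a3 := SS_alt 15 (t ^ 2 / 2) (by positivity)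
  have a4 := SS_alt 14 (t ^ 2 / 2) (by positivity)
  change pl ≤ 1 / 2 - 0.39894234 * JJ 15 t at h1
  change 1 / 2 - 0.39894216 * JJ 14 t ≤ ph' ∧ 0 ≤ JJ 14 t at h2
  change ql ≤ 0.39894216 * SS 14 (t ^ 2 / 2) at h3
  change 0.39894234 * SS 15 (t ^ 2 / 2) ≤ qh at h4
  norm_num at a1 a2 a3 a4
  have e : ph t = (√(2 * π))⁻¹ * exp (-(t ^ 2 / 2)) := by rw [ph, neg_div]
  have ep := exp_pos (-(t ^ 2 / 2))
  have e2 : (√(2 * π))⁻¹ = (√π)⁻¹ * (√2)⁻¹ := by rw [sqrt_mul (by norm_num), mul_inv_rev]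
  rw [← e2] at a1 a2
  have hm : Ph (-t) ≤ 1 / 2 := by rw [← Ph_zero]; exact Ph_strictMono.monotone (by linarith)
  set c := (√(2 * π))⁻¹
  have j15 : 0 ≤ JJ 15 t := by
    by_contra hn
    have : c * JJ 15 t < 0 := mul_neg_of_pos_of_neg (by linarith) (not_le.1 hn)
    linarith
  have b1 : pl ≤ Ph (-t) := by nlinarith
  have b4 : ph t ≤ qh := by rw [e]; nlinarith
  refine ⟨ht, b1, by nlinarith [h2.1, h2.2], by rw [e]; nlinarith, b4, ?_⟩
  have hH := Hh_pos (-t)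
  have hH2 : Hh (-t) ≤ qh - t * pl := by
    rw [Hh, ph_neg]; nlinarith [mul_le_mul_of_nonneg_left b1 ht]
  rw [Dd, ph_neg]
  have := ph_pos t
  calc ph t * Hh (-t) ≤ qh * (qh - t * pl) := mul_le_mul b4 hH2 hH.le (by linarith)
    _ ≤ dh := h5

lemma tb_0 : Tb 0 0.5 0.5 0.398942 0.398943 0.159156 := by
  obtain ⟨c1, c2⟩ := cc_bounds
  have e : ph 0 = (√(2 * π))⁻¹ := by simp [ph]
  refine ⟨le_rfl, ?_, ?_, ?_, ?_, ?_⟩ <;> simp only [neg_zero, Ph_zero, Dd, Hh, e, zero_mul, add_zero] <;>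
    nlinarith

lemma hasDerivAt_Dd (s : ℝ) : HasDerivAt Dd (ph s * (Ph s - s * Hh s)) s := by
  refine ((hasDerivAt_ph s).mul (hasDerivAt_Hh s)).congr_deriv ?_
  ring

lemma Ee_mono {a b : ℝ} (hab : a ≤ b) (hb : b ≤ 0) : Ph a - a * Hh a ≤ Ph b - b * Hh b :=
  num_mono0 (f := fun s => Ph s - s * Hh s) (f' := fun s => -2 * s * Ph s) hab (fun x => by
    refine ((hasDerivAt_Ph x).sub ((hasDerivAt_id x).mul (hasDerivAt_Hh x))).congr_deriv ?_
    simp only [Hh, id]; ring) (fun x _ hx => by nlinarith [Ph_pos x])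

lemma chord {a s b β : ℝ} (h1 : a ≤ s) (h2 : s ≤ b) (hb : b ≤ 0) :
    Dd s - β * Ph s ≤ max (Dd a - β * Ph a) (Dd b - β * Ph b) := by
  have hd : ∀ x, HasDerivAt (fun s => Dd s - β * Ph s) (ph x * (Ph x - x * Hh x - β)) x := fun x =>
    ((hasDerivAt_Dd x).sub ((hasDerivAt_Ph x).const_mul β)).congr_deriv (by ring)
  rcases le_total (Ph s - s * Hh s) β with h | h
  · refine le_max_of_le_left ?_
    have := num_mono0 (f := fun s => -(Dd s - β * Ph s)) h1 (fun x => (hd x).neg) (fun x _ hx => by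
      have := Ee_mono hx (h2.trans hb)
      nlinarith [ph_pos x])
    linarith
  · refine le_max_of_le_right ?_
    exact num_mono0 h2 hd (fun x hx hx' => by
      have := Ee_mono hx (hx'.trans hb)
      exact mul_nonneg (ph_pos x).le (by linarith))

variable {κ p x D : ℝ}

lemma chord_of (h : CellOK κ p x D) {t1 t2 a1 a2 a3 a4 a5 b1 b2 b3 b4 b5 α β : ℝ}
    (T1 : Tb t1 a1 a2 a3 a4 a5) (T2 : Tb t2 b1 b2 b3 b4 b5) (h2 : Ph (-t2) ≤ p) (h1 : p ≤ Ph (-t1))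
    (hβ : 0 ≤ β) (_h12 : t1 ≤ t2) (e1 : a5 ≤ α + β * a1) (e2 : b5 ≤ α + β * b1) : D ≤ α + β * p := by
  obtain ⟨s, -, rfl, rfl, -⟩ := h
  have := chord (β := β) (Ph_strictMono.le_iff_le.1 h2) (Ph_strictMono.le_iff_le.1 h1) (by linarith [T1.1])
  have c1 := mul_le_mul_of_nonneg_left T1.2.1 hβ
  have c2 := mul_le_mul_of_nonneg_left T2.2.1 hβ
  rcases le_max_iff.1 this with h | h <;> linarith [T1.2.2.2.2.2, T2.2.2.2.2.2]

lemma tph_anti {a b : ℝ} (ha : -1 ≤ a) (hab : a ≤ b) (hb : b ≤ 0) : -b * ph b ≤ -a * ph a := by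
  have := num_mono0 (f := fun s => s * ph s) (f' := fun s => (1 - s ^ 2) * ph s) hab (fun x => by
    refine ((hasDerivAt_id x).mul (hasDerivAt_ph x)).congr_deriv ?_
    simp only [id]; ring) (fun x h1 h2 => mul_nonneg (by nlinarith) (ph_pos x).le)
  linarith

lemma tangent {s t : ℝ} (h1 : -1 ≤ s) (h2 : s ≤ 0) (h3 : 0 ≤ t) (h4 : t ≤ 1) :
    ph s ^ 2 - 2 * t * ph t * Ph s ≤ ph t ^ 2 - 2 * t * ph t * Ph (-t) := by
  have hd : ∀ x, HasDerivAt (fun s => ph s ^ 2 - 2 * t * ph t * Ph s)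
      (2 * ph x * (-x * ph x - t * ph t)) x := fun x =>
    (((hasDerivAt_ph x).pow 2).sub ((hasDerivAt_Ph x).const_mul _)).congr_deriv (by simp; ring)
  rw [← ph_neg t]
  rcases le_total s (-t) with h | h
  · have := num_mono0 h hd (fun x hx hx' => by
      have := tph_anti (h1.trans hx) hx' (by linarith)
      rw [ph_neg, neg_neg] at this
      exact mul_nonneg (by linarith [ph_pos x]) (by linarith))
    simpa [ph_neg] using this
  · have := num_mono0 (f := fun s => -(ph s ^ 2 - 2 * t * ph t * Ph s)) h (fun x => (hd x).neg) (fun x hx hx' => by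
      have := tph_anti (by linarith) hx (hx'.trans h2)
      rw [ph_neg, neg_neg] at this
      nlinarith [ph_pos x])
    simp only [ph_neg] at this ⊢
    linarith

lemma tan_of (h : CellOK κ p x D) {t a1 a2 a3 a4 a5 α β : ℝ} (T : Tb t a1 a2 a3 a4 a5) (h1 : Ph (-1) ≤ p)
    (ht : t ≤ 1) (hβ : 2 * t * a4 ≤ β) (hα : a4 ^ 2 - 2 * t * a3 * a1 ≤ α) (ha1 : 0 ≤ a1) (ha3 : 0 ≤ a3)
    (_ha4 : 0 ≤ a4) : x ≤ α + β * p := by
  obtain ⟨s, hs, rfl, -, -, hx, -⟩ := h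
  obtain ⟨t0, T1, -, T3, T4, -⟩ := T
  have := tangent (Ph_strictMono.le_iff_le.1 h1) hs t0 ht
  have q := ph_pos t
  have c1 : ph t ^ 2 ≤ a4 ^ 2 := by nlinarith
  have c2 : a3 * a1 ≤ ph t * Ph (-t) := mul_le_mul T3 T1 ha1 q.le
  have c3 : 2 * t * ph t ≤ β := by nlinarith
  have c4 := mul_le_mul_of_nonneg_right c3 (Ph_pos s).le
  nlinarith

lemma mono_atBot {f f' : ℝ → ℝ} (hd : ∀ x, HasDerivAt f (f' x) x) {b : ℝ} (h : ∀ x, x ≤ b → 0 ≤ f' x)
    (hl : Tendsto f atBot (𝓝 0)) : 0 ≤ f b :=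
  le_of_tendsto hl ((eventually_le_atBot b).mono fun _ ha => num_mono0 ha hd fun x _ hx => h x hx)

lemma mills (s : ℝ) : 0 ≤ Ph s + s * Hh s := by
  have h := mono_atBot (f := fun s => Ph s + s / (1 + s ^ 2) * ph s) (f' := fun s => 2 * ph s / (1 + s ^ 2) ^ 2)
    (b := s) (fun x => by
      have hp : (1 + x ^ 2) ≠ 0 := by positivity
      refine ((hasDerivAt_Ph x).add ((((hasDerivAt_id x).div ((hasDerivAt_pow 2 x).const_add 1) hp)).mul
        (hasDerivAt_ph x))).congr_deriv ?_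
      simp only [id, Pi.div_apply]; field_simp; ring) (fun x _ => by have := ph_pos x; positivity) (by
      have h2 : Tendsto (fun s : ℝ => s / (1 + s ^ 2) * ph s) atBot (𝓝 0) := by
        refine squeeze_zero_norm (fun s => ?_) ph_atBot
        rw [norm_mul, Real.norm_of_nonneg (ph_pos s).le]
        refine mul_le_of_le_one_left (ph_pos s).le ?_
        rw [Real.norm_eq_abs, abs_div, abs_of_pos (by positivity : 0 < 1 + s ^ 2), div_le_one (by positivity)]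
        nlinarith [sq_abs s, sq_nonneg (|s| - 1), abs_nonneg s]
      simpa using Ph_atBot.add h2)
  have hp : 0 < 1 + s ^ 2 := by positivity
  have e : Ph s + s * Hh s = (1 + s ^ 2) * (Ph s + s / (1 + s ^ 2) * ph s) := by
    rw [Hh]; field_simp; ring
  rw [e]; positivity

lemma Dd_le_sq (s : ℝ) : Dd s ≤ Ph s ^ 2 := by
  have h := mono_atBot (f := fun s => Ph s ^ 2 - Dd s) (f' := fun s => ph s * (Ph s + s * Hh s)) (b := s)
    (fun x => (((hasDerivAt_Ph x).pow 2).sub (hasDerivAt_Dd x)).congr_deriv (by simp; ring))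
    (fun x _ => mul_nonneg (ph_pos x).le (mills x)) (by
      have := (Ph_atBot.pow 2).sub (ph_atBot.mul Hh_atBot)
      simpa [Dd] using this)
  linarith

lemma F0_bd : 0.358098 < F0 ∧ F0 < 0.358099 := by
  have h1 := pi_gt_d6
  have h2 := pi_lt_d6
  unfold F0
  constructor
  · rw [lt_div_iff₀ (by positivity)]; nlinarith
  · rw [div_lt_iff₀ (by positivity)]; nlinarith

lemma CellOK.x0 (h : CellOK κ p x D) : 0 ≤ x := by obtain ⟨s, -, -, -, h, -⟩ := h; exact h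
lemma CellOK.p0 (h : CellOK κ p x D) : 0 < p := by obtain ⟨s, -, rfl, -⟩ := h; exact Ph_pos s
lemma CellOK.half (h : CellOK κ p x D) : p ≤ 1 / 2 := by
  obtain ⟨s, hs, rfl, -⟩ := h; rw [← Ph_zero]; exact Ph_strictMono.monotone hs
lemma CellOK.xle (h : CellOK κ p x D) : x ≤ 0.159156 := by
  obtain ⟨s, -, -, -, -, h, -⟩ := h
  have := ph_le s
  have := ph_pos s
  nlinarith [cc_bounds.2]

/-- linearised removal bound; `g ≤ κ / F0` -/
lemma CellOK.lin (h : CellOK κ p x D) {g : ℝ} (hg0 : 0 ≤ g) (hg : g * 0.358099 ≤ κ) (hD : D ≤ 13 / 100) (D0 : ℝ) :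
    x ≤ (2 - 2 * g * D0) * D + g * D0 ^ 2 := by
  obtain ⟨s, -, -, -, -, -, h⟩ := h
  have h1 := h hD
  obtain ⟨f1, f2⟩ := F0_bd
  have h2 : g * D ^ 2 ≤ κ * D ^ 2 / F0 := by
    rw [le_div_iff₀ (by linarith)]
    have : g * F0 ≤ κ := by nlinarith
    nlinarith [sq_nonneg D]
  nlinarith [mul_nonneg hg0 (sq_nonneg (D - D0))]

lemma CellOK.sq (h : CellOK κ p x D) (hκ : 0 ≤ κ) : x ≤ 2 * p ^ 2 := by
  have hD : D ≤ p ^ 2 := by obtain ⟨s, -, rfl, rfl, -⟩ := h; exact Dd_le_sq s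
  rcases le_total D (13 / 100) with h1 | h1
  · have := h.lin le_rfl (by simpa using hκ) h1 0
    linarith
  · linarith [h.xle]

end Vale.Agent.P226
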