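import Vale.Agent.P226.Disc
import Vale.Agent.P226.Law

/-! Orthant bound. PLAN (orth0): gram_transfer to EuclideanSpace ℝ (Fin 3): y1' = (r,0,0), y2' = (α,γ,0), e' = (0,0,‖e‖), r = ‖y1‖, α = ⟪y1,y2⟫/r, γ = δ/r;
map_pi_eq_stdGaussian, Fubini in the last coordinate g: for g<0 the slice is empty, for g ≥ 0 disc + tri_area give 1 - exp(-2B g²), B = Σ²‖e‖²/(8π c1 c2 δ);
∫_{g≥0} (1 - e^{-2B g²}) dgg = (1 - (1+4B)^{-1/2})/2 (integral_gg, integral_gaussian_Ioi). So p ≤ P ≤ (1 - (1+4B)^{-1/2})/2, i.e. 1 ≤ (1-2p)²(1+4B).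
orth: y_i = a_i - (l1 a1 + l2 a2), β0 = 1-l1-l2, c_i = β_i/β0, c1+c2+τ = (τ+2)/β0, det(y1,y2) = δ²β0²; -(a1+a2) - τ(l1 a1 + l2 a2) = -(c1 y1 + c2 y2). -/
namespace Vale.Agent.P226
open MeasureTheory ProbabilityTheory Real Finset Filter Topology
open scoped RealInnerProductSpace

variable {E : Type} [NormedAddCommGroup E] [InnerProductSpace ℝ E] [FiniteDimensional ℝ E]
  [MeasurableSpace E] [BorelSpace E] {ι : Type}

lemma Orth_int {B : ℝ} (hB : 0 ≤ B) :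
    ∫ g, (Set.Ioi (0 : ℝ)).indicator (fun g => 1 - exp (-(2 * B) * g ^ 2)) g ∂gg = (1 - (√(1 + 4 * B))⁻¹) / 2 := by
  have e : ∀ x, ph x * (Set.Ioi (0 : ℝ)).indicator (fun g => 1 - exp (-(2 * B) * g ^ 2)) x =
      (Set.Ioi (0 : ℝ)).indicator (fun x => (√(2 * π))⁻¹ *
        (exp (-(1 / 2) * x ^ 2) - exp (-(1 / 2 + 2 * B) * x ^ 2))) x := fun x => by
    by_cases h : x ∈ Set.Ioi (0 : ℝ)
    · simp only [Set.indicator_of_mem h, ph]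
      rw [show -(1 / 2 + 2 * B) * x ^ 2 = -x ^ 2 / 2 + -(2 * B) * x ^ 2 by ring, exp_add,
        show -(1 / 2) * x ^ 2 = -x ^ 2 / 2 by ring]
      ring
    · simp [Set.indicator_of_notMem h]
  rw [integral_gg]
  simp only [e]
  rw [integral_indicator measurableSet_Ioi, integral_const_mul,
    integral_sub (integrable_exp_neg_mul_sq (by norm_num)).integrableOn
      (integrable_exp_neg_mul_sq (by positivity)).integrableOn, integral_gaussian_Ioi,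
    integral_gaussian_Ioi, show π / (1 / 2) = 2 * π by ring,
    show π / (1 / 2 + 2 * B) = 2 * π / (1 + 4 * B) by field_simp; ring, Real.sqrt_div (by positivity)]
  have h1 : 0 < √(2 * π) := by positivity
  have h2 : 0 < √(1 + 4 * B) := by positivity
  field_simp

lemma Orth_prod {r α γ c1 c2 τ n : ℝ} (hr : 0 < r) (hγ : 0 < γ) (h1 : 0 < c1) (h2 : 0 < c2) (hτ : 0 < τ)
    (hn : 0 ≤ n) : (gg.prod (gg.prod gg)).real {w : ℝ × ℝ × ℝ | r * w.2.1 ≤ n * w.1 ∧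
      α * w.2.1 + γ * w.2.2 ≤ n * w.1 ∧ -τ * (n * w.1) ≤ c1 * (r * w.2.1) + c2 * (α * w.2.1 + γ * w.2.2)} ≤
      (1 - (√(1 + 4 * ((c1 + c2 + τ) ^ 2 * n ^ 2 / (8 * π * c1 * c2 * (r * γ)))))⁻¹) / 2 := by
  set B := (c1 + c2 + τ) ^ 2 * n ^ 2 / (8 * π * c1 * c2 * (r * γ)) with hB
  have B0 : 0 ≤ B := by positivity
  have f0 : ∀ g, 0 ≤ (Set.Ioi (0 : ℝ)).indicator (fun g => 1 - exp (-(2 * B) * g ^ 2)) g := fun g =>
    Set.indicator_nonneg (fun g _ => sub_nonneg.2 (exp_le_one_iff.2 (by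
      have : 0 ≤ 2 * B * g ^ 2 := by positivity
      linarith))) g
  have fi : Integrable ((Set.Ioi (0 : ℝ)).indicator fun g => 1 - exp (-(2 * B) * g ^ 2)) gg := by
    refine Integrable.indicator (Integrable.of_bound (by fun_prop) 1 (ae_of_all _ fun g => ?_))
      measurableSet_Ioi
    have h3 : 0 ≤ 2 * B * g ^ 2 := by positivity
    have h4 : exp (-(2 * B) * g ^ 2) ≤ 1 := exp_le_one_iff.2 (by linarith)
    rw [Real.norm_eq_abs, abs_le]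
    constructor <;> linarith [exp_pos (-(2 * B) * g ^ 2)]
  rw [← Orth_int B0, Measure.real, Measure.prod_apply (by measurability)]
  refine ENNReal.toReal_le_of_le_ofReal (integral_nonneg f0) ?_
  rw [ofReal_integral_eq_lintegral_ofReal fi (ae_of_all _ f0)]
  refine lintegral_mono fun g => ?_
  rw [← ofReal_measureReal]
  refine ENNReal.ofReal_le_ofReal ?_
  rcases lt_or_ge (n * g) 0 with h | h
  · refine le_of_eq_of_le ?_ (f0 g)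
    rw [← measureReal_empty (μ := gg.prod gg)]
    refine congrArg _ (Set.eq_empty_of_forall_notMem fun q hq => ?_)
    obtain ⟨a1, a2, a3⟩ := hq
    simp only at a1 a2 a3
    nlinarith [mul_le_mul_of_nonneg_left a1 h1.le, mul_le_mul_of_nonneg_left a2 h2.le,
      mul_neg_of_pos_of_neg (show 0 < c1 + c2 + τ by positivity) h]
  · refine (disc (by measurability) (by positivity) (tri_area (α := α) hr hγ h1 h2 hτ h)).trans ?_
    have e : -((c1 + c2 + τ) ^ 2 * (n * g) ^ 2 / (2 * c1 * c2 * (r * γ))) / (2 * π) = -(2 * B) * g ^ 2 := by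
      rw [hB]
      field_simp
      ring
    by_cases hg : g ∈ Set.Ioi (0 : ℝ)
    · rw [e, Set.indicator_of_mem hg]
    · have : n * g = 0 := le_antisymm (mul_nonpos_of_nonneg_of_nonpos hn (not_lt.1 hg)) h
      simp [Set.indicator_of_notMem hg, this]

theorem orth0 {y1 y2 e : E} (h1 : ⟪e, y1⟫ = 0) (h2 : ⟪e, y2⟫ = 0) {c1 c2 τ δ p : ℝ} (hc1 : 0 < c1) (hc2 : 0 < c2)
    (hτ : 0 < τ) (hδ : 0 < δ) (hd : δ ^ 2 = ‖y1‖ ^ 2 * ‖y2‖ ^ 2 - ⟪y1, y2⟫ ^ 2) (hp0 : 0 ≤ p)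
    (hp : p ≤ (stdGaussian E).real {x | ⟪y1, x⟫ ≤ ⟪e, x⟫ ∧ ⟪y2, x⟫ ≤ ⟪e, x⟫ ∧
      -τ * ⟪e, x⟫ ≤ c1 * ⟪y1, x⟫ + c2 * ⟪y2, x⟫}) :
    p * (1 - p) * (8 * π * c1 * c2 * δ) ≤ (c1 + c2 + τ) ^ 2 * ‖e‖ ^ 2 * (1 - 2 * p) ^ 2 := by
  have r0 : 0 < ‖y1‖ := by
    rcases (norm_nonneg y1).eq_or_lt with h | h
    · rw [← h] at hd
      nlinarith [sq_nonneg ⟪y1, y2⟫]
    · exact h
  set r := ‖y1‖ with hr
  have t := gram_transfer (E' := EuclideanSpace ℝ (Fin 3)) ![e, y1, y2]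
    ![!₂[‖e‖, 0, 0], !₂[0, r, 0], !₂[0, ⟪y1, y2⟫ / r, δ / r]] fun i j => by
      rw [PiLp.inner_apply, Fin.sum_univ_three]
      fin_cases i <;> fin_cases j <;>
        simp [h1, h2, real_inner_comm e, real_inner_comm y1 y2, ← hr]
      all_goals field_simp
      all_goals nlinarith [sq_abs r, sq_abs δ, sq_abs ⟪y1, y2⟫]
  have mp : MeasurePreserving (fun x : Fin 3 → ℝ => (x 0, (x 1, x 2))) (Measure.pi fun _ => gg)
      (gg.prod (gg.prod gg)) :=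
    ((MeasurePreserving.id gg).prod (measurePreserving_finTwoArrow gg)).comp
      (measurePreserving_piFinSuccAbove (fun _ : Fin 3 => gg) 0)
  have hS : MeasurableSet {w : Fin 3 → ℝ | w 1 ≤ w 0 ∧ w 2 ≤ w 0 ∧ -τ * w 0 ≤ c1 * w 1 + c2 * w 2} := by
    measurability
  have t2 := congrArg (fun μ : Measure (Fin 3 → ℝ) => μ.real {w : Fin 3 → ℝ | w 1 ≤ w 0 ∧ w 2 ≤ w 0 ∧
    -τ * w 0 ≤ c1 * w 1 + c2 * w 2}) t
  simp only [← map_pi_eq_stdGaussian] at t2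
  rw [Measure.map_map (by fun_prop) (by fun_prop), map_measureReal_apply (by fun_prop) hS,
    map_measureReal_apply (by fun_prop) hS] at t2
  have t3 := Orth_prod (α := ⟪y1, y2⟫ / r) r0 (div_pos hδ r0) hc1 hc2 hτ (norm_nonneg e)
  rw [← mp.measureReal_preimage (MeasurableSet.nullMeasurableSet (by measurability)),
    mul_div_cancel₀ _ r0.ne'] at t3
  have t4 := hp.trans (t2.le.trans (le_of_eq_of_le (congrArg _ (by
    ext x
    simp [PiLp.inner_apply, Fin.sum_univ_three, mul_comm])) t3))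
  have k : (c1 + c2 + τ) ^ 2 * ‖e‖ ^ 2 =
      (c1 + c2 + τ) ^ 2 * ‖e‖ ^ 2 / (8 * π * c1 * c2 * δ) * (8 * π * c1 * c2 * δ) := by field_simp
  have B0 : 0 ≤ (c1 + c2 + τ) ^ 2 * ‖e‖ ^ 2 / (8 * π * c1 * c2 * δ) := by positivity
  rw [k]
  generalize (c1 + c2 + τ) ^ 2 * ‖e‖ ^ 2 / (8 * π * c1 * c2 * δ) = B at t4 B0
  have s0 : 0 < √(1 + 4 * B) := by positivity
  have s1 : √(1 + 4 * B) ^ 2 = 1 + 4 * B := Real.sq_sqrt (by positivity)
  have s2 : 1 ≤ (1 - 2 * p) * √(1 + 4 * B) := by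
    rw [← div_le_iff₀ s0, one_div]
    linarith
  have s3 : 1 ≤ (1 - 2 * p) ^ 2 * (1 + 4 * B) := by
    rw [← s1, ← mul_pow]
    exact one_le_pow₀ s2
  rw [mul_right_comm B]
  have : 0 ≤ 8 * π * c1 * c2 * δ := by positivity
  exact mul_le_mul_of_nonneg_right (by nlinarith) this

theorem orth {a1 a2 u e : E} {l1 l2 τ δ p : ℝ} (hu : u = e + l1 • a1 + l2 • a2) (h1 : ⟪e, a1⟫ = 0)
    (h2 : ⟪e, a2⟫ = 0) (hτ : 0 < τ) (hδ : 0 < δ) (hd : δ ^ 2 = ‖a1‖ ^ 2 * ‖a2‖ ^ 2 - ⟪a1, a2⟫ ^ 2)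
    (b0 : 0 < 1 - l1 - l2) (b1 : 0 < 1 + (τ + 1) * l1 - l2) (b2 : 0 < 1 - l1 + (τ + 1) * l2) (hp0 : 0 ≤ p)
    (hp : p ≤ (stdGaussian E).real {x | ⟪a1, x⟫ ≤ ⟪u, x⟫ ∧ ⟪a2, x⟫ ≤ ⟪u, x⟫ ∧
      -τ * ⟪u, x⟫ ≤ ⟪a1, x⟫ + ⟪a2, x⟫}) :
    p * (1 - p) * (8 * π * δ * ((1 - l1 - l2) * (1 + (τ + 1) * l1 - l2) * (1 - l1 + (τ + 1) * l2))) ≤
      (τ + 2) ^ 2 * ‖e‖ ^ 2 * (1 - 2 * p) ^ 2 := by
  set w := l1 • a1 + l2 • a2 with hw
  have hw1 : ∀ x, ⟪w, x⟫ = l1 * ⟪a1, x⟫ + l2 * ⟪a2, x⟫ := fun x => by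
    simp [hw, inner_add_left, inner_smul_left]
  have hw2 : ∀ x, ⟪x, w⟫ = l1 * ⟪x, a1⟫ + l2 * ⟪x, a2⟫ := fun x => by
    simp [hw, inner_add_right, inner_smul_right]
  have hu' : ∀ x, ⟪u, x⟫ = ⟪e, x⟫ + (l1 * ⟪a1, x⟫ + l2 * ⟪a2, x⟫) := fun x => by
    rw [hu, add_assoc, inner_add_left, hw1]
  have key := orth0 (y1 := a1 - w) (y2 := a2 - w) (e := e) (c1 := (1 + (τ + 1) * l1 - l2) / (1 - l1 - l2))
    (c2 := (1 - l1 + (τ + 1) * l2) / (1 - l1 - l2)) (δ := δ * (1 - l1 - l2)) (p := p)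
    (by rw [inner_sub_right, hw2, h1, h2]; simp) (by rw [inner_sub_right, hw2, h1, h2]; simp)
    (by positivity) (by positivity) hτ (by positivity) (by
      rw [mul_pow, hd]
      simp only [← real_inner_self_eq_norm_sq, inner_sub_left, inner_sub_right, hw1, hw2,
        real_inner_comm a1 a2]
      ring) hp0 (hp.trans_eq (congrArg _ (by
      ext x
      simp only [Set.mem_setOf_eq, hu', inner_sub_left, hw1]
      have e : (1 + (τ + 1) * l1 - l2) / (1 - l1 - l2) * (⟪a1, x⟫ - (l1 * ⟪a1, x⟫ + l2 * ⟪a2, x⟫)) +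
          (1 - l1 + (τ + 1) * l2) / (1 - l1 - l2) * (⟪a2, x⟫ - (l1 * ⟪a1, x⟫ + l2 * ⟪a2, x⟫)) =
          ⟪a1, x⟫ + ⟪a2, x⟫ + τ * (l1 * ⟪a1, x⟫ + l2 * ⟪a2, x⟫) := by
        field_simp
        ring
      rw [e]
      constructor <;> rintro ⟨i1, i2, i3⟩ <;> refine ⟨?_, ?_, ?_⟩ <;> linarith)))
  have e1 : (1 + (τ + 1) * l1 - l2) / (1 - l1 - l2) + (1 - l1 + (τ + 1) * l2) / (1 - l1 - l2) + τ =
      (τ + 2) / (1 - l1 - l2) := by
    field_simp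
    ring
  rw [e1] at key
  have := mul_le_mul_of_nonneg_right key (sq_nonneg (1 - l1 - l2))
  refine le_of_eq_of_le ?_ (this.trans_eq ?_)
  · field_simp
  · field_simp

end Vale.Agent.P226
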