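import Vale.Agent.P226.Gauss

/-! Joint concavity of Ψ(a,b) = Ph⁻¹(Ph b - Ph a). PLAN: let a(r),b(r) be the affine paths (slopes α,β), m(r) = Ph b - Ph a ∈ (0,1),
ψ(r) = Ph⁻¹(m r) (define the inverse with `Function.invFun`/choice; derivative ψ' = m'/ph ψ by HasDerivAt.of_local_left_inverse or
StrictMono orderIso + HasStrictDerivAt.localInverse). ψ'' = m''/I + ψ m'²/I², I = ph ψ, m' = β ph b - α ph a, m'' = -bβ² ph b + aα² ph a.
ψ'' ≤ 0 is negativity of a 2x2 quadratic form in (α,β):  (i) a I + ψ ph a ≤ 0, (ii) ψ ph b ≤ b I, (iii) -a b I + ψ (a ph b - b ph a) ≥ 0.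
(i),(ii): ξ(x) = x / ph x is increasing and odd, ψ ≤ -a, ψ ≤ b.  (iii): `sub3` below: η(x) = ph x / x on x<0; if Ph c = Ph u + Ph v with u,v,c<0 then
η c ≤ η u + η v (fix u; differentiate in v: along Ph c = Ph u + Ph v, d/dPh η = -(1 + 1/x²), and v ≤ c < 0; limit v → -∞, η v → 0; or use the
Lagrange form: x ↦ η x + κ Ph x). Cases: a<b<0 (c=b,u=a,v=ψ); 0<a<b (c=-a,u=-b,v=ψ); a<0<b,ψ≤0 trivial signs; a<0<b,ψ>0 (c=-ψ,u=a,v=-b); a=0 or b=0 direct.
Finish with concaveOn_of_deriv2_nonpos (or antitone derivative). -/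
namespace Vale.Agent.P226
open MeasureTheory ProbabilityTheory Real Finset Filter Topology
open scoped RealInnerProductSpace

lemma sub3 {u v c : ℝ} (hu : u < 0) (hv : v < 0) (hc : c < 0) (h : Ph c = Ph u + Ph v) :
    ph c / c ≤ ph u / u + ph v / v := by
  obtain ⟨κ, hκ⟩ : ∃ κ, κ = -(ph c / c) / Ph c := ⟨_, rfl⟩
  have pc := Ph_pos c
  have h0 : ph c / c + κ * Ph c = 0 := by rw [hκ]; field_simp; ring
  have d : ∀ x < 0, HasDerivAt (fun x => ph x / x + κ * Ph x) (ph x * (κ - 1 - 1 / x ^ 2)) x :=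
    fun x hx => by
      have := hx.ne
      refine (((hasDerivAt_ph x).div (hasDerivAt_id x) hx.ne).add
        ((hasDerivAt_Ph x).const_mul κ)).congr_deriv ?_
      simp only [id]
      field_simp
      ring
  have key : ∀ x ≤ c, 0 ≤ ph x / x + κ * Ph x := fun x hx => by
    have x0 : x < 0 := hx.trans_lt hc
    rcases le_total 0 (κ - 1 - 1 / x ^ 2) with k | k
    · have m : MonotoneOn (fun x => ph x / x + κ * Ph x) (Set.Iic x) :=
        monotoneOn_of_hasDerivWithinAt_nonneg (convex_Iic x)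
          (fun y hy => (d y ((Set.mem_Iic.1 hy).trans_lt x0)).continuousAt.continuousWithinAt)
          (fun y hy => (d y ((Set.mem_Iic.1 (interior_subset hy)).trans_lt x0)).hasDerivWithinAt) fun y hy => by
            have l : y ≤ x := Set.mem_Iic.1 (interior_subset hy)
            have : 1 / y ^ 2 ≤ 1 / x ^ 2 :=
              one_div_le_one_div_of_le (by nlinarith) (by nlinarith)
            exact mul_nonneg (ph_pos y).le (by linarith)
      have t : Tendsto (fun x => ph x / x + κ * Ph x) atBot (𝓝 0) := by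
        simpa using (ph_atBot.div_atBot tendsto_id).add (Ph_atBot.const_mul κ)
      exact le_of_tendsto t ((eventually_le_atBot x).mono fun y hy => m (Set.mem_Iic.2 hy) Set.self_mem_Iic hy)
    · have m : AntitoneOn (fun x => ph x / x + κ * Ph x) (Set.Icc x c) :=
        antitoneOn_of_hasDerivWithinAt_nonpos (convex_Icc x c)
          (fun y hy => (d y (hy.2.trans_lt hc)).continuousAt.continuousWithinAt)
          (fun y hy => (d y ((interior_subset hy).2.trans_lt hc)).hasDerivWithinAt) fun y hy => by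
            have l : y ∈ Set.Icc x c := interior_subset hy
            have y0 : y < 0 := l.2.trans_lt hc
            have : 1 / x ^ 2 ≤ 1 / y ^ 2 :=
              one_div_le_one_div_of_le (by nlinarith) (by nlinarith [l.1])
            exact mul_nonpos_of_nonneg_of_nonpos (ph_pos y).le (by linarith)
      exact h0.symm.le.trans (m ⟨le_rfl, hx⟩ ⟨hx, le_rfl⟩ hx)
  have k1 := key u (Ph_strictMono.le_iff_le.1 (by linarith [Ph_pos v]))
  have k2 := key v (Ph_strictMono.le_iff_le.1 (by linarith [Ph_pos u]))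
  rw [h, mul_add] at h0
  linarith

lemma psi_sub3 {u v c : ℝ} (hu : u < 0) (hv : v < 0) (hc : c < 0) (h : Ph c = Ph u + Ph v) :
    ph u * (v * c) + ph v * (u * c) ≤ ph c * (u * v) := by
  have e : ph c * (u * v) - (ph u * (v * c) + ph v * (u * c)) =
      (u * v * c) * (ph c / c - (ph u / u + ph v / v)) := by
    have := hu.ne
    have := hv.ne
    have := hc.ne
    field_simp
  rw [← sub_nonneg, e]
  exact mul_nonneg_iff.2 (Or.inr ⟨(mul_neg_of_pos_of_neg (mul_pos_of_neg_of_neg hu hv) hc).le,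
    sub_nonpos.2 (sub3 hu hv hc h)⟩)

lemma psi_xi {x y : ℝ} (h : x ≤ y) : x * ph y ≤ y * ph x := by
  have m : Monotone fun x => x / ph x := monotone_of_hasDerivAt_nonneg
    (f' := fun x => (1 + x ^ 2) / ph x) (fun x => by
      have := (ph_pos x).ne'
      refine ((hasDerivAt_id x).div (hasDerivAt_ph x) this).congr_deriv ?_
      simp only [id]
      field_simp
      ring) fun x => div_nonneg (by positivity) (ph_pos x).le
  exact (div_le_div_iff₀ (ph_pos x) (ph_pos y)).1 (m h)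

lemma psi_quad {x y z α β : ℝ} (hx : x ≤ 0) (hz : z ≤ 0) (h : y ^ 2 ≤ x * z) :
    x * α ^ 2 + z * β ^ 2 - 2 * y * α * β ≤ 0 := by
  rcases hx.eq_or_lt with rfl | hx
  · have : y = 0 := by nlinarith
    subst this
    nlinarith
  · by_contra n
    rw [not_le] at n
    nlinarith [mul_pos_of_neg_of_neg hx (neg_neg_of_pos n), sq_nonneg (x * α - y * β),
      mul_nonneg (sub_nonneg.2 h) (sq_nonneg β)]

lemma psi_form {a b ψ : ℝ} (hab : a < b) (h : Ph ψ = Ph b - Ph a) (α β : ℝ) :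
    (-b * ph b * β * β - -a * ph a * α * α) * ph ψ + ψ * (ph b * β - ph a * α) ^ 2 ≤ 0 := by
  have l1 : ψ ≤ -a := Ph_strictMono.le_iff_le.1 (by rw [Ph_neg]; linarith [Ph_lt_one b])
  have l2 : ψ ≤ b := Ph_strictMono.le_iff_le.1 (by linarith [Ph_pos a])
  have i1 := psi_xi l1
  have i2 := psi_xi l2
  rw [ph_neg] at i1
  have pA := ph_pos a
  have pB := ph_pos b
  have pI := ph_pos ψ
  have i3 : 0 ≤ -a * b * ph ψ + ψ * (a * ph b - b * ph a) := by
    rcases lt_or_ge b 0 with hb | hb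
    · have := psi_sub3 (hab.trans hb) (l2.trans_lt hb) hb (by linarith)
      linarith
    rcases lt_or_ge 0 a with ha | ha
    · have := psi_sub3 (u := -b) (v := ψ) (c := -a) (by linarith) (by linarith) (by linarith)
        (by rw [Ph_neg, Ph_neg]; linarith)
      rw [ph_neg, ph_neg] at this
      linarith
    rcases le_or_gt ψ 0 with hp | hp
    · have t1 : 0 ≤ -a * b * ph ψ := mul_nonneg (mul_nonneg (by linarith) hb) pI.le
      have t2 : a * ph b - b * ph a ≤ 0 := by nlinarith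
      nlinarith
    · have := psi_sub3 (u := a) (v := -b) (c := -ψ) (by linarith) (by linarith) (by linarith)
        (by rw [Ph_neg, Ph_neg]; linarith)
      rw [ph_neg, ph_neg] at this
      linarith
  have := psi_quad (x := ph a * (a * ph ψ + ψ * ph a)) (z := ph b * (-b * ph ψ + ψ * ph b))
    (y := ψ * ph a * ph b) (α := α) (β := β) (mul_nonpos_of_nonneg_of_nonpos pA.le (by linarith))
    (mul_nonpos_of_nonneg_of_nonpos pB.le (by linarith))
    (by linarith [mul_nonneg (mul_pos (mul_pos pA pB) pI).le i3])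
  linarith

lemma psi_inv {p : ℝ} (h0 : 0 < p) (h1 : p < 1) : Ph (Function.invFun Ph p) = p ∧
    HasDerivAt (Function.invFun Ph) (ph (Function.invFun Ph p))⁻¹ p := by
  obtain ⟨s, rfl⟩ := Ph_surj h0 h1
  have li := Function.leftInverse_invFun Ph_strictMono.injective
  rw [li s]
  exact ⟨rfl, ((hasStrictDerivAt_of_hasDerivAt_of_continuousAt (Eventually.of_forall hasDerivAt_Ph)
    (hasDerivAt_ph s).continuousAt).to_local_left_inverse (ph_pos s).ne'
    (Eventually.of_forall li)).hasDerivAt⟩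

theorem psi_concave {a0 b0 a1 b1 u0 u1 l : ℝ} (h0 : Ph u0 ≤ Ph b0 - Ph a0) (h1 : Ph u1 ≤ Ph b1 - Ph a1)
    (hl0 : 0 ≤ l) (hl1 : l ≤ 1) :
    Ph ((1 - l) * u0 + l * u1) ≤ Ph ((1 - l) * b0 + l * b1) - Ph ((1 - l) * a0 + l * a1) := by
  have s0 : a0 < b0 := Ph_strictMono.lt_iff_lt.1 (by linarith [Ph_pos u0])
  have s1 : a1 < b1 := Ph_strictMono.lt_iff_lt.1 (by linarith [Ph_pos u1])
  obtain ⟨a, ha⟩ : ∃ a : ℝ → ℝ, a = fun r => (1 - r) * a0 + r * a1 := ⟨_, rfl⟩
  obtain ⟨b, hb⟩ : ∃ b : ℝ → ℝ, b = fun r => (1 - r) * b0 + r * b1 := ⟨_, rfl⟩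
  have dl : ∀ x y r : ℝ, HasDerivAt (fun r => (1 - r) * x + r * y) (y - x) r := fun x y r => by
    refine ((((hasDerivAt_id r).const_sub 1).mul_const x).add
      ((hasDerivAt_id r).mul_const y)).congr_deriv ?_
    ring
  have da : ∀ r, HasDerivAt a (a1 - a0) r := fun r => ha ▸ dl _ _ r
  have db : ∀ r, HasDerivAt b (b1 - b0) r := fun r => hb ▸ dl _ _ r
  have ab : ∀ r ∈ Set.Icc (0 : ℝ) 1, a r < b r := fun r hr => by
    rw [ha, hb]
    rcases hr.1.eq_or_lt with rfl | h
    · simpa using s0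
    · nlinarith [mul_pos h (sub_pos.2 s1), mul_nonneg (sub_nonneg.2 hr.2) (sub_pos.2 s0).le]
  have iv : ∀ r ∈ Set.Icc (0 : ℝ) 1, _ := fun r hr =>
    psi_inv (p := Ph (b r) - Ph (a r)) (sub_pos.2 (Ph_strictMono (ab r hr)))
      (by linarith [Ph_lt_one (b r), Ph_pos (a r)])
  obtain ⟨ψ, hψ⟩ : ∃ ψ : ℝ → ℝ, ψ = fun r => Function.invFun Ph (Ph (b r) - Ph (a r)) := ⟨_, rfl⟩
  have e : ∀ r ∈ Set.Icc (0 : ℝ) 1, Ph (ψ r) = Ph (b r) - Ph (a r) := fun r hr => hψ ▸ (iv r hr).1
  have d1 : ∀ r ∈ Set.Icc (0 : ℝ) 1,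
      HasDerivAt ψ ((ph (b r) * (b1 - b0) - ph (a r) * (a1 - a0)) / ph (ψ r)) r := fun r hr => by
    rw [hψ]
    refine ((iv r hr).2.comp r (((hasDerivAt_Ph _).comp r (db r)).sub
      ((hasDerivAt_Ph _).comp r (da r)))).congr_deriv ?_
    rw [div_eq_inv_mul]
  have d2 : ∀ r ∈ Set.Icc (0 : ℝ) 1,
      HasDerivAt (fun r => (ph (b r) * (b1 - b0) - ph (a r) * (a1 - a0)) / ph (ψ r))
        (((-b r * ph (b r) * (b1 - b0) * (b1 - b0) - -a r * ph (a r) * (a1 - a0) * (a1 - a0)) * ph (ψ r) +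
          ψ r * (ph (b r) * (b1 - b0) - ph (a r) * (a1 - a0)) ^ 2) / ph (ψ r) ^ 2) r := fun r hr => by
    have := (ph_pos (ψ r)).ne'
    refine (((((hasDerivAt_ph _).comp r (db r)).mul_const (b1 - b0)).sub
      (((hasDerivAt_ph _).comp r (da r)).mul_const (a1 - a0))).div
      ((hasDerivAt_ph _).comp r (d1 r hr)) this).congr_deriv ?_
    simp only [Function.comp, Pi.sub_apply]
    field_simp
    ring
  have cc : ConcaveOn ℝ (Set.Icc (0 : ℝ) 1) ψ := concaveOn_of_hasDerivWithinAt2_nonpos (convex_Icc 0 1)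
    (fun r hr => (d1 r hr).continuousAt.continuousWithinAt)
    (fun r hr => (d1 r (interior_subset hr)).hasDerivWithinAt)
    (fun r hr => (d2 r (interior_subset hr)).hasDerivWithinAt) fun r hr =>
      div_nonpos_of_nonpos_of_nonneg (psi_form (ab r (interior_subset hr)) (e r (interior_subset hr)) _ _)
        (sq_nonneg _)
  have c := cc.2 (Set.left_mem_Icc.2 zero_le_one) (Set.right_mem_Icc.2 zero_le_one)
    (sub_nonneg.2 hl1) hl0 (by ring)
  simp only [smul_eq_mul, mul_zero, mul_one, zero_add] at c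
  have e0 : u0 ≤ ψ 0 := Ph_strictMono.le_iff_le.1 (by
    rw [e 0 (Set.left_mem_Icc.2 zero_le_one), ha, hb]; simpa using h0)
  have e1 : u1 ≤ ψ 1 := Ph_strictMono.le_iff_le.1 (by
    rw [e 1 (Set.right_mem_Icc.2 zero_le_one), ha, hb]; simpa using h1)
  have el := e l ⟨hl0, hl1⟩
  rw [ha, hb] at el
  rw [← el]
  refine Ph_strictMono.monotone (le_trans ?_ c)
  exact add_le_add (mul_le_mul_of_nonneg_left e0 (sub_nonneg.2 hl1)) (mul_le_mul_of_nonneg_left e1 hl0)

end Vale.Agent.P226
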