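import Vale.Agent.P226.Fin

/-! The bound is attained by three cells. -/
namespace Vale.Agent.P226
open MeasureTheory ProbabilityTheory Real Finset
open scoped RealInnerProductSpace

variable {E : Type} [NormedAddCommGroup E] [InnerProductSpace ℝ E] [FiniteDimensional ℝ E]
  [MeasurableSpace E] [BorelSpace E]

theorem sharp_of {e f : E} (he : ‖e‖ = 1) (hf : ‖f‖ = 1) (hef : ⟪e, f⟫ = 0) (m : ℕ) :
    ∃ A : Fin (m + 3) → Set E, (∀ i, MeasurableSet (A i)) ∧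
      (∀ i j, i ≠ j → stdGaussian E (A i ∩ A j) = 0) ∧ stdGaussian E (⋃ i, A i)ᶜ = 0 ∧
      9 / (8 * π) ≤ ∑ i, ‖∫ x in A i, x ∂(stdGaussian E)‖ ^ 2 := by
  have nn : ∀ s t : ℝ, ‖s • e + t • f‖ ^ 2 = s ^ 2 + t ^ 2 := fun s t => by
    rw [norm_add_sq_real, inner_smul_left, inner_smul_right, hef, norm_smul, norm_smul, he, hf]
    simp
  have s3 : √3 ^ 2 = 3 := sq_sqrt (by norm_num)
  obtain ⟨a, ha⟩ : ∃ a, a = (2 : ℝ) • e + (0 : ℝ) • f := ⟨_, rfl⟩
  obtain ⟨b, hb⟩ : ∃ b, b = (-1 : ℝ) • e + √3 • f := ⟨_, rfl⟩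
  obtain ⟨c, hc⟩ : ∃ c, c = (-1 : ℝ) • e + (-√3) • f := ⟨_, rfl⟩
  have sq : ∀ x : E, ‖x‖ ^ 2 = 12 → ‖x‖ = √12 := fun x h => by rw [← h, sqrt_sq (norm_nonneg _)]
  have ab : ‖a - b‖ = √12 := sq _ (by
    rw [show a - b = (3 : ℝ) • e + (-√3) • f by rw [ha, hb]; module, nn]; linarith)
  have ac : ‖a - c‖ = √12 := sq _ (by
    rw [show a - c = (3 : ℝ) • e + √3 • f by rw [ha, hc]; module, nn]; linarith)
  have bc : ‖b - c‖ = √12 := sq _ (by
    rw [show b - c = (0 : ℝ) • e + (2 * √3) • f by rw [hb, hc]; module, nn]; linarith)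
  have na : ‖a‖ ^ 2 = 4 := by rw [ha, nn]; norm_num
  have nb : ‖b‖ ^ 2 = 4 := by rw [hb, nn]; linarith
  have nc : ‖c‖ ^ 2 = 4 := by rw [hc, nn]; linarith
  have p12 : 0 < √12 := by positivity
  have ne : ∀ x y : E, ‖x - y‖ = √12 → x - y ≠ 0 := fun x y h => norm_pos_iff.1 (h ▸ p12)
  have dist : ∀ i j : Fin 3, i ≠ j → ![a, b, c] i - ![a, b, c] j ≠ 0 := fun i j h => by
    fin_cases i <;> fin_cases j <;> first
      | exact absurd rfl h
      | exact ne _ _ (by assumption)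
      | exact ne _ _ (by rw [norm_sub_rev]; assumption)
  have hd : ∀ i j : Fin 3, i ≠ j → stdGaussian E (cell ![a, b, c] i ∩ cell ![a, b, c] j) = 0 := fun i j h =>
    measure_mono_null (fun x hx => by
      change ⟪_ - _, x⟫ = 0
      rw [inner_sub_left, sub_eq_zero]
      exact le_antisymm (hx.2 i) (hx.1 j)) (hyper_null (dist i j h))
  have hu : ∀ x, ∃ i, x ∈ cell ![a, b, c] i := fun x => Finite.exists_max fun i => ⟪![a, b, c] i, x⟫
  have h1 : em ![a, b, c] = ∑ i, ⟪![a, b, c] i, ∫ x in cell ![a, b, c] i, x ∂(stdGaussian E)⟫ := by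
    rw [em, ← Crit_part _ (fun i => (cell_meas _ i).nullMeasurableSet) hd (ae_of_all _ hu)
      (integrable_sup ![a, b, c])]
    refine sum_congr rfl fun i _ => ?_
    rw [← _root_.integral_inner Crit_id.integrableOn]
    exact setIntegral_congr_fun (cell_meas _ i) fun x hx => le_antisymm (ciSup_le hx) (Crit_le _ x i)
  refine ⟨fun i => if h : i.val < 3 then cell ![a, b, c] ⟨i, h⟩ else ∅, fun i => ?_, fun i j h => ?_, ?_, ?_⟩
  · dsimp only
    split_ifs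
    exacts [cell_meas _ _, MeasurableSet.empty]
  · dsimp only
    split_ifs with h1 h2
    · exact hd _ _ fun e => h (Fin.ext (congrArg Fin.val e :))
    all_goals simp
  · rw [Set.compl_empty_iff.2 (Set.eq_univ_of_forall fun x => ?_), measure_empty]
    obtain ⟨i, hi⟩ := hu x
    exact Set.mem_iUnion.2 ⟨⟨i, by omega⟩, by simpa using hi⟩
  · have e0 : ∑ i : Fin (m + 3), ‖∫ x in (if h : i.val < 3 then cell ![a, b, c] ⟨i, h⟩ else ∅), x
        ∂(stdGaussian E)‖ ^ 2 = ∑ i : Fin 3, ‖∫ x in cell ![a, b, c] i, x ∂(stdGaussian E)‖ ^ 2 := by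
      simp only [Fin.sum_univ_succ, Fin.val_succ, Fin.val_zero]
      rw [sum_eq_zero (s := (univ : Finset (Fin m))) fun i _ => by rw [dif_neg (by omega)]; simp]
      simp
    rw [e0]
    have h2 := em3 a b c
    rw [ab, ac, bc, h1] at h2
    have h3 := sum_mul_sq_le_sq_mul_sq univ (fun i => ‖![a, b, c] i‖)
      fun i => ‖∫ x in cell ![a, b, c] i, x ∂(stdGaussian E)‖
    have h4 : ∑ i, ‖![a, b, c] i‖ ^ 2 = 12 := by
      simp [Fin.sum_univ_succ, na, nb, nc]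
      norm_num
    have h5 := pow_le_pow_left₀ (by rw [h2]; positivity) (sum_le_sum fun i (_ : i ∈ univ) =>
      real_inner_le_norm (![a, b, c] i) (∫ x in cell ![a, b, c] i, x ∂(stdGaussian E))) 2
    have h6 : ((√12 + √12 + √12) / (2 * √(2 * π))) ^ 2 = 12 * (9 / (8 * π)) := by
      rw [div_pow, mul_pow, sq_sqrt two_pi_pos.le, show √12 + √12 + √12 = 3 * √12 by ring, mul_pow,
        sq_sqrt (by norm_num)]
      field_simp
      norm_num
    rw [h2, h6] at h5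
    rw [h4] at h3
    linarith

theorem sharp_gam {d k : ℕ} (hd : 2 ≤ d) (hk : 3 ≤ k) (γ : Measure (EuclideanSpace ℝ (Fin d)))
    (hγ : γ = volume.withDensity fun x =>
      ENNReal.ofReal ((2 * π) ^ (-(d : ℝ) / 2) * exp (-‖x‖ ^ 2 / 2))) :
    ∃ A : Fin k → Set (EuclideanSpace ℝ (Fin d)), (∀ i, MeasurableSet (A i)) ∧
      (∀ i j, i ≠ j → γ (A i ∩ A j) = 0) ∧ γ (⋃ i, A i)ᶜ = 0 ∧ 9 / (8 * π) ≤ ∑ i, ‖∫ x in A i, x ∂γ‖ ^ 2 := by
  obtain rfl : γ = stdGaussian _ := hγ.trans (gam_eq d)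
  obtain ⟨m, rfl⟩ : ∃ m, k = m + 3 := ⟨k - 3, by omega⟩
  exact sharp_of (e := EuclideanSpace.single ⟨0, by omega⟩ 1) (f := EuclideanSpace.single ⟨1, by omega⟩ 1)
    (by simp) (by simp) (by simp [EuclideanSpace.inner_single_left, Fin.ext_iff]) m

end Vale.Agent.P226
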